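import Vale.Agent.P204.Full.Statement

/-!
P204 elliptic module, part 1: weakly singular integral operators `f ↦ ∫ k x z (f (x - z)) dz` on `ℝ⁴`,
kernels bounded with all their `x`-derivatives by `‖z‖⁻³` on a small ball. Such an operator preserves
smoothness and all its derivative bounds are proportional to the radius of that ball.
-/

open scoped ContDiff
open MeasureTheory Set

noncomputable section

namespace Vale.Agent.P204.Full.Elliptic

/-- The weight `‖z‖⁻³` cut off to the ball of radius `r`. -/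
def wt (r : ℝ) : R4 → ℝ := (Metric.ball (0 : R4) r).indicator fun z => (‖z‖ ^ 3)⁻¹

/-- The integral of `‖z‖⁻³` over the unit ball. -/
def wMass : ℝ := 4 * (volume : Measure R4).real (Metric.ball (0 : R4) 1)

lemma wt_nonneg (r : ℝ) (z : R4) : 0 ≤ wt r z :=
  indicator_nonneg (fun z _ => inv_nonneg.2 (by positivity)) z

lemma wMass_nonneg : 0 ≤ wMass := mul_nonneg (by norm_num) measureReal_nonneg

lemma wt_eq_comp (r : ℝ) (z : R4) :
    wt r z = (fun y : ℝ => (Iio r).indicator (fun y => (y ^ 3)⁻¹) y) ‖z‖ := by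
  simp only [wt, indicator, Metric.mem_ball, dist_zero_right, mem_Iio]

lemma wt_integrable (r : ℝ) : Integrable (wt r) := by
  have e : wt r = fun z => (fun y : ℝ => (Iio r).indicator (fun y => (y ^ 3)⁻¹) y) ‖z‖ :=
    funext (wt_eq_comp r)
  rw [e, integrable_fun_norm_addHaar]
  have h : IntegrableOn (fun _ : ℝ => (1 : ℝ)) (Ioo 0 r) :=
    integrableOn_const (measure_Ioo_lt_top.ne)
  refine (h.integrable_indicator measurableSet_Ioo).integrableOn.congr_fun ?_ measurableSet_Ioi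
  intro y hy
  rw [finrank_euclideanSpace_fin]
  by_cases hr : y < r
  · simp [indicator, hr, mem_Ioi.1 hy, (mem_Ioi.1 hy).ne']
  · simp [indicator, hr]

lemma wt_integral {r : ℝ} (hr : 0 ≤ r) : ∫ z, wt r z = wMass * r := by
  simp only [wt_eq_comp]
  rw [integral_fun_norm_addHaar, finrank_euclideanSpace_fin]
  have e : ∫ y in Ioi (0 : ℝ), y ^ (4 - 1) • (Iio r).indicator (fun y => (y ^ 3)⁻¹) y
      = ∫ y in Ioi (0 : ℝ), (Ioo 0 r).indicator (fun _ => (1 : ℝ)) y := by
    refine setIntegral_congr_fun measurableSet_Ioi fun y hy => ?_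
    by_cases hr : y < r
    · simp [indicator, hr, mem_Ioi.1 hy, (mem_Ioi.1 hy).ne']
    · simp [indicator, hr]
  have e2 : Ioi (0 : ℝ) ∩ Ioo 0 r = Ioo 0 r := inter_eq_right.2 Ioo_subset_Ioi_self
  rw [e, setIntegral_indicator measurableSet_Ioo, e2, setIntegral_const]
  simp [wMass, measureReal_def, hr, mul_assoc]

variable {V W : Type} [NormedAddCommGroup V] [NormedSpace ℝ V] [NormedAddCommGroup W]
  [NormedSpace ℝ W]

/-- A kernel, smooth off `z = 0`, whose `x`-derivatives are bounded by the weight. -/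
structure IsKernel (r : ℝ) (C : ℕ → ℝ) (k : R4 → R4 → V →L[ℝ] W) : Prop where
  smooth : ContDiffOn ℝ ∞ (fun p : R4 × R4 => k p.1 p.2) {p | p.2 ≠ 0}
  bound : ∀ m x z, z ≠ 0 → ‖iteratedFDeriv ℝ m (fun y => k y z) x‖ ≤ C m * wt r z
  nonneg : ∀ m, 0 ≤ C m

/-- The integral operator of a kernel. -/
def intOp (k : R4 → R4 → V →L[ℝ] W) (f : R4 → V) (x : R4) : W :=
  ∫ z, k x z (f (x - z))

/-- The kernel of `x`-derivatives, acting on values. -/
def derivKer (k : R4 → R4 → V →L[ℝ] W) : R4 → R4 → V →L[ℝ] (R4 →L[ℝ] W) :=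
  fun x z => ContinuousLinearMap.flipₗᵢ ℝ R4 V W (fderiv ℝ (fun y => k y z) x)

/-- The kernel acting on derivatives by composition. -/
def compKer (k : R4 → R4 → V →L[ℝ] W) : R4 → R4 → (R4 →L[ℝ] V) →L[ℝ] (R4 →L[ℝ] W) :=
  fun x z => ContinuousLinearMap.compL ℝ R4 V W (k x z)

/-- Bounds of the derivatives of `intOp k f`. -/
def opBound : ℕ → (ℕ → ℝ) → (ℕ → ℝ) → ℝ
  | 0, C, B => wMass * (C 0 * B 0)
  | m + 1, C, B => opBound m (fun i => C (i + 1)) B + opBound m C (fun i => B (i + 1))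

lemma IsKernel.norm_le {r : ℝ} {C : ℕ → ℝ} {k : R4 → R4 → V →L[ℝ] W} (hk : IsKernel r C k)
    {z : R4} (hz : z ≠ 0) (x : R4) : ‖k x z‖ ≤ C 0 * wt r z := by
  simpa using hk.bound 0 x z hz

lemma IsKernel.contDiff_slice {r : ℝ} {C : ℕ → ℝ} {k : R4 → R4 → V →L[ℝ] W}
    (hk : IsKernel r C k) {z : R4} (hz : z ≠ 0) : ContDiff ℝ ∞ fun y => k y z := by
  have h := hk.smooth.comp (t := {p : R4 × R4 | p.2 ≠ 0})
    (contDiff_id.prodMk (contDiff_const (c := z))).contDiffOn (s := univ) fun y _ => hz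
  exact contDiffOn_univ.1 h

lemma isOpen_offZero : IsOpen {p : R4 × R4 | p.2 ≠ 0} :=
  isOpen_ne.preimage continuous_snd

lemma IsKernel.derivKer {r : ℝ} {C : ℕ → ℝ} {k : R4 → R4 → V →L[ℝ] W} (hk : IsKernel r C k) :
    IsKernel r (fun i => C (i + 1)) (derivKer k) where
  nonneg m := hk.nonneg _
  bound m x z hz := by
    have h := LinearIsometryEquiv.norm_iteratedFDeriv_comp_left (𝕜 := ℝ) (G := V →L[ℝ] R4 →L[ℝ] W)
      (ContinuousLinearMap.flipₗᵢ ℝ R4 V W) (fderiv ℝ fun y => k y z) x (i := m)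
    rw [norm_iteratedFDeriv_fderiv] at h
    exact h.trans_le (hk.bound (m + 1) x z hz)
  smooth := by
    have h : ContDiffOn ℝ ∞ (fun p : R4 × R4 => fderiv ℝ (fun y => k y p.2) p.1)
        {p | p.2 ≠ 0} := by
      have hF := (hk.smooth.fderiv_of_isOpen isOpen_offZero (m := ∞) le_rfl)
      have hL := (ContinuousLinearMap.contDiff (F := R4 →L[ℝ] V →L[ℝ] W) (n := ∞)
        ((ContinuousLinearMap.compL ℝ R4 (R4 × R4) (V →L[ℝ] W)).flip
          (ContinuousLinearMap.inl ℝ R4 R4))).comp_contDiffOn hF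
      refine hL.congr fun p hp => ?_
      have hd := (hk.smooth.contDiffAt (isOpen_offZero.mem_nhds hp)).differentiableAt
        (by simp)
      have h2 := hd.hasFDerivAt.comp p.1 (hasFDerivAt_prodMk_left (𝕜 := ℝ) p.1 p.2)
      exact h2.fderiv
    exact (LinearIsometryEquiv.contDiff (F := V →L[ℝ] R4 →L[ℝ] W) (n := ∞)
      (ContinuousLinearMap.flipₗᵢ ℝ R4 V W)).comp_contDiffOn h

lemma IsKernel.compKer {r : ℝ} {C : ℕ → ℝ} {k : R4 → R4 → V →L[ℝ] W} (hk : IsKernel r C k) :
    IsKernel r C (compKer k) where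
  nonneg := hk.nonneg
  bound m x z hz := by
    have h := ContinuousLinearMap.norm_iteratedFDeriv_comp_left
      (G := (R4 →L[ℝ] V) →L[ℝ] R4 →L[ℝ] W) (ContinuousLinearMap.compL ℝ R4 V W)
      ((hk.contDiff_slice hz).contDiffAt (x := x)) (n := m) (by exact_mod_cast le_top)
    refine h.trans ((mul_le_of_le_one_left (norm_nonneg _) ?_).trans (hk.bound m x z hz))
    exact ContinuousLinearMap.norm_compL_le ℝ R4 V W
  smooth := by
    have h := (ContinuousLinearMap.contDiff (F := (R4 →L[ℝ] V) →L[ℝ] R4 →L[ℝ] W) (n := ∞)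
      (ContinuousLinearMap.compL ℝ R4 V W)).comp_contDiffOn hk.smooth
    exact h

lemma ae_ne_zero : ∀ᵐ z : R4, z ≠ 0 := by
  simpa using (countable_singleton (0 : R4)).ae_notMem volume

lemma IsKernel.aestronglyMeasurable {r : ℝ} {C : ℕ → ℝ} {k : R4 → R4 → V →L[ℝ] W}
    (hk : IsKernel r C k) {f : R4 → V} (hf : Continuous f) (x : R4) :
    AEStronglyMeasurable (fun z => k x z (f (x - z))) volume := by
  have hs : ContinuousOn (fun z => k x z (f (x - z))) {z : R4 | z ≠ 0} := by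
    refine ContinuousOn.clm_apply ?_ (hf.comp (continuous_const.sub continuous_id)).continuousOn
    exact hk.smooth.continuousOn.comp (Continuous.prodMk continuous_const continuous_id).continuousOn
      fun z hz => hz
  have h := hs.aestronglyMeasurable (μ := volume) (isOpen_ne.measurableSet)
  rwa [Measure.restrict_eq_self_of_ae_mem (s := {z : R4 | z ≠ 0}) ae_ne_zero] at h

lemma IsKernel.integrable {r : ℝ} {C : ℕ → ℝ} {k : R4 → R4 → V →L[ℝ] W}
    (hk : IsKernel r C k) {f : R4 → V} (hf : Continuous f) {b : ℝ} (hb : ∀ x, ‖f x‖ ≤ b)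
    (x : R4) : Integrable fun z => k x z (f (x - z)) := by
  refine ((wt_integrable r).const_mul (C 0 * b)).mono' (hk.aestronglyMeasurable hf x) ?_
  filter_upwards [ae_ne_zero] with z hz
  calc ‖k x z (f (x - z))‖ ≤ ‖k x z‖ * ‖f (x - z)‖ := (k x z).le_opNorm _
    _ ≤ C 0 * wt r z * b :=
        mul_le_mul (hk.norm_le hz x) (hb _) (norm_nonneg _)
          (mul_nonneg (hk.nonneg 0) (wt_nonneg r z))
    _ = C 0 * b * wt r z := by ring

lemma IsKernel.norm_intOp {r : ℝ} {C : ℕ → ℝ} {k : R4 → R4 → V →L[ℝ] W}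
    (hk : IsKernel r C k) (hr : 0 ≤ r) {f : R4 → V} (hf : Continuous f) {b : ℝ}
    (hb : ∀ x, ‖f x‖ ≤ b) (x : R4) : ‖intOp k f x‖ ≤ r * (wMass * (C 0 * b)) := by
  calc ‖intOp k f x‖ ≤ ∫ z, ‖k x z (f (x - z))‖ := norm_integral_le_integral_norm _
    _ ≤ ∫ z, C 0 * b * wt r z := by
        refine integral_mono_ae (hk.integrable hf hb x).norm ((wt_integrable r).const_mul _) ?_
        filter_upwards [ae_ne_zero] with z hz
        calc ‖k x z (f (x - z))‖ ≤ ‖k x z‖ * ‖f (x - z)‖ := (k x z).le_opNorm _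
          _ ≤ C 0 * wt r z * b :=
              mul_le_mul (hk.norm_le hz x) (hb _) (norm_nonneg _)
                (mul_nonneg (hk.nonneg 0) (wt_nonneg r z))
          _ = C 0 * b * wt r z := by ring
    _ = r * (wMass * (C 0 * b)) := by rw [integral_const_mul, wt_integral hr]; ring

lemma IsKernel.hasFDerivAt_intOp {r : ℝ} {C : ℕ → ℝ} {k : R4 → R4 → V →L[ℝ] W}
    (hk : IsKernel r C k) {f : R4 → V} (hf : ContDiff ℝ ∞ f) {B : ℕ → ℝ}
    (hB : ∀ m x, ‖iteratedFDeriv ℝ m f x‖ ≤ B m) (x : R4) :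
    HasFDerivAt (intOp k f)
      (intOp (Elliptic.derivKer k) f x + intOp (Elliptic.compKer k) (fderiv ℝ f) x) x := by
  have h0 : ∀ y, ‖f y‖ ≤ B 0 := fun y => by simpa using hB 0 y
  have h1 : ∀ y, ‖fderiv ℝ f y‖ ≤ B 1 := fun y => by
    simpa [norm_iteratedFDeriv_one] using hB 1 y
  have hc : Continuous (fderiv ℝ f) := hf.continuous_fderiv (by simp)
  have i1 := hk.derivKer.integrable hf.continuous h0
  have i2 := hk.compKer.integrable hc h1
  have e : intOp (Elliptic.derivKer k) f x + intOp (Elliptic.compKer k) (fderiv ℝ f) x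
      = ∫ z, (Elliptic.derivKer k x z (f (x - z)) + Elliptic.compKer k x z (fderiv ℝ f (x - z))) :=
    (integral_add (i1 x) (i2 x)).symm
  rw [e]
  refine hasFDerivAt_integral_of_dominated_of_fderiv_le
    (F := fun y z => k y z (f (y - z)))
    (F' := fun y z => Elliptic.derivKer k y z (f (y - z))
      + Elliptic.compKer k y z (fderiv ℝ f (y - z)))
    (bound := fun z => (C 1 * B 0 + C 0 * B 1) * wt r z) (s := univ) Filter.univ_mem
    (Filter.Eventually.of_forall fun y => hk.aestronglyMeasurable hf.continuous y)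
    (hk.integrable hf.continuous h0 x) ((i1 x).1.add (i2 x).1) ?_
    ((wt_integrable r).const_mul _) ?_
  · filter_upwards [ae_ne_zero] with z hz y _
    refine (norm_add_le _ _).trans ?_
    have a1 := mul_le_mul (hk.derivKer.norm_le hz y) (h0 (y - z)) (norm_nonneg _)
      (mul_nonneg (hk.nonneg 1) (wt_nonneg r z))
    have a2 := mul_le_mul (hk.compKer.norm_le hz y) (h1 (y - z)) (norm_nonneg _)
      (mul_nonneg (hk.nonneg 0) (wt_nonneg r z))
    nlinarith [(Elliptic.derivKer k y z).le_opNorm (f (y - z)),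
      (Elliptic.compKer k y z).le_opNorm (fderiv ℝ f (y - z))]
  · filter_upwards [ae_ne_zero] with z hz y _
    have d1 := ((hk.contDiff_slice hz).differentiable (by simp) y).hasFDerivAt
    have d2 : HasFDerivAt (fun w : R4 => f (w - z)) (fderiv ℝ f (y - z)) y := by
      have h := (hf.differentiable (by simp) (y - z)).hasFDerivAt.comp y
        ((hasFDerivAt_id y).sub_const z)
      rw [ContinuousLinearMap.comp_id] at h
      exact h
    refine (d1.clm_apply d2).congr_fderiv ?_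
    ext h
    simp [Elliptic.derivKer, Elliptic.compKer, ContinuousLinearMap.flipₗᵢ, add_comm]

/-- The operator of a kernel preserves smoothness; every derivative bound is linear in the radius. -/
theorem intOp_smooth_bound (m : ℕ) : ∀ {V W : Type} [NormedAddCommGroup V] [NormedSpace ℝ V]
    [NormedAddCommGroup W] [NormedSpace ℝ W] {r : ℝ} {C B : ℕ → ℝ} {k : R4 → R4 → V →L[ℝ] W}
    {f : R4 → V}, IsKernel r C k → 0 ≤ r → ContDiff ℝ ∞ f →
    (∀ i x, ‖iteratedFDeriv ℝ i f x‖ ≤ B i) →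
      ContDiff ℝ (m : ℕ∞ω) (intOp k f) ∧
        ∀ x, ‖iteratedFDeriv ℝ m (intOp k f) x‖ ≤ r * opBound m C B := by
  induction m with
  | zero =>
    intro V W _ _ _ _ r C B k f hk hr hf hB
    have h0 : ∀ y, ‖f y‖ ≤ B 0 := fun y => by simpa using hB 0 y
    refine ⟨?_, fun x => ?_⟩
    · rw [Nat.cast_zero, contDiff_zero]
      exact continuous_iff_continuousAt.2 fun x => (hk.hasFDerivAt_intOp hf hB x).continuousAt
    · simpa [opBound] using hk.norm_intOp hr hf.continuous h0 x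
  | succ m ih =>
    intro V W _ _ _ _ r C B k f hk hr hf hB
    have e : fderiv ℝ (intOp k f)
        = fun x => intOp (Elliptic.derivKer k) f x + intOp (Elliptic.compKer k) (fderiv ℝ f) x :=
      funext fun x => (hk.hasFDerivAt_intOp hf hB x).fderiv
    have p1 := ih hk.derivKer hr hf hB
    have p2 := ih (f := fderiv ℝ f) hk.compKer hr (hf.fderiv_right (by simp))
      (B := fun i => B (i + 1)) fun i x => by rw [norm_iteratedFDeriv_fderiv]; exact hB _ x
    refine ⟨?_, fun x => ?_⟩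
    · rw [Nat.cast_succ, contDiff_succ_iff_fderiv]
      refine ⟨fun x => (hk.hasFDerivAt_intOp hf hB x).differentiableAt, by simp, ?_⟩
      rw [e]
      exact p1.1.add p2.1
    · rw [← norm_iteratedFDeriv_fderiv, e]
      refine (congrArg norm (fun_iteratedFDeriv_add_apply p1.1.contDiffAt p2.1.contDiffAt)).trans_le ?_
      refine (norm_add_le _ _).trans ?_
      have := p1.2 x
      have := p2.2 x
      rw [opBound]
      linarith

theorem intOp_contDiff {r : ℝ} {C B : ℕ → ℝ} {k : R4 → R4 → V →L[ℝ] W} {f : R4 → V}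
    (hk : IsKernel r C k) (hr : 0 ≤ r) (hf : ContDiff ℝ ∞ f)
    (hB : ∀ i x, ‖iteratedFDeriv ℝ i f x‖ ≤ B i) : ContDiff ℝ ∞ (intOp k f) :=
  contDiff_infty.2 fun m => (intOp_smooth_bound m hk hr hf hB).1

/-- A bound linear in a uniform bound of the derivatives up to order `m`. -/
theorem opBound_le (m : ℕ) : ∀ C : ℕ → ℝ, (∀ i, 0 ≤ C i) →
    ∃ D, 0 ≤ D ∧ ∀ B : ℕ → ℝ, ∀ b : ℝ, (∀ i ≤ m, 0 ≤ B i ∧ B i ≤ b) → opBound m C B ≤ D * b := by
  induction m with
  | zero =>
    intro C hC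
    refine ⟨wMass * C 0, mul_nonneg wMass_nonneg (hC 0), fun B b hb => ?_⟩
    rw [opBound, mul_assoc]
    exact mul_le_mul_of_nonneg_left (mul_le_mul_of_nonneg_left (hb 0 le_rfl).2 (hC 0)) wMass_nonneg
  | succ m ih =>
    intro C hC
    obtain ⟨D1, n1, h1⟩ := ih (fun i => C (i + 1)) fun i => hC _
    obtain ⟨D2, n2, h2⟩ := ih C hC
    refine ⟨D1 + D2, by positivity, fun B b hb => ?_⟩
    rw [opBound, add_mul]
    exact add_le_add (h1 B b fun i hi => hb i (hi.trans m.le_succ))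
      (h2 _ b fun i hi => hb (i + 1) (Nat.succ_le_succ hi))

end Vale.Agent.P204.Full.Elliptic
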