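import Vale.Agent.P204.Full.Elliptic.Bd

/-!
P204 elliptic module, part 6: solvability and regularity for a symmetric operator with parametrices,
seen through an isometric embedding of its fields into tests on `ℝ⁴`.
-/

open scoped ContDiff RealInnerProductSpace Topology
open MeasureTheory Set Filter

noncomputable section

namespace Vale.Agent.P204.Full.Elliptic

universe u

variable (E : Type u) [AddCommGroup E] [Module ℝ E] (V : Type) [NormedAddCommGroup V]
  [InnerProductSpace ℝ V] [FiniteDimensional ℝ V]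

/-- A parametrix good for derivatives up to order `j`, with transposed operators. -/
structure Par (Lift : E →ₗ[ℝ] Test V) (Proj : Test V →ₗ[ℝ] E) (L : E →ₗ[ℝ] E) (B : Set R4)
    (j : ℕ) where
  R : Test V →ₗ[ℝ] E
  K : Test V →ₗ[ℝ] Test V
  S : Test V →ₗ[ℝ] Test V
  R' : Test V →ₗ[ℝ] Test V
  K' : Test V →ₗ[ℝ] Test V
  S' : Test V →ₗ[ℝ] Test V
  C : ℝ
  C_nonneg : 0 ≤ C
  ident : ∀ g, Lift (L (R g)) = Lift (Proj g) + K g + S g
  adjR : ∀ g h, ⟪toL2 V (Lift (R g)), toL2 V h⟫ = ⟪toL2 V g, toL2 V (R' h)⟫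
  adjK : ∀ g h, ⟪toL2 V (K g), toL2 V h⟫ = ⟪toL2 V g, toL2 V (K' h)⟫
  adjS : ∀ g h, ⟪toL2 V (S g), toL2 V h⟫ = ⟪toL2 V g, toL2 V (S' h)⟫
  K_l2 : ∀ h, ‖toL2 V (K' h)‖ ≤ 2⁻¹ * ‖toL2 V h‖
  R_l2 : ∀ h, ‖toL2 V (R' h)‖ ≤ C * ‖toL2 V h‖
  S_l2 : ∀ h, ‖toL2 V (S' h)‖ ≤ C * ‖toL2 V h‖
  K_cj : ∀ (h : Test V) b, Bd j b (h : R4 → V) → Bd j (2⁻¹ * b) (K' h : R4 → V)
  R_cj : ∀ (h : Test V) b, Bd j b (h : R4 → V) → Bd j (C * b) (R' h : R4 → V)
  S_cj : ∀ h : Test V, Bd j (C * ‖toL2 V h‖) (S' h : R4 → V)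
  supp : ∀ h : Test V, ∀ x ∉ B,
    (K' h : R4 → V) x = 0 ∧ (R' h : R4 → V) x = 0 ∧ (S' h : R4 → V) x = 0

/-- A symmetric operator seen through an isometric embedding with projection. -/
structure Sys where
  Lift : E →ₗ[ℝ] Test V
  Proj : Test V →ₗ[ℝ] E
  L : E →ₗ[ℝ] E
  proj_lift : ∀ u, Proj (Lift u) = u
  proj_adj : ∀ g h, ⟪toL2 V (Lift (Proj g)), toL2 V h⟫ = ⟪toL2 V g, toL2 V (Lift (Proj h))⟫
  L_symm : ∀ u w,
    ⟪toL2 V (Lift (L u)), toL2 V (Lift w)⟫ = ⟪toL2 V (Lift u), toL2 V (Lift (L w))⟫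
  B : Set R4
  B_compact : IsCompact B
  lift_supp : ∀ u, ∀ x ∉ B, (Lift u : R4 → V) x = 0
  par : ∀ j, Nonempty (Par E V Lift Proj L B j)

variable {E V}

lemma toL2_injective : Function.Injective (toL2 V) := fun f g h => by
  refine Subtype.ext (Continuous.ae_eq_iff_eq volume (Test.smooth f).continuous
    (Test.smooth g).continuous |>.1 ?_)
  filter_upwards [toL2_coeFn f, toL2_coeFn g] with x h1 h2
  rw [← h1, ← h2, h]

lemma eq_zero_of_inner_tests {v : L2 V} (h : ∀ g : Test V, ⟪v, toL2 V g⟫ = 0) : v = 0 := by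
  refine inner_self_eq_zero (𝕜 := ℝ).1 ?_
  exact DenseRange.induction_on (p := fun y => ⟪v, y⟫ = (0 : ℝ)) toL2_dense v
    (isClosed_eq (continuous_const.inner continuous_id) continuous_const) h

lemma norm_toL2_le {B : Set R4} (hB : IsCompact B) (f : Test V) {b : ℝ}
    (hs : ∀ x ∉ B, (f : R4 → V) x = 0) (hb : ∀ x, ‖(f : R4 → V) x‖ ≤ b) :
    ‖toL2 V f‖ ≤ Real.sqrt (volume.real B) * b := by
  have b0 : 0 ≤ b := (norm_nonneg _).trans (hb 0)
  rw [← Real.sqrt_sq (norm_nonneg (toL2 V f)), ← Real.sqrt_sq b0,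
    ← Real.sqrt_mul measureReal_nonneg, norm_toL2_sq]
  refine Real.sqrt_le_sqrt ?_
  rw [← setIntegral_eq_integral_of_forall_compl_eq_zero (s := B) (fun x hx => by simp [hs x hx]),
    ← smul_eq_mul, ← setIntegral_const]
  have c : Continuous fun x => ‖(f : R4 → V) x‖ ^ 2 := (Test.smooth f).continuous.norm.pow 2
  exact setIntegral_mono (c.continuousOn.integrableOn_compact hB)
    (integrableOn_const hB.measure_lt_top.ne) fun x => pow_le_pow_left₀ (norm_nonneg _) (hb x) 2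

/-- A functional dominated by `‖A φ‖` is the pairing with an element of the closed range. -/
lemma exists_riesz {H : Type*} [NormedAddCommGroup H] [InnerProductSpace ℝ H] [CompleteSpace H]
    (A : E →ₗ[ℝ] H) (a : E →ₗ[ℝ] ℝ) {c : ℝ} (hc : 0 ≤ c) (h : ∀ φ, |a φ| ≤ c * ‖A φ‖) :
    ∃ v ∈ (LinearMap.range A).topologicalClosure, ‖v‖ ≤ c ∧ ∀ φ, ⟪v, A φ⟫ = a φ := by
  set K := (LinearMap.range A).topologicalClosure with hK
  haveI : CompleteSpace K := (Submodule.isClosed_topologicalClosure _).completeSpace_coe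
  set e : E →ₗ[ℝ] K := A.codRestrict K fun φ =>
    Submodule.le_topologicalClosure _ (LinearMap.mem_range_self A φ) with he
  have hd : DenseRange e := fun x => by
    rw [closure_subtype, ← range_comp]
    exact x.2
  have hn : ∀ φ, ‖a φ‖ ≤ c * ‖e φ‖ := h
  set F : StrongDual ℝ K := a.extendOfNorm e
  refine ⟨((InnerProductSpace.toDual ℝ K).symm F : K), Subtype.mem _, ?_, fun φ => ?_⟩
  · rw [Submodule.norm_coe, LinearIsometryEquiv.norm_map]
    exact LinearMap.opNorm_extendOfNorm_le (f := a) (e := e) hd hc hn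
  · have h1 := InnerProductSpace.toDual_symm_apply (𝕜 := ℝ) (E := K) (x := e φ) (y := F)
    rw [show F (e φ) = a φ from LinearMap.extendOfNorm_eq (f := a) (e := e) hd ⟨c, hn⟩ φ] at h1
    exact h1

variable (S : Sys E V)

/-- The fields inside `L²`. -/
def Sys.emb : E →ₗ[ℝ] L2 V := (toL2 V).comp S.Lift

lemma Sys.emb_apply (u : E) : S.emb u = toL2 V (S.Lift u) := rfl

lemma Sys.emb_injective : Function.Injective S.emb := fun u w h => by
  rw [← S.proj_lift u, ← S.proj_lift w, toL2_injective (V := V) h]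

/-- The closure of the fields in `L²`. -/
def Sys.H : Submodule ℝ (L2 V) := (LinearMap.range S.emb).topologicalClosure

/-- A weak solution of `L v = f`. -/
def Sys.Weak (v : L2 V) (f : E) : Prop := ∀ φ, ⟪v, S.emb (S.L φ)⟫ = ⟪S.emb f, S.emb φ⟫

lemma Sys.emb_mem (u : E) : S.emb u ∈ S.H :=
  Submodule.le_topologicalClosure _ (LinearMap.mem_range_self S.emb u)

lemma Sys.weak_emb (u : E) : S.Weak (S.emb u) (S.L u) := fun φ => (S.L_symm u φ).symm

lemma Sys.inner_proj {v : L2 V} (hv : v ∈ S.H) (g : Test V) :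
    ⟪v, S.emb (S.Proj g)⟫ = ⟪v, toL2 V g⟫ := by
  refine closure_minimal (t := {v : L2 V | ⟪v, S.emb (S.Proj g)⟫ = ⟪v, toL2 V g⟫}) ?_
    (isClosed_eq (continuous_id.inner continuous_const) (continuous_id.inner continuous_const)) hv
  rintro w ⟨u, rfl⟩
  simp only [mem_setOf_eq, Sys.emb_apply, ← S.proj_adj, S.proj_lift]

lemma inner_extOp {A A' : Test V →ₗ[ℝ] Test V} {c : ℝ}
    (hc : ∀ h, ‖toL2 V (A' h)‖ ≤ c * ‖toL2 V h‖)
    (hadj : ∀ g h, ⟪toL2 V (A g), toL2 V h⟫ = ⟪toL2 V g, toL2 V (A' h)⟫) (v : L2 V) (g : Test V) :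
    ⟪extOp A' v, toL2 V g⟫ = ⟪v, toL2 V (A g)⟫ := by
  refine DenseRange.induction_on (p := fun v => ⟪extOp A' v, toL2 V g⟫ = ⟪v, toL2 V (A g)⟫)
    toL2_dense v (isClosed_eq ((extOp A').continuous.inner continuous_const)
      (continuous_id.inner continuous_const)) fun a => ?_
  rw [extOp_apply hc, real_inner_comm (toL2 V g), ← hadj, real_inner_comm]

lemma Sys.weak_id {j : ℕ} (P : Par E V S.Lift S.Proj S.L S.B j) {v : L2 V} (hv : v ∈ S.H) {f : E}
    (hw : S.Weak v f) :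
    v + extOp P.K' v + extOp P.S' v = toL2 V (P.R' (S.Lift f)) := by
  refine sub_eq_zero.1 (eq_zero_of_inner_tests fun g => ?_)
  have e1 : ⟪toL2 V (P.R' (S.Lift f)), toL2 V g⟫ = ⟪S.emb f, S.emb (P.R g)⟫ := by
    rw [real_inner_comm, ← P.adjR, Sys.emb_apply, Sys.emb_apply, real_inner_comm]
  have e2 := hw (P.R g)
  rw [Sys.emb_apply S (S.L (P.R g)), P.ident, map_add, map_add, inner_add_right, inner_add_right,
    ← Sys.emb_apply S (S.Proj g), S.inner_proj hv, ← inner_extOp P.K_l2 P.adjK,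
    ← inner_extOp P.S_l2 P.adjS, ← e1] at e2
  simp only [inner_sub_left, inner_add_left]
  linarith

lemma exists_test_near (v : L2 V) : ∃ a : ℕ → Test V, ∀ n,
    ‖toL2 V (a n) - v‖ ≤ (1 / 2) ^ n ∧ ‖toL2 V (a n)‖ ≤ 2 * ‖v‖ := by
  by_cases hv : v = 0
  · exact ⟨fun _ => 0, fun n => by simp [hv]⟩
  have key : ∀ n : ℕ, ∃ a : Test V, dist v (toL2 V a) < min ((1 / 2 : ℝ) ^ n) ‖v‖ := fun n =>
    (toL2_dense (V := V)).exists_dist_lt v (lt_min (by positivity) (norm_pos_iff.2 hv))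
  choose a ha using key
  refine ⟨a, fun n => ?_⟩
  have h := ha n
  rw [dist_eq_norm, norm_sub_rev] at h
  refine ⟨h.le.trans (min_le_left _ _), ?_⟩
  have h1 := norm_le_norm_add_norm_sub' (toL2 V (a n)) v
  have h2 := h.le.trans (min_le_right _ _)
  linarith

/-- The approximating sequence of a weak solution. -/
def approx (R0 : Test V) (K S : Test V →ₗ[ℝ] Test V) (a : ℕ → Test V) : ℕ → Test V
  | 0 => 0
  | n + 1 => R0 - S (a n) - K (approx R0 K S a n)

lemma rec_bound {e : ℕ → ℝ} {c D : ℝ} (hc : 0 ≤ c) (h0 : e 0 ≤ D) (hD : 4 * c ≤ D)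
    (hstep : ∀ n, e (n + 1) ≤ c * (1 / 2) ^ n + 2⁻¹ * e n) : ∀ n, e n ≤ D * (3 / 4) ^ n := by
  intro n
  induction n with
  | zero => simpa using h0
  | succ n ih =>
    have h1 : (1 / 2 : ℝ) ^ n ≤ (3 / 4) ^ n := pow_le_pow_left₀ (by norm_num) (by norm_num) n
    have h2 := hstep n
    rw [pow_succ]
    nlinarith [mul_le_mul_of_nonneg_left h1 hc, pow_nonneg (show (0 : ℝ) ≤ 3 / 4 by norm_num) n]

lemma Sys.rep {j : ℕ} (P : Par E V S.Lift S.Proj S.L S.B j) {v : L2 V} (hv : v ∈ S.H) {f : E}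
    (hw : S.Weak v f) {bF : ℝ} (hbF : Bd j bF (S.Lift f : R4 → V)) :
    ∃ w : R4 → V, ContDiff ℝ (j : ℕ∞ω) w ∧ Bd j (4 * P.C * (bF + ‖v‖)) w ∧ v =ᵐ[volume] w ∧
      ∀ x ∉ S.B, w x = 0 := by
  obtain ⟨a, ha⟩ := exists_test_near v
  set C := P.C
  have hC : 0 ≤ C := P.C_nonneg
  have hF0 : 0 ≤ bF := hbF.nonneg
  set w := approx (P.R' (S.Lift f)) P.K' P.S' a with hwdef
  set b := 2 * C * (bF + 2 * ‖v‖) with hb
  have hsm : ∀ g : Test V, ContDiff ℝ ∞ (g : R4 → V) := Test.smooth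
  have hbd : ∀ n, Bd j b (w n : R4 → V) := by
    intro n
    induction n with
    | zero => exact bd_zero (by positivity)
    | succ n ih =>
      have h1 : Bd j (C * (2 * ‖v‖)) (P.S' (a n) : R4 → V) :=
        (P.S_cj _).mono (mul_le_mul_of_nonneg_left (ha n).2 hC)
      have h2 := ((P.R_cj _ _ hbF).sub h1 (hsm _) (hsm _)).sub (P.K_cj _ _ ih)
        ((hsm _).sub (hsm _)) (hsm _)
      exact h2.mono (by rw [hb]; linarith)
  have hdist : ∀ n, ‖toL2 V (a (n + 1) - a n)‖ ≤ 2 * (1 / 2) ^ n := fun n => by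
    rw [map_sub]
    have h1 := (ha (n + 1)).1
    have h2 := (ha n).1
    have h3 := norm_sub_le_norm_sub_add_norm_sub (toL2 V (a (n + 1))) v (toL2 V (a n))
    rw [norm_sub_rev v] at h3
    have h4 : (1 / 2 : ℝ) ^ (n + 1) ≤ (1 / 2) ^ n :=
      pow_le_pow_of_le_one (by norm_num) (by norm_num) n.le_succ
    linarith
  set D := 8 * C + 2 * b with hD
  have hd : ∀ n, Bd j (D * (3 / 4) ^ n) ((w (n + 1) : R4 → V) - (w n : R4 → V)) := by
    intro n
    induction n with
    | zero =>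
      refine ((hbd 1).sub (hbd 0) (hsm _) (hsm _)).mono ?_
      have hb0 : 0 ≤ b := by rw [hb]; positivity
      rw [pow_zero, mul_one, hD]
      linarith
    | succ n ih =>
      have h1 : Bd j (C * (2 * (1 / 2) ^ n)) (P.S' (a (n + 1) - a n) : R4 → V) :=
        (P.S_cj _).mono (mul_le_mul_of_nonneg_left (hdist n) hC)
      have h2 := P.K_cj (w (n + 1) - w n) _ ih
      have h3 := (h1.add h2 (hsm _) (hsm _)).neg ((hsm _).add (hsm _))
      have e : -((P.S' (a (n + 1) - a n) : R4 → V) + (P.K' (w (n + 1) - w n) : R4 → V))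
          = (w (n + 1 + 1) : R4 → V) - (w (n + 1) : R4 → V) := by
        rw [← Submodule.coe_add, ← Submodule.coe_neg, ← Submodule.coe_sub]
        refine congrArg _ ?_
        simp only [hwdef, approx, map_sub]
        abel
      rw [e] at h3
      refine h3.mono ?_
      have h4 : (1 / 2 : ℝ) ^ n ≤ (3 / 4) ^ n := pow_le_pow_left₀ (by norm_num) (by norm_num) n
      have hb0 : 0 ≤ b := by rw [hb]; positivity
      have q0 : (0 : ℝ) ≤ (3 / 4) ^ n := pow_nonneg (by norm_num) n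
      rw [pow_succ, hD]
      nlinarith [mul_le_mul_of_nonneg_left h4 hC, mul_nonneg hb0 q0]
  have hlim : Tendsto (fun n => toL2 V (w n)) atTop (𝓝 v) := by
    have step : ∀ n, ‖toL2 V (w (n + 1)) - v‖ ≤ C * (1 / 2) ^ n + 2⁻¹ * ‖toL2 V (w n) - v‖ := by
      intro n
      have e : toL2 V (w (n + 1)) - v
          = -extOp P.S' (toL2 V (a n) - v) - extOp P.K' (toL2 V (w n) - v) := by
        rw [map_sub, map_sub, extOp_apply P.S_l2, extOp_apply P.K_l2]
        conv_lhs => arg 2; rw [eq_sub_of_add_eq (eq_sub_of_add_eq (S.weak_id P hv hw))]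
        simp only [hwdef, approx, map_sub]
        abel
      rw [e]
      refine (norm_sub_le _ _).trans (add_le_add ?_ ?_)
      · rw [norm_neg]
        refine ((extOp P.S').le_opNorm _).trans ?_
        exact mul_le_mul (norm_extOp_le hC P.S_l2) (ha n).1 (norm_nonneg _) hC
      · refine ((extOp P.K').le_opNorm _).trans ?_
        exact mul_le_mul_of_nonneg_right (norm_extOp_le (by norm_num) P.K_l2) (norm_nonneg _)
    rw [tendsto_iff_norm_sub_tendsto_zero]
    refine squeeze_zero (fun _ => norm_nonneg _) (rec_bound (e := fun n => ‖toL2 V (w n) - v‖)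
      (D := ‖toL2 V (w 0) - v‖ + 4 * C) hC (le_add_of_nonneg_right (by positivity))
      (le_add_of_nonneg_left (norm_nonneg _)) step) ?_
    simpa using (tendsto_pow_atTop_nhds_zero_of_lt_one (show (0 : ℝ) ≤ 3 / 4 by norm_num)
      (by norm_num)).const_mul _
  obtain ⟨g, g1, g2, g3, g4⟩ := exists_rep (by norm_num) (by norm_num) hd hbd hlim
  refine ⟨g, g1, g2.mono ?_, g3, fun x hx => tendsto_nhds_unique (g4 x) ?_⟩
  · rw [hb]
    nlinarith [norm_nonneg v]
  · have hz : ∀ n, (w n : R4 → V) x = 0 := by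
      intro n
      cases n with
      | zero => rfl
      | succ n =>
        simp [hwdef, approx, (P.supp _ x hx).1, (P.supp _ x hx).2.1, (P.supp _ x hx).2.2]
    simp only [hz]
    exact tendsto_const_nhds

/-- A weak solution is a field, solves the equation, and is bounded by its data. -/
theorem Sys.regular {v : L2 V} (hv : v ∈ S.H) {f : E} (hw : S.Weak v f) :
    ∃ u, S.emb u = v ∧ S.L u = f ∧ ∀ j, ∀ P : Par E V S.Lift S.Proj S.L S.B j,
      ∀ bF, Bd j bF (S.Lift f : R4 → V) →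
        Bd j (4 * P.C * (bF + ‖v‖)) (S.Lift u : R4 → V) := by
  have hB : ∀ j, ∃ b, Bd j b (S.Lift f : R4 → V) := fun j => by
    obtain ⟨B, hB⟩ := Test.exists_bound (S.Lift f)
    exact ⟨∑ m ∈ Finset.range (j + 1), |B m|, fun m hm x => (hB m x).trans
      ((le_abs_self _).trans (Finset.single_le_sum (fun m _ => abs_nonneg (B m))
        (Finset.mem_range.2 (by omega))))⟩
  choose bs hbs using hB
  have P0 := fun j => Classical.choice (S.par j)
  choose ws h1 h2 h3 h4 using fun j => S.rep (P0 j) hv hw (hbs j)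
  have heq : ∀ j, ws j = ws 0 := fun j =>
    ((h1 j).continuous.ae_eq_iff_eq volume (h1 0).continuous).1 ((h3 j).symm.trans (h3 0))
  have hs : ContDiff ℝ ∞ (ws 0) := contDiff_infty.2 fun n => heq n ▸ h1 n
  set w : Test V := ⟨ws 0, hs, HasCompactSupport.intro S.B_compact (h4 0)⟩ with hwdef
  have hwv : toL2 V w = v := Lp.ext ((toL2_coeFn w).trans (h3 0).symm)
  have hu : S.emb (S.Proj w) = v := by
    refine sub_eq_zero.1 (eq_zero_of_inner_tests fun g => ?_)
    rw [inner_sub_left, Sys.emb_apply, S.proj_adj, ← Sys.emb_apply, hwv, S.inner_proj hv,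
      sub_self]
  refine ⟨S.Proj w, hu, S.emb_injective (sub_eq_zero.1 ?_), fun j P bF hbF => ?_⟩
  · refine inner_self_eq_zero (𝕜 := ℝ).1 ?_
    rw [← map_sub, Sys.emb_apply, map_sub, map_sub, inner_sub_left]
    have e := hw (S.L (S.Proj w) - f)
    rw [← hu] at e
    rw [sub_eq_zero, ← map_sub, ← map_sub, S.L_symm]
    exact e
  · obtain ⟨g, g1, g2, g3, -⟩ := S.rep P hv hw hbF
    have e : (S.Lift (S.Proj w) : R4 → V) = g := by
      refine ((Test.smooth _).continuous.ae_eq_iff_eq volume g1.continuous).1 ?_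
      exact (toL2_coeFn _).symm.trans ((Filter.EventuallyEq.of_eq (by
        rw [← Sys.emb_apply, hu])).trans g3)
    rw [e]
    exact g2

end Vale.Agent.P204.Full.Elliptic
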