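import Vale.Agent.P204.Full.Elliptic.Ops
import Vale.Agent.P204.Full.Point.Frame
import Vale.Agent.P204.Full.Base.Atlas

/-!
P204 elliptic module: proofs of the pointwise algebraic facts stated in `Elliptic/Ops.lean`.
-/

open scoped ContDiff Topology
open Set Filter Vale.Agent.P204.Full.Point

noncomputable section

namespace Vale.Agent.P204.Full.Elliptic

/-! ### Naturality -/

/-- The `3 × 3` minor of three vectors. -/
def minor3 (u v w : R4) (i j k : Fin 4) : ℝ :=
  u i * (v j * w k - v k * w j) - u j * (v i * w k - v k * w i) + u k * (v i * w j - v j * w i)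

theorem D3_expand (D : D3) (hD : ∀ u v w, D u v w = -(D u w v)) (u v w : R4) :
    d3 D u v w = d3 D (bvec 0) (bvec 1) (bvec 2) * minor3 u v w 0 1 2 +
      d3 D (bvec 0) (bvec 1) (bvec 3) * minor3 u v w 0 1 3 +
      d3 D (bvec 0) (bvec 2) (bvec 3) * minor3 u v w 0 2 3 +
      d3 D (bvec 1) (bvec 2) (bvec 3) * minor3 u v w 1 2 3 := by
  have halt : ∀ i, IsAlt (D (bvec i)) := fun i => hD (bvec i)
  have hex : ∀ a b c : R4, D a b c = ∑ i, a i * ∑ j, ∑ k, b j * c k * co (D (bvec i)) j k := by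
    intro a b c
    conv_lhs => rw [vec_expand a]
    simp only [map_sum, map_smul, _root_.sum_apply, smul_apply, smul_eq_mul]
    exact Finset.sum_congr rfl fun i _ => by rw [bil_expand (D (bvec i)) b c]
  simp only [d3, hex]
  simp only [Fin.sum_univ_four, minor3, co_diag (halt _), co_swap (halt _) 1 0, co_swap (halt _) 2 0,
    co_swap (halt _) 3 0, co_swap (halt _) 2 1, co_swap (halt _) 3 1, co_swap (halt _) 3 2]
  simp [bvec_apply]
  ring

theorem det_eq (A : Endo) : A.det =
    Matrix.det (Matrix.of fun i j : Fin 4 => A (bvec j) i) := by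
  show LinearMap.det (A : R4 →ₗ[ℝ] R4) = _
  rw [← LinearMap.det_toMatrix (EuclideanSpace.basisFun (Fin 4) ℝ).toBasis]
  congr 1

theorem cov_expand (a : Cov) (v : R4) : a v = ∑ i, v i * a (bvec i) := by
  conv_lhs => rw [vec_expand v]
  simp [map_sum]

theorem top31c_pull (A : Endo) (D D' : D3) (hD : ∀ u v w, D u v w = -(D u w v))
    (h : ∀ u v w, d3 D' u v w = d3 D (A u) (A v) (A w)) (a : Cov) :
    top31c D' (pullCov A a) = A.det * top31c D a := by
  simp only [top31c, h, pullCov_apply, D3_expand D hD (A _) (A _) (A _), cov_expand a (A _)]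
  rw [det_eq, Matrix.det_succ_row_zero]
  simp only [minor3, Matrix.det_fin_three, Fin.sum_univ_four, Matrix.of_apply,
    Matrix.submatrix_apply]
  simp [Fin.succAbove]
  ring

theorem cov_xvec (om : Bil) (D : D3) (a : Cov) :
    a (xvec om D) = (top22 om om)⁻¹ * top31c D a := by
  simp only [xvec, top31c, map_smul, map_add, map_sub, smul_eq_mul]
  ring

theorem xvec_natural (A : Endo) (om : Bil) (D D' : D3) (hA : A.det ≠ 0) (hom : IsAlt om)
    (hD : ∀ u v w, D u v w = -(D u w v)) (h : ∀ u v w, d3 D' u v w = d3 D (A u) (A v) (A w)) :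
    A (xvec (pullBil A om) D') = xvec om D := by
  ext i
  have key : ∀ a : Cov, a (A (xvec (pullBil A om) D')) = a (xvec om D) := fun a => by
    rw [← pullCov_apply, cov_xvec, cov_xvec, top31c_pull A D D' hD h, top22_pull A hom hom]
    show (A.det * top22 om om)⁻¹ * _ = _
    rw [mul_inv, mul_mul_mul_comm, inv_mul_cancel₀ hA, one_mul]
  exact key (EuclideanSpace.proj i)

theorem alocNatural_statement : AlocNaturalStatement := by
  intro A J J' om D D' hA hom _ hJ hD h
  ext v
  show -(pullBil A om (xvec (pullBil A om) D') (J' v)) = -(om (xvec om D) (J (A v)))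
  rw [pullBil_apply, xvec_natural A om D D' hA hom hD h, hJ]

/-! ### Standard frames -/

theorem Herm.metric_symm {om : Bil} {J : Endo} (h : Herm om J) (u v : R4) :
    om u (J v) = om v (J u) := by
  have e := h.inv u (J v)
  rw [h.sq, map_neg, ← h.alt] at e
  exact e.symm

theorem Herm.exists_frame {om : Bil} {J : Endo} (h : Herm om J) :
    ∃ A : R4 ≃L[ℝ] R4, pullBil (A : Endo) om = omega0 ∧ ∀ v, J (A v) = A (J0 v) := by
  have unit : ∀ v : R4, v ≠ 0 → ∃ t : ℝ, om (t • v) (J (t • v)) = 1 := by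
    intro v hv
    have h' := h.pos v hv
    refine ⟨(Real.sqrt (om v (J v)))⁻¹, ?_⟩
    simp only [map_smul, smul_apply, smul_eq_mul]
    rw [← mul_assoc, ← mul_inv, Real.mul_self_sqrt h'.le, inv_mul_cancel₀ h'.ne']
  have self : ∀ u, om u u = 0 := fun u => by have := h.alt u u; linarith
  obtain ⟨v₀, hv₀⟩ : ∃ v : R4, v ≠ 0 := ⟨bvec 0, fun e => by simpa [e] using norm_bvec 0⟩
  obtain ⟨t, ht⟩ := unit v₀ hv₀
  set p : R4 := t • v₀
  obtain ⟨w, hw⟩ : ∃ w, w ∉ Submodule.span ℝ (Set.range ![p, J p]) := by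
    by_contra hcon
    push Not at hcon
    have h1 := finrank_range_le_card (R := ℝ) ![p, J p]
    rw [Set.finrank, Submodule.eq_top_iff'.2 hcon, finrank_top] at h1
    simp at h1
  set w' : R4 := w - om p (J w) • p - om (J p) (J w) • J p with hw'
  have hw'0 : w' ≠ 0 := by
    intro e0
    refine hw ?_
    have e : w = om p (J w) • p + om (J p) (J w) • J p := by
      rw [hw', sub_sub, sub_eq_zero] at e0; exact e0
    rw [e]
    exact add_mem (Submodule.smul_mem _ _ (Submodule.subset_span ⟨0, rfl⟩))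
      (Submodule.smul_mem _ _ (Submodule.subset_span ⟨1, rfl⟩))
  obtain ⟨s, hs⟩ := unit w' hw'0
  set q : R4 := s • w'
  have e1 : om (J p) (J (J p)) = 1 := by rw [h.inv]; exact ht
  have o1 : om p (J (J p)) = 0 := by rw [h.sq, map_neg, self, neg_zero]
  have o2 : om (J p) (J p) = 0 := self _
  have z1 : om p (J q) = 0 := by
    simp only [q, hw', map_smul, map_sub, smul_eq_mul, ht, o1]; ring
  have z2 : om (J p) (J q) = 0 := by
    simp only [q, hw', map_smul, map_sub, smul_eq_mul, e1, o2]; ring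
  have z3 : om p q = 0 := by rw [← h.inv]; exact z2
  have z4 : om (J p) q = 0 := by
    rw [h.alt, h.metric_symm, z1, neg_zero]
  set T : R4 →ₗ[ℝ] R4 :=
    (EuclideanSpace.proj 0 : R4 →L[ℝ] ℝ).toLinearMap.smulRight p +
      (EuclideanSpace.proj 1 : R4 →L[ℝ] ℝ).toLinearMap.smulRight (J p) +
      (EuclideanSpace.proj 2 : R4 →L[ℝ] ℝ).toLinearMap.smulRight q +
      (EuclideanSpace.proj 3 : R4 →L[ℝ] ℝ).toLinearMap.smulRight (J q) with hT
  have hTv : ∀ v : R4, T v = v 0 • p + v 1 • J p + v 2 • q + v 3 • J q := fun v => by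
    simp [hT]
  have hTJ : ∀ v, J (T v) = T (J0 v) := by
    intro v
    obtain ⟨a, b, c, d⟩ := J0_apply v
    rw [hTv, hTv, a, b, c, d]
    simp only [map_add, map_smul, h.sq]
    module
  have hTo : ∀ u v, om (T u) (T v) = omega0 u v := by
    intro u v
    have alt := h.alt
    rw [hTv, hTv, omega0_apply]
    simp only [map_add, map_smul, add_apply, smul_apply, smul_eq_mul, self, ht, hs, z1,
      z2, z3, z4, alt (J p) p, alt q p, alt q (J p), alt (J q) p,
      alt (J q) (J p), alt (J q) q]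
    ring
  have hinj : Function.Injective T := by
    refine (injective_iff_map_eq_zero T).2 fun v hv => ?_
    have h' := omega0_metric v
    rw [← hTo, ← hTJ, hv] at h'
    simp at h'
    exact norm_eq_zero.1 (pow_eq_zero_iff two_ne_zero |>.1 h'.symm)
  refine ⟨(LinearEquiv.ofInjectiveEndo T hinj).toContinuousLinearEquiv, ?_, hTJ⟩
  ext u v
  exact hTo u v

theorem Herm.det_eq {om : Bil} {J : Endo} (h : Herm om J) {A : R4 ≃L[ℝ] R4}
    (hA : pullBil (A : Endo) om = omega0) :
    (A : Endo).det * top22 om om = 2 ∧ 0 < (A : Endo).det := by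
  have e : (A : Endo).det * top22 om om = 2 := by
    show LinearMap.det ((A : Endo) : R4 →ₗ[ℝ] R4) * _ = 2
    rw [← top22_pull _ h.alt h.alt, hA, top22_omega0]
  refine ⟨e, ?_⟩
  by_contra hn
  nlinarith [h.top_pos, not_lt.1 hn]

theorem pull_frame_J {J : Endo} {A : R4 ≃L[ℝ] R4} (hJ : ∀ v, J (A v) = A (J0 v)) (b : Bil) :
    pullBil (A : Endo) (pullBil J b) = pullBil J0 (pullBil (A : Endo) b) := by
  ext u v
  simp [hJ]

theorem anti0_frame {J : Endo} {A : R4 ≃L[ℝ] R4} (hJ : ∀ v, J (A v) = A (J0 v)) {b : Bil}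
    (halt : IsAlt b) (hb : pullBil J b = -b) : Anti0 (pullBil (A : Endo) b) :=
  ⟨alt_pull halt _, by rw [← pull_frame_J hJ, hb]; rfl⟩

theorem top22_anti0 {a b : Bil} (ha : Anti0 a) (hb : Anti0 b) :
    top22 a b = 2 * (co a 0 2 * co b 0 2 + co a 0 3 * co b 0 3) := by
  obtain ⟨p, q, r, s⟩ := ha.co_eq
  obtain ⟨p', q', r', s'⟩ := hb.co_eq
  simp only [co] at p q r s p' q' r' s'
  simp only [top22, co, p, q, r, s, p', q', r', s']
  ring

/-! ### Spanning -/

theorem antiSpan_statement : AntiSpanStatement := by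
  intro om J e h he b hb hbJ
  obtain ⟨A, hA, hJ⟩ := h.exists_frame
  obtain ⟨hd, hdpos⟩ := h.det_eq hA
  set d := (A : Endo).det with hdd
  have hp : ∀ x y : Bil, IsAlt x → IsAlt y →
      top22 (pullBil (A : Endo) x) (pullBil (A : Endo) y) = d * top22 x y :=
    fun x y hx hy => top22_pull _ hx hy
  have ha : ∀ i, Anti0 (pullBil (A : Endo) (e i)) := fun i => anti0_frame hJ (he.alt i) (he.anti i)
  have hB : Anti0 (pullBil (A : Endo) b) := anti0_frame hJ hb hbJ
  set f : Fin 2 → Bil := fun i => pullBil (A : Endo) (e i)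
  set B : Bil := pullBil (A : Endo) b
  set M : Matrix (Fin 2) (Fin 2) ℝ :=
    Matrix.of fun i k => co (f i) 0 (if k = 0 then 2 else 3)
  have hM : M * (((2 / d : ℝ)) • M.transpose) = 1 := by
    ext i j
    have hij := hp (e i) (e j) (he.alt i) (he.alt j)
    rw [top22_anti0 (ha i) (ha j), he.orth] at hij
    simp only [Matrix.smul_apply, Matrix.mul_apply, Fin.sum_univ_two,
      Matrix.transpose_apply, M, Matrix.of_apply, smul_eq_mul, Matrix.one_apply, if_true,
      Fin.one_eq_zero_iff, if_false, f, OfNat.ofNat_ne_one]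
    field_simp
    linear_combination hij
  have hM' := mul_eq_one_comm.1 hM
  have h00 := congrFun (congrFun hM' 0) 0
  have h01 := congrFun (congrFun hM' 0) 1
  have h10 := congrFun (congrFun hM' 1) 0
  have h11 := congrFun (congrFun hM' 1) 1
  simp [Matrix.mul_apply, Fin.sum_univ_two, M] at h00 h01 h10 h11
  have hc : ∀ i, top22 b (e i) = d⁻¹ * top22 B (f i) := fun i => by
    show _ = _ * top22 (pullBil (A : Endo) b) (pullBil (A : Endo) (e i))
    rw [hp b (e i) hb (he.alt i), ← mul_assoc, inv_mul_cancel₀ hdpos.ne', one_mul]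
  refine pullBil_inj (A := A) ?_
  have hS : IsAlt (∑ i, top22 b (e i) • e i) := by
    rw [Fin.sum_univ_two]; exact ((he.alt 0).smul _).add ((he.alt 1).smul _)
  have hR : pullBil (A : Endo) (∑ i, top22 b (e i) • e i) = ∑ i, top22 b (e i) • f i := by
    simp only [Fin.sum_univ_two, pullBil_add, pullBil_smul]; rfl
  rw [hR]
  obtain ⟨p, q, r, s⟩ := hB.co_eq
  obtain ⟨p0, q0, r0, s0⟩ := (ha 0).co_eq
  obtain ⟨p1, q1, r1, s1⟩ := (ha 1).co_eq
  have hco : ∀ i j, co (∑ k, top22 b (e k) • f k) i j =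
      top22 b (e 0) * co (f 0) i j + top22 b (e 1) * co (f 1) i j := fun i j => by
    simp [co, Fin.sum_univ_two]
  have k2 : co B 0 2 = co (∑ k, top22 b (e k) • f k) 0 2 := by
    rw [hco, hc, hc, top22_anti0 hB (ha 0), top22_anti0 hB (ha 1)]
    linear_combination (-(co B 0 2)) * h00 + (-(co B 0 3)) * h10
  have k3 : co B 0 3 = co (∑ k, top22 b (e k) • f k) 0 3 := by
    rw [hco, hc, hc, top22_anti0 hB (ha 0), top22_anti0 hB (ha 1)]
    linear_combination (-(co B 0 2)) * h01 + (-(co B 0 3)) * h11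
  refine alt_ext hB.1 (by rw [← hR]; exact alt_pull hS _) ?_ k2 k3 ?_ ?_ ?_
  · rw [hco, p, p0, p1]; ring
  · rw [s, k3, hco, hco, s0, s1]
  · rw [r, k2, hco, hco, r0, r1]; ring
  · rw [hco, q, q0, q1]; ring

/-! ### The symbol -/

theorem symbol_std (e : Fin 2 → Bil) (f : Bil) (he : ∀ a, Anti0 (e a)) (hf : Anti0 f) (S : J2)
    (hS : ∀ u v, S u v = S v u) (K : R4 →L[ℝ] Cov)
    (hK : ∀ h, K h = aloc omega0 J0 ((frameL e).comp (S h))) :
    top22 (K - K.flip) f =
      -(1 / 4) * ∑ a, top22 f (e a) * ∑ m, S (bvec m) (bvec m) a := by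
  obtain ⟨j0, j1, j2, j3⟩ := J0_bvec
  obtain ⟨p, q, r, s⟩ := hf.co_eq
  obtain ⟨p0, q0, r0, s0⟩ := (he 0).co_eq
  obtain ⟨p1, q1, r1, s1⟩ := (he 1).co_eq
  simp only [co] at p q r s p0 q0 r0 s0 p1 q1 r1 s1
  rw [Fin.sum_univ_two, top22_anti0 hf (he 0), top22_anti0 hf (he 1)]
  simp only [top22, sub_apply, ContinuousLinearMap.flip_apply, hK, aloc, xvec, d3, frameL,
    neg_apply, ContinuousLinearMap.comp_apply, Fin.sum_univ_two, Fin.sum_univ_four, add_apply,
    ContinuousLinearMap.smulRight_apply, smul_apply, smul_eq_mul, map_smul, map_add, map_sub,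
    map_neg, j0, j1, j2, j3, co, PiLp.proj_apply]
  simp only [omega0_apply, bvec_apply, p, q, r, s, p0, q0, r0, s0, p1, q1, r1, s1,
    hS (bvec 1) (bvec 0), hS (bvec 2) (bvec 0), hS (bvec 3) (bvec 0), hS (bvec 2) (bvec 1),
    hS (bvec 3) (bvec 1), hS (bvec 3) (bvec 2)]
  simp
  ring

theorem symbol_statement : SymbolStatement := by
  intro om J e h he P hP S hS K hK a
  obtain ⟨A, hA, hJ⟩ := h.exists_frame
  obtain ⟨hd, hdpos⟩ := h.det_eq hA
  set d := (A : Endo).det with hdd
  have hp : ∀ x y : Bil, IsAlt x → IsAlt y →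
      top22 (pullBil (A : Endo) x) (pullBil (A : Endo) y) = d * top22 x y :=
    fun x y hx hy => top22_pull _ hx hy
  set f : Fin 2 → Bil := fun i => pullBil (A : Endo) (e i) with hf
  have hfa : ∀ i, Anti0 (f i) := fun i => anti0_frame hJ (he.alt i) (he.anti i)
  set S' : J2 := S.bilinearComp (A : Endo) (A : Endo) with hS'def
  have hS'a : ∀ u v, S' u v = S (A u) (A v) := fun u v => rfl
  have hS' : ∀ u v, S' u v = S' v u := fun u v => by rw [hS'a, hS'a, hS]
  set K' : R4 →L[ℝ] Cov := pullBil (A : Endo) K with hK'def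
  have hK' : ∀ u, K' u = aloc omega0 J0 ((frameL f).comp (S' u)) := by
    intro u
    have e1 : K' u = pullCov (A : Endo) (K (A u)) := rfl
    rw [e1, hK, ← hA]
    refine (alocNatural_statement (A : Endo) J J0 om ((frameL e).comp (S (A u))) _ hdpos.ne' h.alt
      h.top_pos.ne' (fun v => (hJ v).symm) ?_ ?_).symm
    · intro x y z
      simp only [frameL, ContinuousLinearMap.comp_apply, Fin.sum_univ_two, add_apply,
        ContinuousLinearMap.smulRight_apply, smul_apply, smul_eq_mul, he.alt 0 y z, he.alt 1 y z]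
      ring
    · intro x y z
      simp only [d3, frameL, ContinuousLinearMap.comp_apply, Fin.sum_univ_two, add_apply,
        ContinuousLinearMap.smulRight_apply, smul_apply, smul_eq_mul, hS'a, hf, pullBil_apply]
      rfl
  have hstd := symbol_std f (f a) hfa (hfa a) S' hS' K' hK'
  have hKalt : IsAlt (K - K.flip) := fun u v => by simp
  have hl : top22 (K' - K'.flip) (f a) = d * top22 (K - K.flip) (e a) := by
    rw [← hp _ _ hKalt (he.alt a)]; rfl
  rw [hl] at hstd
  have horth : ∀ i, top22 (f a) (f i) = d * if a = i then 1 else 0 := fun i => by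
    rw [← he.orth a i]; exact hp _ _ (he.alt a) (he.alt i)
  simp only [horth, mul_ite, mul_one, mul_zero, ite_mul, zero_mul, Finset.sum_ite_eq,
    Finset.mem_univ, if_true] at hstd
  have htr : ∑ m, S' (bvec m) (bvec m) a = ∑ m, S (P m) (P m) a := by
    set Q : Fin 4 → R4 := fun m => A.symm (P m) with hQ
    have hPQ : ∀ m, P m = A (Q m) := fun m => (A.apply_symm_apply (P m)).symm
    set W : Matrix (Fin 4) (Fin 4) ℝ := Matrix.of fun m i => Q m i
    have hW : W * W.transpose = 1 := by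
      ext k l
      have hkl := hP k l
      rw [hPQ, hPQ, hJ] at hkl
      have : pullBil (A : Endo) om (Q k) (J0 (Q l)) = if k = l then 1 else 0 := hkl
      rw [hA] at this
      obtain ⟨x0, x1, x2, x3⟩ := J0_apply (Q l)
      rw [omega0_apply, x0, x1, x2, x3] at this
      simp only [Matrix.mul_apply, Fin.sum_univ_four, Matrix.transpose_apply, Matrix.one_apply, W,
        Matrix.of_apply]
      linarith
    have hW' := mul_eq_one_comm.1 hW
    have hij : ∀ i j : Fin 4, ∑ m, Q m i * Q m j = if i = j then 1 else 0 := fun i j => by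
      have := congrFun (congrFun hW' i) j
      simpa [Matrix.mul_apply, Matrix.one_apply, W] using this
    set T : Bil := (ContinuousLinearMap.compL ℝ R4 R2 ℝ (EuclideanSpace.proj a)).comp S'
    have hT : ∀ u v, T u v = S' u v a := fun u v => rfl
    calc ∑ m, S' (bvec m) (bvec m) a = ∑ i, ∑ j, (if i = j then 1 else 0) * co T i j := by
          simp [co, hT]
      _ = ∑ i, ∑ j, (∑ m, Q m i * Q m j) * co T i j := by simp only [hij]
      _ = ∑ m, ∑ i, ∑ j, Q m i * Q m j * co T i j := by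
          simp only [Fin.sum_univ_four]; ring
      _ = ∑ m, T (Q m) (Q m) := by simp only [bil_expand T]
      _ = ∑ m, S (P m) (P m) a := by simp only [hT, hS'a, hPQ]
  rw [htr] at hstd
  refine mul_left_cancel₀ hdpos.ne' ?_
  linarith

/-! ### Frame fields -/

/-- Orthonormalisation of two fields of anti-invariant forms. -/
theorem gramSchmidt_frame {U : Set R4} {J : R4 → Endo} (hU : IsOpen U) {f1 f2 : R4 → Bil}
    (s1 : ContDiffOn ℝ ∞ f1 U) (s2 : ContDiffOn ℝ ∞ f2 U)
    (ha : ∀ y ∈ U, (IsAlt (f1 y) ∧ pullBil (J y) (f1 y) = -f1 y) ∧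
      (IsAlt (f2 y) ∧ pullBil (J y) (f2 y) = -f2 y))
    {y0 : R4} (hy0 : y0 ∈ U) (p11 : 0 < top22 (f1 y0) (f1 y0)) (p22 : 0 < top22 (f2 y0) (f2 y0))
    (p12 : top22 (f1 y0) (f2 y0) = 0) :
    ∃ r : ℝ, 0 < r ∧ Metric.ball y0 r ⊆ U ∧ ∃ e : R4 → Fin 2 → Bil,
      (∀ a, ContDiffOn ℝ ∞ (fun y => e y a) (Metric.ball y0 r)) ∧
        ∀ y ∈ Metric.ball y0 r, AntiPair (J y) (e y) := by
  set G11 : R4 → ℝ := fun y => top22 (f1 y) (f1 y)
  set G12 : R4 → ℝ := fun y => top22 (f1 y) (f2 y)
  set g2 : R4 → Bil := fun y => G11 y • f2 y - G12 y • f1 y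
  set H : R4 → ℝ := fun y => top22 (g2 y) (g2 y)
  have sG : ContDiffOn ℝ ∞ G11 U := Base.cdOn_top22 s1 s1
  have sg : ContDiffOn ℝ ∞ g2 U := (sG.smul s2).sub ((Base.cdOn_top22 s1 s2).smul s1)
  have sH : ContDiffOn ℝ ∞ H U := Base.cdOn_top22 sg sg
  have pH : 0 < H y0 := by
    show 0 < top22 (g2 y0) (g2 y0)
    simp only [g2, G12, p12, zero_smul, sub_zero, top22_smul_left,
      top22_comm (f2 y0) (G11 y0 • f2 y0)]
    positivity
  obtain ⟨r, hr, hball⟩ := Metric.eventually_nhds_iff_ball.1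
    ((hU.eventually_mem hy0).and (((sG.continuousOn.continuousAt (hU.mem_nhds hy0)).eventually
      (eventually_gt_nhds (show 0 < G11 y0 from p11))).and ((sH.continuousOn.continuousAt (hU.mem_nhds hy0)).eventually
      (eventually_gt_nhds pH))))
  set e : R4 → Fin 2 → Bil :=
    fun y => ![(Real.sqrt (G11 y))⁻¹ • f1 y, (Real.sqrt (H y))⁻¹ • g2 y]
  refine ⟨r, hr, fun y hy => (hball y hy).1, e, ?_, ?_⟩
  · intro a
    have hsub : Metric.ball y0 r ⊆ U := fun y hy => (hball y hy).1
    fin_cases a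
    · exact (((sG.mono hsub).sqrt fun y hy => (hball y hy).2.1.ne').inv fun y hy =>
        (Real.sqrt_pos.2 (hball y hy).2.1).ne').smul (s1.mono hsub)
    · exact (((sH.mono hsub).sqrt fun y hy => (hball y hy).2.2.ne').inv fun y hy =>
        (Real.sqrt_pos.2 (hball y hy).2.2).ne').smul (sg.mono hsub)
  · intro y hy
    obtain ⟨hyU, hG, hHp⟩ := hball y hy
    obtain ⟨⟨q1, q1'⟩, q2, q2'⟩ := ha y hyU
    have g2alt : IsAlt (g2 y) := alt_sub (q2.smul _) (q1.smul _)
    have g2anti : pullBil (J y) (g2 y) = -g2 y := by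
      show pullBil (J y) (G11 y • f2 y - G12 y • f1 y) = _
      rw [pullBil_sub, pullBil_smul, pullBil_smul, q1', q2']
      simp only [g2]
      module
    have hr1 := Real.mul_self_sqrt hG.le
    have hr2 := Real.mul_self_sqrt hHp.le
    have cross : top22 (f1 y) (g2 y) = 0 := by
      simp only [g2, G11, G12, top22, sub_apply, smul_apply, smul_eq_mul]
      ring
    refine ⟨?_, ?_, ?_⟩
    · intro a; fin_cases a
      · exact q1.smul _
      · exact g2alt.smul _
    · intro a; fin_cases a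
      · show pullBil (J y) (_ • f1 y) = _
        rw [pullBil_smul, q1']; simp [e]
      · show pullBil (J y) (_ • g2 y) = _
        rw [pullBil_smul, g2anti]; simp [e]
    · intro a b
      have sc : ∀ (s t : ℝ) (x z : Bil), top22 (s • x) (t • z) = s * t * top22 x z :=
        fun s t x z => by
          rw [top22_smul_left, top22_comm, top22_smul_left, top22_comm]; ring
      fin_cases a <;> fin_cases b
      · show top22 (_ • f1 y) (_ • f1 y) = 1
        rw [sc, ← mul_inv, hr1]; exact inv_mul_cancel₀ hG.ne'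
      · show top22 (_ • f1 y) (_ • g2 y) = 0
        rw [sc, cross, mul_zero]
      · show top22 (_ • g2 y) (_ • f1 y) = 0
        rw [sc, top22_comm, cross, mul_zero]
      · show top22 (_ • g2 y) (_ • g2 y) = 1
        rw [sc, ← mul_inv, hr2]; exact inv_mul_cancel₀ hHp.ne'

theorem exists_anti0_pair : ∃ w1 w2 : Bil, Anti0 w1 ∧ Anti0 w2 ∧
    co w1 0 2 = 1 ∧ co w1 0 3 = 0 ∧ co w2 0 2 = 0 ∧ co w2 0 3 = 1 := by
  refine ⟨wedgeCov (EuclideanSpace.proj 0) (EuclideanSpace.proj 2) -
      wedgeCov (EuclideanSpace.proj 1) (EuclideanSpace.proj 3),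
    wedgeCov (EuclideanSpace.proj 0) (EuclideanSpace.proj 3) +
      wedgeCov (EuclideanSpace.proj 1) (EuclideanSpace.proj 2),
    ⟨alt_sub (isAlt_wedgeCov _ _) (isAlt_wedgeCov _ _), ?_⟩,
    ⟨(isAlt_wedgeCov _ _).add (isAlt_wedgeCov _ _), ?_⟩, ?_⟩
  · ext u v
    obtain ⟨x0, x1, x2, x3⟩ := J0_apply u
    obtain ⟨z0, z1, z2, z3⟩ := J0_apply v
    simp only [pullBil_apply, neg_apply, sub_apply, wedgeCov_apply, PiLp.proj_apply,
      x0, x1, x2, x3, z0, z1, z2, z3]
    ring
  · ext u v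
    obtain ⟨x0, x1, x2, x3⟩ := J0_apply u
    obtain ⟨z0, z1, z2, z3⟩ := J0_apply v
    simp only [pullBil_apply, neg_apply, add_apply, wedgeCov_apply, PiLp.proj_apply,
      x0, x1, x2, x3, z0, z1, z2, z3]
    ring
  · simp [co, wedgeCov_apply, bvec_apply]

theorem anti_pull_symm {J : Endo} {A : R4 ≃L[ℝ] R4} (hJ : ∀ v, J (A v) = A (J0 v)) {w : Bil}
    (hw : Anti0 w) :
    IsAlt (pullBil (A.symm : Endo) w) ∧
      pullBil J (pullBil (A.symm : Endo) w) = -pullBil (A.symm : Endo) w ∧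
      pullBil (A : Endo) (pullBil (A.symm : Endo) w) = w := by
  have back : ∀ b : Bil, pullBil (A : Endo) (pullBil (A.symm : Endo) b) = b := fun b => by
    ext u v; simp
  refine ⟨alt_pull hw.1 _, pullBil_inj (A := A) ?_, back w⟩
  rw [pull_frame_J hJ, back, hw.2]
  exact congrArg Neg.neg (back w).symm

theorem contDiffOn_anti20 {U : Set R4} {J : R4 → Endo} (hJ : ContDiffOn ℝ ∞ J U) (b : Bil) :
    ContDiffOn ℝ ∞ (fun y => anti20 (J y) b) U :=
  (contDiff_anti20.comp (contDiff_id.prodMk (contDiff_const (c := b)))).comp_contDiffOn hJ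

theorem top22_of_back {A : R4 ≃L[ℝ] R4} {a b a' b' : Bil} (ha : IsAlt a) (hb : IsAlt b)
    (ea : pullBil (A : Endo) a = a') (eb : pullBil (A : Endo) b = b') :
    (A : Endo).det * top22 a b = top22 a' b' := by
  rw [← ea, ← eb, top22_pull _ ha hb]

theorem frameField_statement : FrameFieldStatement := by
  intro U om J hU _ hJs hH y0 hy0
  obtain ⟨A, hA, hJ⟩ := (hH y0 hy0).exists_frame
  obtain ⟨-, hdpos⟩ := (hH y0 hy0).det_eq hA
  obtain ⟨ω1, ω2, a1, a2, c0, c1, c2, c3⟩ := exists_anti0_pair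
  obtain ⟨b1alt, anti1, back1⟩ := anti_pull_symm hJ a1
  obtain ⟨b2alt, anti2, back2⟩ := anti_pull_symm hJ a2
  set b1 : Bil := pullBil (A.symm : Endo) ω1
  set b2 : Bil := pullBil (A.symm : Endo) ω2
  set f1 : R4 → Bil := fun y => anti20 (J y) b1
  set f2 : R4 → Bil := fun y => anti20 (J y) b2
  have f1at : f1 y0 = b1 := anti20_of_anti _ anti1
  have f2at : f2 y0 = b2 := anti20_of_anti _ anti2
  have s1 : ContDiffOn ℝ ∞ f1 U := contDiffOn_anti20 hJs b1
  have s2 : ContDiffOn ℝ ∞ f2 U := contDiffOn_anti20 hJs b2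
  have t11 : (A : Endo).det * top22 b1 b1 = 2 := by
    rw [top22_of_back b1alt b1alt back1 back1, top22_anti0 a1 a1, c0, c1]; norm_num
  have t22 : (A : Endo).det * top22 b2 b2 = 2 := by
    rw [top22_of_back b2alt b2alt back2 back2, top22_anti0 a2 a2, c2, c3]; norm_num
  have t12 : (A : Endo).det * top22 b1 b2 = 0 := by
    rw [top22_of_back b1alt b2alt back1 back2, top22_anti0 a1 a2, c0, c1, c2, c3]; norm_num
  refine gramSchmidt_frame hU s1 s2 (fun y hy => ?_) hy0 ?_ ?_ ?_
  · have hh := hH y hy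
    have A1 : ∀ c : Bil, IsAlt c →
        IsAlt (anti20 (J y) c) ∧ pullBil (J y) (anti20 (J y) c) = -anti20 (J y) c := by
      intro c hc
      refine ⟨?_, ?_⟩
      · intro u v
        simp only [anti20, smul_apply, sub_apply, pullBil_apply, smul_eq_mul, hc u v,
          hc (J y u) (J y v)]
        ring
      · ext u v
        simp only [anti20, smul_apply, sub_apply, pullBil_apply, smul_eq_mul, neg_apply, hh.sq,
          map_neg, neg_neg]
        ring
    exact ⟨A1 b1 b1alt, A1 b2 b2alt⟩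
  · rw [f1at]; nlinarith
  · rw [f2at]; nlinarith
  · rw [f1at, f2at]; exact (mul_eq_zero.1 t12).resolve_left hdpos.ne'

end Vale.Agent.P204.Full.Elliptic
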