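import Vale.Agent.P204.Full.Elliptic.Test
import Mathlib.Analysis.Calculus.SmoothSeries

/-!
P204 elliptic module, part 4: uniform bounds of derivatives up to order `j`, products, substitutions,
and limits of sequences of tests that are geometrically Cauchy in these bounds and converge in `L²`.
-/

open scoped ContDiff RealInnerProductSpace Topology
open MeasureTheory Set Filter

noncomputable section

namespace Vale.Agent.P204.Full.Elliptic

variable {V W : Type} [NormedAddCommGroup V] [NormedSpace ℝ V] [NormedAddCommGroup W]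
  [NormedSpace ℝ W]

/-- All derivatives of order at most `j` are bounded by `b`. -/
def Bd (j : ℕ) (b : ℝ) (f : R4 → V) : Prop := ∀ m ≤ j, ∀ x, ‖iteratedFDeriv ℝ m f x‖ ≤ b

lemma Bd.nonneg {j : ℕ} {b : ℝ} {f : R4 → V} (h : Bd j b f) : 0 ≤ b :=
  (norm_nonneg _).trans (h 0 (Nat.zero_le j) 0)

lemma Bd.mono {j : ℕ} {b b' : ℝ} {f : R4 → V} (h : Bd j b f) (hb : b ≤ b') : Bd j b' f :=
  fun m hm x => (h m hm x).trans hb

lemma Bd.norm_le {j : ℕ} {b : ℝ} {f : R4 → V} (h : Bd j b f) (x : R4) : ‖f x‖ ≤ b := by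
  simpa using h 0 (Nat.zero_le j) x

lemma bd_zero {j : ℕ} {b : ℝ} (hb : 0 ≤ b) : Bd j b (0 : R4 → V) := fun m _ x => by
  rw [show (0 : R4 → V) = fun _ => 0 from rfl, iteratedFDeriv_fun_zero]
  simpa using hb

lemma Bd.add {j : ℕ} {a b : ℝ} {f g : R4 → V} (hf : Bd j a f) (hg : Bd j b g)
    (sf : ContDiff ℝ ∞ f) (sg : ContDiff ℝ ∞ g) : Bd j (a + b) (f + g) := fun m hm x => by
  rw [iteratedFDeriv_add_apply (sf.of_le (by exact_mod_cast le_top)).contDiffAt
    (sg.of_le (by exact_mod_cast le_top)).contDiffAt]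
  exact (norm_add_le _ _).trans (add_le_add (hf m hm x) (hg m hm x))

lemma Bd.smul {j : ℕ} {a : ℝ} {f : R4 → V} (hf : Bd j a f) (sf : ContDiff ℝ ∞ f) (c : ℝ) :
    Bd j (|c| * a) (c • f) := fun m hm x => by
  rw [iteratedFDeriv_const_smul_apply (sf.of_le (by exact_mod_cast le_top)).contDiffAt, norm_smul,
    Real.norm_eq_abs]
  exact mul_le_mul_of_nonneg_left (hf m hm x) (abs_nonneg c)

lemma Bd.neg {j : ℕ} {a : ℝ} {f : R4 → V} (hf : Bd j a f) (sf : ContDiff ℝ ∞ f) :
    Bd j a (-f) := by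
  simpa using hf.smul sf (-1)

lemma Bd.sub {j : ℕ} {a b : ℝ} {f g : R4 → V} (hf : Bd j a f) (hg : Bd j b g)
    (sf : ContDiff ℝ ∞ f) (sg : ContDiff ℝ ∞ g) : Bd j (a + b) (f - g) := by
  rw [sub_eq_add_neg]
  exact hf.add (hg.neg sg) sf sg.neg

/-- Multiplication by a smooth compactly supported coefficient, after a smooth substitution. -/
lemma bd_apply_comp {M : R4 → V →L[ℝ] W} {φ : R4 → R4} (hM : ContDiff ℝ ∞ M)
    (hMc : HasCompactSupport M) (hφ : ContDiff ℝ ∞ φ) (hφb : ∀ m, ∃ D, ∀ x, 1 ≤ m →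
      ‖iteratedFDeriv ℝ m φ x‖ ≤ D) (j : ℕ) :
    ∃ C, 0 ≤ C ∧ ∀ (g : R4 → V) (b : ℝ), ContDiff ℝ ∞ g → Bd j b g →
      Bd j (C * b) (fun x => M x (g (φ x))) := by
  choose D hD using hφb
  have hMb : ∀ i, ∃ K, ∀ x, ‖iteratedFDeriv ℝ i M x‖ ≤ K := fun i =>
    (hMc.iteratedFDeriv i).exists_bound_of_continuous
      (hM.continuous_iteratedFDeriv (by exact_mod_cast le_top))
  choose K hK using hMb
  set E : ℝ := 1 + ∑ i ∈ Finset.range (j + 1), |D i| with hE
  have hE1 : 1 ≤ E := le_add_of_nonneg_right (Finset.sum_nonneg fun i _ => abs_nonneg _)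
  set C : ℝ := ∑ m ∈ Finset.range (j + 1), ∑ i ∈ Finset.range (m + 1),
    (m.choose i : ℝ) * |K i| * ((m - i).factorial * E ^ (m - i)) with hC
  refine ⟨C, Finset.sum_nonneg fun m _ => Finset.sum_nonneg fun i _ => by positivity, ?_⟩
  intro g b hg hb m hm x
  have hn : ∀ m : ℕ, (m : ℕ∞ω) ≤ ∞ := fun m => by exact_mod_cast le_top
  refine (norm_iteratedFDeriv_clm_apply hM (hg.comp hφ) x (hn m)).trans ?_
  calc ∑ i ∈ Finset.range (m + 1), (m.choose i : ℝ) * ‖iteratedFDeriv ℝ i M x‖ *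
        ‖iteratedFDeriv ℝ (m - i) (g ∘ φ) x‖
      ≤ ∑ i ∈ Finset.range (m + 1),
        (m.choose i : ℝ) * |K i| * (((m - i).factorial : ℝ) * E ^ (m - i)) * b := by
        refine Finset.sum_le_sum fun i _ => ?_
        have h1 : ‖iteratedFDeriv ℝ i M x‖ ≤ |K i| := (hK i x).trans (le_abs_self _)
        have h2 : ‖iteratedFDeriv ℝ (m - i) (g ∘ φ) x‖ ≤
            ((m - i).factorial : ℝ) * b * E ^ (m - i) := by
          refine norm_iteratedFDeriv_comp_le hg hφ (hn _) x (fun l hl => hb l (by omega) _) ?_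
          intro l hl1 hl2
          refine ((hD l x hl1).trans (le_abs_self _)).trans (le_trans ?_ (le_self_pow₀ hE1 (by omega)))
          refine le_trans ?_ (le_add_of_nonneg_left zero_le_one)
          exact Finset.single_le_sum (fun i _ => abs_nonneg (D i)) (Finset.mem_range.2 (by omega))
        calc (m.choose i : ℝ) * ‖iteratedFDeriv ℝ i M x‖ * ‖iteratedFDeriv ℝ (m - i) (g ∘ φ) x‖
            ≤ (m.choose i : ℝ) * |K i| * (((m - i).factorial : ℝ) * b * E ^ (m - i)) :=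
              mul_le_mul (mul_le_mul_of_nonneg_left h1 (Nat.cast_nonneg _)) h2 (norm_nonneg _)
                (by positivity)
          _ = _ := by ring
    _ = (∑ i ∈ Finset.range (m + 1),
        (m.choose i : ℝ) * |K i| * (((m - i).factorial : ℝ) * E ^ (m - i))) * b :=
        (Finset.sum_mul _ _ _).symm
    _ ≤ C * b := by
        refine mul_le_mul_of_nonneg_right ?_ hb.nonneg
        exact Finset.single_le_sum (f := fun m => ∑ i ∈ Finset.range (m + 1),
          (m.choose i : ℝ) * |K i| * (((m - i).factorial : ℝ) * E ^ (m - i)))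
          (fun m _ => Finset.sum_nonneg fun i _ => by positivity) (Finset.mem_range.2 (by omega))

/-- Multiplication by a smooth compactly supported coefficient. -/
lemma bd_apply {M : R4 → V →L[ℝ] W} (hM : ContDiff ℝ ∞ M) (hMc : HasCompactSupport M) (j : ℕ) :
    ∃ C, 0 ≤ C ∧ ∀ (g : R4 → V) (b : ℝ), ContDiff ℝ ∞ g → Bd j b g →
      Bd j (C * b) (fun x => M x (g x)) := by
  refine bd_apply_comp (φ := fun x => x) hM hMc contDiff_id (fun m => ⟨1, fun x hm => ?_⟩) j
  obtain ⟨l, rfl⟩ : ∃ l, m = l + 1 := ⟨m - 1, by omega⟩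
  rw [← norm_iteratedFDeriv_fderiv]
  have e : fderiv ℝ (fun x : R4 => x) = fun _ => ContinuousLinearMap.id ℝ R4 :=
    funext fun y => fderiv_id'
  rw [e]
  rcases Nat.eq_zero_or_pos l with rfl | hl
  · simpa using ContinuousLinearMap.norm_id_le (𝕜 := ℝ) (E := R4)
  · rw [iteratedFDeriv_const_of_ne hl.ne']
    simp

section Lim

variable {U : Type} [NormedAddCommGroup U] [InnerProductSpace ℝ U] [FiniteDimensional ℝ U]

/-- A geometrically Cauchy sequence of tests converging in `L²` gives a `C^j` representative. -/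
lemma exists_rep {j : ℕ} {D q b : ℝ} (hq : 0 ≤ q) (hq1 : q < 1) {w : ℕ → Test U} {v : L2 U}
    (hd : ∀ n, Bd j (D * q ^ n) ((w (n + 1) : R4 → U) - (w n : R4 → U)))
    (hb : ∀ n, Bd j b (w n : R4 → U)) (hv : Tendsto (fun n => toL2 U (w n)) atTop (𝓝 v)) :
    ∃ f : R4 → U, ContDiff ℝ (j : ℕ∞ω) f ∧ Bd j b f ∧ v =ᵐ[volume] f ∧
      ∀ x, Tendsto (fun n => (w n : R4 → U) x) atTop (𝓝 (f x)) := by
  set d : ℕ → R4 → U := fun n => (w (n + 1) : R4 → U) - (w n : R4 → U) with hd'
  have hsum : Summable fun n => D * q ^ n := (summable_geometric_of_lt_one hq hq1).mul_left D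
  have hdc : ∀ n, ContDiff ℝ (j : ℕ∞ω) (d n) := fun n =>
    ((Test.smooth _).sub (Test.smooth _)).of_le (by exact_mod_cast le_top)
  have hbd : ∀ (k : ℕ) (i : ℕ) (x : R4), (k : ℕ∞) ≤ j → ‖iteratedFDeriv ℝ k (d i) x‖ ≤ D * q ^ i :=
    fun k i x hk => hd i k (by exact_mod_cast hk) x
  set f : R4 → U := (w 0 : R4 → U) + fun x => ∑' n, d n x with hf
  have ht : ContDiff ℝ (j : ℕ∞ω) fun x => ∑' n, d n x :=
    contDiff_tsum (v := fun _ i => D * q ^ i) (N := (j : ℕ∞)) hdc (fun _ _ => hsum) hbd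
  have h0 : ContDiff ℝ (j : ℕ∞ω) (w 0 : R4 → U) :=
    (Test.smooth _).of_le (by exact_mod_cast le_top)
  have key : ∀ m ≤ j, ∀ x, Tendsto (fun n => iteratedFDeriv ℝ m (w n : R4 → U) x) atTop
      (𝓝 (iteratedFDeriv ℝ m f x)) := by
    intro m hm x
    have hm' : (m : ℕ∞ω) ≤ (j : ℕ∞ω) := by exact_mod_cast hm
    rw [hf, iteratedFDeriv_add_apply (h0.of_le hm').contDiffAt (ht.of_le hm').contDiffAt,
      iteratedFDeriv_tsum_apply (v := fun _ i => D * q ^ i) (N := (j : ℕ∞)) hdc (fun _ _ => hsum) hbd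
        (by exact_mod_cast hm)]
    have hs : Summable fun n => iteratedFDeriv ℝ m (d n) x :=
      Summable.of_norm_bounded hsum fun n => hd n m hm x
    have e : ∀ n, iteratedFDeriv ℝ m (d n) x = iteratedFDeriv ℝ m (w (n + 1) : R4 → U) x
        - iteratedFDeriv ℝ m (w n : R4 → U) x := fun n => by
      rw [hd', iteratedFDeriv_sub_apply (((Test.smooth _).of_le (by exact_mod_cast le_top)).contDiffAt)
        (((Test.smooth _).of_le (by exact_mod_cast le_top)).contDiffAt)]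
    have h := hs.hasSum.tendsto_sum_nat.const_add (iteratedFDeriv ℝ m (w 0 : R4 → U) x)
    simp only [e] at h ⊢
    refine h.congr fun n => ?_
    rw [Finset.sum_range_sub (fun i => iteratedFDeriv ℝ m (w i : R4 → U) x), add_sub_cancel]
  have hpt : ∀ x, Tendsto (fun n => (w n : R4 → U) x) atTop (𝓝 (f x)) := by
    intro x
    have h := ((continuousMultilinearCurryFin0 ℝ R4 U).continuous.tendsto _).comp
      (key 0 (Nat.zero_le j) x)
    simpa [Function.comp_def] using h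
  refine ⟨f, h0.add ht, fun m hm x => le_of_tendsto (key m hm x).norm
    (.of_forall fun n => hb n m hm x), ?_, hpt⟩
  obtain ⟨ns, hns, hae⟩ := (tendstoInMeasure_of_tendsto_Lp hv).exists_seq_tendsto_ae
  have hw : ∀ᵐ x, ∀ n, (toL2 U (w n) : R4 → U) x = (w n : R4 → U) x :=
    ae_all_iff.2 fun n => toL2_coeFn (w n)
  filter_upwards [hae, hw] with x h1 h2
  refine tendsto_nhds_unique h1 ?_
  simp only [h2]
  exact (hpt x).comp hns.tendsto_atTop

end Lim

end Vale.Agent.P204.Full.Elliptic
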