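import Vale.Agent.P204.Full.Elliptic.Newton

/-!
P204 elliptic module: the local parametrix `f ↦ ∫ φ(x) θ(z/δ) w(x)/g_x(z,z) f(x-z) dz`.
-/

open scoped ContDiff Topology
open MeasureTheory Set Filter

noncomputable section

namespace Vale.Agent.P204.Full.Elliptic

/-! ### Homogeneous kernels -/

section Hom

variable {V : Type} [NormedAddCommGroup V] [NormedSpace ℝ V]

/-- A directional derivative on `ℝ⁴ × ℝ⁴`. -/
def dd (G : R4 × R4 → V) (d : R4 × R4) : R4 × R4 → V := fun p => fderiv ℝ G p d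

/-- Smooth off `z = 0`, compactly supported in `x`, homogeneous of degree `-a` in `z`. -/
structure Hom (a : ℕ) (G : R4 × R4 → V) : Prop where
  smooth : ContDiffOn ℝ ∞ G {p | p.2 ≠ 0}
  supp : ∃ K : Set R4, IsCompact K ∧ ∀ x z, x ∉ K → G (x, z) = 0
  hom : ∀ x z (t : ℝ), 0 < t → G (x, t • z) = (t ^ a)⁻¹ • G (x, z)

lemma Hom.differentiableAt {a : ℕ} {G : R4 × R4 → V} (hG : Hom a G) {p : R4 × R4}
    (hp : p.2 ≠ 0) : DifferentiableAt ℝ G p :=
  (hG.smooth.contDiffAt (isOpen_offZero.mem_nhds hp)).differentiableAt (by simp)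

lemma Hom.scale {a : ℕ} {G : R4 × R4 → V} (hG : Hom a G) {x z : R4} (hz : z ≠ 0) {t : ℝ}
    (ht : 0 < t) (v w : R4) :
    fderiv ℝ G (x, t • z) (v, t • w) = (t ^ a)⁻¹ • fderiv ℝ G (x, z) (v, w) := by
  set T : R4 × R4 →L[ℝ] R4 × R4 :=
    (ContinuousLinearMap.fst ℝ R4 R4).prod (t • ContinuousLinearMap.snd ℝ R4 R4) with hT
  have hne : (T (x, z)).2 ≠ 0 := by
    simp only [hT]; exact smul_ne_zero ht.ne' hz
  have h1 := ((hG.differentiableAt hne).hasFDerivAt.comp (x, z) T.hasFDerivAt).fderiv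
  have e : (G ∘ T) = fun p => (t ^ a)⁻¹ • G p := funext fun p => hG.hom p.1 p.2 t ht
  have h2 : fderiv ℝ (fun p => (t ^ a)⁻¹ • G p) (x, z) = (t ^ a)⁻¹ • fderiv ℝ G (x, z) :=
    ((hG.differentiableAt (p := (x, z)) hz).hasFDerivAt.const_smul _).fderiv
  rw [e, h2] at h1
  exact (congrArg (fun A : R4 × R4 →L[ℝ] V => A (v, w)) h1).symm

lemma Hom.supp_fderiv {a : ℕ} {G : R4 × R4 → V} (hG : Hom a G) :
    ∃ K : Set R4, IsCompact K ∧ ∀ x z, x ∉ K → fderiv ℝ G (x, z) = 0 := by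
  obtain ⟨K, hK, h0⟩ := hG.supp
  refine ⟨K, hK, fun x z hx => ?_⟩
  have h : G =ᶠ[𝓝 (x, z)] fun _ => (0 : V) := by
    filter_upwards [(hK.isClosed.isOpen_compl.preimage continuous_fst).mem_nhds
      (show (x, z) ∈ Prod.fst ⁻¹' Kᶜ from hx)] with p hp
    exact h0 p.1 p.2 hp
  rw [h.fderiv_eq]
  simp

lemma Hom.smooth_fderiv {a : ℕ} {G : R4 × R4 → V} (hG : Hom a G) :
    ContDiffOn ℝ ∞ (fderiv ℝ G) {p | p.2 ≠ 0} :=
  hG.smooth.fderiv_of_isOpen isOpen_offZero (by simp)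

lemma Hom.ddx {a : ℕ} {G : R4 × R4 → V} (hG : Hom a G) (v : R4) : Hom a (dd G (v, 0)) where
  smooth := hG.smooth_fderiv.clm_apply contDiffOn_const
  supp := by
    obtain ⟨K, hK, h0⟩ := hG.supp_fderiv
    exact ⟨K, hK, fun x z hx => by simp [dd, h0 x z hx]⟩
  hom x z t ht := by
    by_cases hz : z = 0
    · subst hz
      rw [smul_zero]
      have h : ∀ x, fderiv ℝ G (x, 0) (v, 0) = (t ^ a)⁻¹ • fderiv ℝ G (x, 0) (v, 0) := by
        intro x
        set T : R4 × R4 →L[ℝ] R4 × R4 :=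
          (ContinuousLinearMap.fst ℝ R4 R4).prod (t • ContinuousLinearMap.snd ℝ R4 R4) with hT
        by_cases hd : DifferentiableAt ℝ G (x, 0)
        · have e0 : T (x, 0) = (x, 0) := by simp [hT]
          have h1 := (hd.hasFDerivAt.congr_fderiv rfl)
          rw [← e0] at h1
          have h1' := (h1.comp (x, 0) T.hasFDerivAt).fderiv
          have e : (G ∘ T) = fun p => (t ^ a)⁻¹ • G p := funext fun p => hG.hom p.1 p.2 t ht
          have h2 : fderiv ℝ (fun p => (t ^ a)⁻¹ • G p) (x, 0) = (t ^ a)⁻¹ • fderiv ℝ G (x, 0) :=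
            (hd.hasFDerivAt.const_smul _).fderiv
          rw [e, h2, e0] at h1'
          have := congrArg (fun A : R4 × R4 →L[ℝ] V => A (v, 0)) h1'
          simpa [hT] using this.symm
        · simp [fderiv_zero_of_not_differentiableAt hd]
      exact h x
    · have := hG.scale hz ht v 0 (x := x)
      rwa [smul_zero] at this

/-- The derivative along `z`, set to zero on `z = 0`. -/
def ddz (G : R4 × R4 → V) (w : R4) : R4 × R4 → V :=
  fun p => if p.2 = 0 then 0 else fderiv ℝ G p (0, w)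

lemma ddz_of_ne (G : R4 × R4 → V) (w : R4) {p : R4 × R4} (hp : p.2 ≠ 0) :
    ddz G w p = fderiv ℝ G p (0, w) := if_neg hp

lemma Hom.ddz {a : ℕ} {G : R4 × R4 → V} (hG : Hom a G) (w : R4) :
    Hom (a + 1) (Elliptic.ddz G w) where
  smooth := (hG.smooth_fderiv.clm_apply contDiffOn_const).congr fun _ hp => ddz_of_ne G w hp
  supp := by
    obtain ⟨K, hK, h0⟩ := hG.supp_fderiv
    exact ⟨K, hK, fun x z hx => by simp [Elliptic.ddz, h0 x z hx]⟩
  hom x z t ht := by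
    by_cases hz : z = 0
    · simp [Elliptic.ddz, hz]
    · have h := hG.scale hz ht 0 w (x := x)
      rw [show ((0 : R4), t • w) = t • ((0 : R4), w) by simp, map_smul] at h
      rw [ddz_of_ne G w (p := (x, t • z)) (smul_ne_zero ht.ne' hz),
        ddz_of_ne G w (p := (x, z)) hz, pow_succ, mul_inv, mul_comm, mul_smul, ← h, smul_smul,
        inv_mul_cancel₀ ht.ne', one_smul]

/-- Multiplication by a smooth function of `x`. -/
lemma Hom.smul_const {a : ℕ} {G : R4 × R4 → ℝ} (hG : Hom a G) {B : R4 → V}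
    (hB : ContDiff ℝ ∞ B) : Hom a (fun p => G p • B p.1) where
  smooth := hG.smooth.smul (hB.comp contDiff_fst).contDiffOn
  supp := by
    obtain ⟨K, hK, h0⟩ := hG.supp
    exact ⟨K, hK, fun x z hx => by simp [h0 x z hx]⟩
  hom x z t ht := by simp [hG.hom x z t ht, mul_smul]

lemma Hom.bound_zero {a : ℕ} {G : R4 × R4 → V} (hG : Hom a G) :
    ∃ C, 0 ≤ C ∧ ∀ x z, z ≠ 0 → ‖G (x, z)‖ ≤ C * (‖z‖ ^ a)⁻¹ := by
  obtain ⟨K, hK, h0⟩ := hG.supp
  have hsub : K ×ˢ Metric.sphere (0 : R4) 1 ⊆ {p : R4 × R4 | p.2 ≠ 0} := fun p hp h => by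
    have := hp.2
    simp [h] at this
  obtain ⟨C, hC⟩ := (hK.prod (isCompact_sphere (0 : R4) 1)).exists_bound_of_continuousOn
    (hG.smooth.continuousOn.mono hsub)
  refine ⟨max C 0, le_max_right _ _, fun x z hz => ?_⟩
  have hb : ∀ u : R4, u ∈ Metric.sphere (0 : R4) 1 → x ∈ K → ‖G (x, u)‖ ≤ max C 0 :=
    fun u hu hx => le_trans (hC (x, u) (Set.mk_mem_prod hx hu)) (le_max_left _ _)
  by_cases hx : x ∈ K
  · have hz0 : 0 < ‖z‖ := norm_pos_iff.2 hz
    have hu : ‖z‖⁻¹ • z ∈ Metric.sphere (0 : R4) 1 := by simp [norm_smul, hz0.ne']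
    have e := hG.hom x (‖z‖⁻¹ • z) ‖z‖ hz0
    rw [smul_smul, mul_inv_cancel₀ hz0.ne', one_smul] at e
    rw [e, norm_smul, Real.norm_of_nonneg (by positivity), mul_comm]
    exact mul_le_mul_of_nonneg_right (hb _ hu hx) (inv_nonneg.2 (pow_nonneg hz0.le a))
  · rw [h0 x z hx, norm_zero]; positivity

lemma Hom.slice_fderiv {a : ℕ} {G : R4 × R4 → V} (hG : Hom a G) {z : R4} (hz : z ≠ 0) (x : R4) :
    fderiv ℝ (fun y => G (y, z)) x =
      (fderiv ℝ G (x, z)).comp (ContinuousLinearMap.inl ℝ R4 R4) :=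
  ((hG.differentiableAt (p := (x, z)) hz).hasFDerivAt.comp x
    (hasFDerivAt_prodMk_left (𝕜 := ℝ) x z)).fderiv

/-- The derivative along `x`, as a linear map; zero on `z = 0`. -/
def dx (G : R4 × R4 → V) : R4 × R4 → R4 →L[ℝ] V :=
  fun p => if p.2 = 0 then 0 else (fderiv ℝ G p).comp (ContinuousLinearMap.inl ℝ R4 R4)

lemma Hom.dx {a : ℕ} {G : R4 × R4 → V} (hG : Hom a G) : Hom a (Elliptic.dx G) where
  smooth := (hG.smooth_fderiv.clm_comp contDiffOn_const).congr fun p hp => if_neg hp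
  supp := by
    obtain ⟨K, hK, h0⟩ := hG.supp_fderiv
    exact ⟨K, hK, fun x z hx => by simp [Elliptic.dx, h0 x z hx]⟩
  hom x z t ht := by
    by_cases hz : z = 0
    · simp [Elliptic.dx, hz]
    · simp only [Elliptic.dx, if_neg hz, if_neg (smul_ne_zero ht.ne' hz)]
      ext v
      have h := hG.scale hz ht v 0 (x := x)
      rw [smul_zero] at h
      simpa using h

theorem Hom.bound (m : ℕ) : ∀ {V : Type} [NormedAddCommGroup V] [NormedSpace ℝ V] {a : ℕ}
    {G : R4 × R4 → V}, Hom a G →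
      ∃ C, 0 ≤ C ∧ ∀ x z, z ≠ 0 → ‖iteratedFDeriv ℝ m (fun y => G (y, z)) x‖ ≤ C * (‖z‖ ^ a)⁻¹ := by
  induction m with
  | zero =>
    intro V _ _ a G hG
    obtain ⟨C, hC0, hC⟩ := hG.bound_zero
    exact ⟨C, hC0, fun x z hz => by simpa using hC x z hz⟩
  | succ m ih =>
    intro V _ _ a G hG
    obtain ⟨C, hC0, hC⟩ := ih hG.dx
    refine ⟨C, hC0, fun x z hz => ?_⟩
    have e : fderiv ℝ (fun y => G (y, z)) = fun y => Elliptic.dx G (y, z) :=
      funext fun y => by rw [hG.slice_fderiv hz y]; exact (if_neg hz).symm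
    rw [← norm_iteratedFDeriv_fderiv, e]
    exact hC x z hz

end Hom

section Kernels

variable {V W : Type} [NormedAddCommGroup V] [NormedSpace ℝ V] [NormedAddCommGroup W]
  [NormedSpace ℝ W]

/-- A cut-off times a homogeneous kernel. -/
lemma Hom.kernel {a : ℕ} {G : R4 × R4 → V →L[ℝ] W} (hG : Hom a G) :
    ∃ C : ℕ → ℝ, (∀ m, 0 ≤ C m) ∧ ∀ (δ : ℝ) (ψ : R4 → ℝ) (c : ℝ), 0 ≤ c → ContDiff ℝ ∞ ψ →
      (∀ z, z ≠ 0 → |ψ z| * (‖z‖ ^ a)⁻¹ ≤ c * wt δ z) →
        IsKernel δ (fun m => c * C m) fun x z => ψ z • G (x, z) := by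
  choose C hC0 hC using fun m => Hom.bound m hG
  refine ⟨C, hC0, fun δ ψ c hc hψ hb => ⟨?_, fun m x z hz => ?_, fun m => mul_nonneg hc (hC0 m)⟩⟩
  · exact (hψ.comp contDiff_snd).contDiffOn.smul hG.smooth
  · have hs : ContDiff ℝ ∞ fun y => G (y, z) :=
      contDiffOn_univ.1 (hG.smooth.comp (contDiff_id.prodMk contDiff_const).contDiffOn
        fun y _ => hz)
    have e : iteratedFDeriv ℝ m (fun y => ψ z • G (y, z)) x =
        ψ z • iteratedFDeriv ℝ m (fun y => G (y, z)) x :=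
      iteratedFDeriv_const_smul_apply' (hs.of_le (by exact_mod_cast le_top)).contDiffAt
    rw [e, norm_smul, Real.norm_eq_abs]
    calc |ψ z| * ‖iteratedFDeriv ℝ m (fun y => G (y, z)) x‖ ≤ |ψ z| * (C m * (‖z‖ ^ a)⁻¹) :=
          mul_le_mul_of_nonneg_left (hC m x z hz) (abs_nonneg _)
      _ = C m * (|ψ z| * (‖z‖ ^ a)⁻¹) := by ring
      _ ≤ C m * (c * wt δ z) := mul_le_mul_of_nonneg_left (hb z hz) (hC0 m)
      _ = c * C m * wt δ z := by ring

lemma IsKernel.zero (r : ℝ) : IsKernel r (fun _ => 0) (fun _ _ => (0 : V →L[ℝ] W)) where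
  smooth := contDiffOn_const
  bound m x z _ := by simp
  nonneg _ := le_rfl

lemma IsKernel.add {r : ℝ} {C C' : ℕ → ℝ} {k k' : R4 → R4 → V →L[ℝ] W} (h : IsKernel r C k)
    (h' : IsKernel r C' k') : IsKernel r (fun m => C m + C' m) fun x z => k x z + k' x z where
  smooth := h.smooth.add h'.smooth
  nonneg m := add_nonneg (h.nonneg m) (h'.nonneg m)
  bound m x z hz := by
    refine (congrArg norm (fun_iteratedFDeriv_add_apply
      ((h.contDiff_slice hz).of_le (by exact_mod_cast le_top)).contDiffAt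
      ((h'.contDiff_slice hz).of_le (by exact_mod_cast le_top)).contDiffAt)).trans_le ?_
    refine (norm_add_le _ _).trans ?_
    rw [add_mul]
    exact add_le_add (h.bound m x z hz) (h'.bound m x z hz)

/-- Kernels for all radii, with uniform constants. -/
def Unif (k : ℝ → R4 → R4 → V →L[ℝ] W) : Prop :=
  ∃ C : ℕ → ℝ, ∀ δ, 0 < δ → δ ≤ 1 → IsKernel δ C (k δ)

lemma Unif.add {k k' : ℝ → R4 → R4 → V →L[ℝ] W} (h : Unif k) (h' : Unif k') :
    Unif fun δ x z => k δ x z + k' δ x z := by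
  obtain ⟨C, hC⟩ := h
  obtain ⟨C', hC'⟩ := h'
  exact ⟨_, fun δ h0 h1 => (hC δ h0 h1).add (hC' δ h0 h1)⟩

lemma Unif.sum {ι : Type} {s : Finset ι} {k : ι → ℝ → R4 → R4 → V →L[ℝ] W}
    (h : ∀ i ∈ s, Unif (k i)) : Unif fun δ x z => ∑ i ∈ s, k i δ x z := by
  classical
  induction s using Finset.induction_on with
  | empty => exact ⟨_, fun δ _ _ => by simpa using IsKernel.zero (V := V) (W := W) δ⟩
  | insert i s hi ih =>
    simp only [Finset.sum_insert hi]
    exact (h i (Finset.mem_insert_self _ _)).add (ih fun j hj => h j (Finset.mem_insert_of_mem hj))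

lemma intOp_add {r : ℝ} {C C' : ℕ → ℝ} {k k' : R4 → R4 → V →L[ℝ] W} (h : IsKernel r C k)
    (h' : IsKernel r C' k') {f : R4 → V} (hf : Continuous f) {b : ℝ} (hb : ∀ y, ‖f y‖ ≤ b)
    (x : R4) : intOp (fun x z => k x z + k' x z) f x = intOp k f x + intOp k' f x :=
  integral_add (h.integrable hf hb x) (h'.integrable hf hb x)

lemma intOp_sum {ι : Type} {s : Finset ι} {r : ℝ} {C : ι → ℕ → ℝ}
    {k : ι → R4 → R4 → V →L[ℝ] W} (h : ∀ i ∈ s, IsKernel r (C i) (k i)) {f : R4 → V}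
    (hf : Continuous f) {b : ℝ} (hb : ∀ y, ‖f y‖ ≤ b) (x : R4) :
    intOp (fun x z => ∑ i ∈ s, k i x z) f x = ∑ i ∈ s, intOp (k i) f x := by
  simp only [intOp, sum_apply]
  exact integral_finsetSum _ fun i hi => (h i hi).integrable hf hb x

end Kernels

/-! ### Cut-offs -/

/-- One on the ball of radius a quarter, supported in the ball of radius a half. -/
def cutBump : ContDiffBump (0 : R4) := ⟨1 / 4, 1 / 2, by norm_num, by norm_num⟩

/-- The cut-off at scale `δ`. -/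
def th (δ : ℝ) (z : R4) : ℝ := cutBump (δ⁻¹ • z)

/-- Its first derivatives. -/
def th1 (δ : ℝ) (v : R4) (z : R4) : ℝ := fderiv ℝ (th δ) z v

/-- Its second derivatives. -/
def th2 (δ : ℝ) (v w : R4) (z : R4) : ℝ := fderiv ℝ (th1 δ v) z w

lemma th_smooth (δ : ℝ) : ContDiff ℝ ∞ (th δ) := cutBump.contDiff.comp (contDiff_const_smul _)

lemma th1_smooth (δ : ℝ) (v : R4) : ContDiff ℝ ∞ (th1 δ v) :=
  ((th_smooth δ).fderiv_right (by simp)).clm_apply contDiff_const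

lemma th2_smooth (δ : ℝ) (v w : R4) : ContDiff ℝ ∞ (th2 δ v w) :=
  ((th1_smooth δ v).fderiv_right (by simp)).clm_apply contDiff_const

lemma th_outer {δ : ℝ} (hδ : 0 < δ) {z : R4} (hz : δ ≤ ‖z‖) : th δ =ᶠ[𝓝 z] fun _ => 0 := by
  have h : δ / 2 < ‖z‖ := by linarith
  filter_upwards [(isOpen_lt continuous_const continuous_norm).mem_nhds h] with y hy
  refine cutBump.zero_of_le_dist ?_
  rw [dist_zero_right, norm_smul, Real.norm_of_nonneg (inv_nonneg.2 hδ.le), ← div_eq_inv_mul,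
    le_div_iff₀ hδ]
  simp only [cutBump]
  linarith

lemma th_inner {δ : ℝ} : th δ =ᶠ[𝓝 (0 : R4)] fun _ => 1 := by
  have hc : Tendsto (fun y : R4 => δ⁻¹ • y) (𝓝 0) (𝓝 0) := by
    simpa using (continuous_const_smul δ⁻¹).tendsto (0 : R4)
  exact hc.eventually cutBump.eventuallyEq_one

lemma th1_outer {δ : ℝ} (hδ : 0 < δ) (v : R4) {z : R4} (hz : δ ≤ ‖z‖) :
    th1 δ v =ᶠ[𝓝 z] fun _ => 0 := by
  filter_upwards [(th_outer hδ hz).fderiv (𝕜 := ℝ)] with y hy
  rw [th1, hy]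
  simp

lemma th1_inner {δ : ℝ} (v : R4) : th1 δ v =ᶠ[𝓝 (0 : R4)] fun _ => 0 := by
  filter_upwards [(th_inner (δ := δ)).fderiv (𝕜 := ℝ)] with y hy
  rw [th1, hy]
  simp

lemma th2_outer {δ : ℝ} (hδ : 0 < δ) (v w : R4) {z : R4} (hz : δ ≤ ‖z‖) : th2 δ v w z = 0 := by
  rw [th2, (th1_outer hδ v hz).fderiv_eq]; simp

lemma th2_inner {δ : ℝ} (v w : R4) : th2 δ v w =ᶠ[𝓝 (0 : R4)] fun _ => 0 := by
  filter_upwards [(th1_inner (δ := δ) v).fderiv (𝕜 := ℝ)] with y hy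
  rw [th2, hy]
  simp

lemma th_abs (δ : ℝ) (z : R4) : |th δ z| ≤ 1 := by
  rw [th, abs_of_nonneg cutBump.nonneg]; exact cutBump.le_one

lemma th_zero (δ : ℝ) : th δ 0 = 1 := th_inner.eq_of_nhds

lemma th_weight {δ : ℝ} (hδ : 0 < δ) (hδ1 : δ ≤ 1) {z : R4} (hz : z ≠ 0) :
    |th δ z| * (‖z‖ ^ 2)⁻¹ ≤ 1 * wt δ z ∧ |th δ z| * (‖z‖ ^ 3)⁻¹ ≤ 1 * wt δ z := by
  by_cases h : δ ≤ ‖z‖
  · have e : th δ z = 0 := (th_outer hδ h).eq_of_nhds
    simp [e, wt_nonneg]
  · rw [not_le] at h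
    have hz0 : 0 < ‖z‖ := norm_pos_iff.2 hz
    have e : wt δ z = (‖z‖ ^ 3)⁻¹ := Set.indicator_of_mem (by simpa using h) _
    rw [e]
    exact ⟨mul_le_mul (th_abs δ z)
      (inv_anti₀ (by positivity) (pow_le_pow_of_le_one hz0.le (by linarith) (by norm_num)))
      (by positivity) zero_le_one,
      mul_le_mul_of_nonneg_right (th_abs δ z) (by positivity)⟩

lemma th1_weight : ∃ L, 0 ≤ L ∧ ∀ δ, 0 < δ → δ ≤ 1 → ∀ v z, z ≠ 0 →
    |th1 δ v z| * (‖z‖ ^ 2)⁻¹ ≤ L * ‖v‖ * wt δ z ∧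
      |th1 δ v z| * (‖z‖ ^ 3)⁻¹ ≤ L * ‖v‖ / δ * wt δ z := by
  obtain ⟨L, hL⟩ := (cutBump.hasCompactSupport.fderiv (𝕜 := ℝ)).exists_bound_of_continuous
    (cutBump.contDiff.continuous_fderiv (n := 1) one_ne_zero)
  have hL0 : 0 ≤ L := (norm_nonneg _).trans (hL 0)
  refine ⟨L, hL0, fun δ hδ hδ1 v z hz => ?_⟩
  by_cases h : δ ≤ ‖z‖
  · have e : th1 δ v z = 0 := (th1_outer hδ v h).eq_of_nhds
    have := wt_nonneg δ z
    simp only [e, abs_zero, zero_mul]
    constructor <;> positivity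
  · rw [not_le] at h
    have hz0 : 0 < ‖z‖ := norm_pos_iff.2 hz
    have e : wt δ z = (‖z‖ ^ 3)⁻¹ := Set.indicator_of_mem (by simpa using h) _
    have hd : DifferentiableAt ℝ (fun y => cutBump y) (δ⁻¹ • z) :=
      (cutBump.contDiff (n := 1)).differentiable one_ne_zero _
    have he := (hd.hasFDerivAt.comp z ((hasFDerivAt_id z).const_smul δ⁻¹)).fderiv
    have he' : th1 δ v z = δ⁻¹ * fderiv ℝ cutBump (δ⁻¹ • z) v := by
      show fderiv ℝ (fun y => cutBump (δ⁻¹ • y)) z v = _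
      exact (congrArg (fun T : R4 →L[ℝ] ℝ => T v) he).trans (by simp)
    have h1 : |th1 δ v z| ≤ L * ‖v‖ / δ := by
      rw [he', abs_mul, abs_of_pos (inv_pos.2 hδ), div_eq_inv_mul]
      refine mul_le_mul_of_nonneg_left ?_ (inv_nonneg.2 hδ.le)
      rw [← Real.norm_eq_abs]
      exact ((fderiv ℝ cutBump _).le_opNorm v).trans
        (mul_le_mul_of_nonneg_right (hL _) (norm_nonneg v))
    rw [e]
    refine ⟨?_, mul_le_mul_of_nonneg_right h1 (by positivity)⟩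
    calc |th1 δ v z| * (‖z‖ ^ 2)⁻¹ ≤ L * ‖v‖ / δ * (‖z‖ ^ 2)⁻¹ :=
          mul_le_mul_of_nonneg_right h1 (by positivity)
      _ ≤ L * ‖v‖ / ‖z‖ * (‖z‖ ^ 2)⁻¹ := by gcongr
      _ = L * ‖v‖ * (‖z‖ ^ 3)⁻¹ := by field_simp

lemma th2_weight {δ : ℝ} (hδ : 0 < δ) (hδ1 : δ ≤ 1) (v w : R4) : ∃ L, 0 ≤ L ∧ ∀ z, z ≠ 0 →
    |th2 δ v w z| * (‖z‖ ^ 2)⁻¹ ≤ L * wt δ z := by
  have hc : HasCompactSupport (th2 δ v w) :=
    HasCompactSupport.of_support_subset_isCompact (isCompact_closedBall (0 : R4) δ) fun z hz => by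
      by_contra h
      rw [mem_closedBall_zero_iff, not_le] at h
      exact hz (th2_outer hδ v w h.le)
  obtain ⟨L, hL⟩ := hc.exists_bound_of_continuous (th2_smooth δ v w).continuous
  refine ⟨L, (norm_nonneg _).trans (hL 0), fun z hz => ?_⟩
  by_cases h : δ ≤ ‖z‖
  · simp [th2_outer hδ v w h, mul_nonneg ((norm_nonneg _).trans (hL 0)) (wt_nonneg δ z)]
  · rw [not_le] at h
    have hz0 : 0 < ‖z‖ := norm_pos_iff.2 hz
    have e : wt δ z = (‖z‖ ^ 3)⁻¹ := Set.indicator_of_mem (by simpa using h) _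
    rw [e, ← Real.norm_eq_abs]
    exact mul_le_mul (hL z)
      (inv_anti₀ (by positivity) (pow_le_pow_of_le_one hz0.le (by linarith) (by norm_num)))
      (by positivity) ((norm_nonneg _).trans (hL 0))

/-! ### Terms -/

/-- A cut-off, a scalar kernel and a coefficient. -/
def tm (ψ : R4 → ℝ) (G : R4 × R4 → ℝ) (B : R4 → R2 →L[ℝ] R2) : R4 → R4 → R2 →L[ℝ] R2 :=
  fun x z => ψ z • (G (x, z) • B x)

/-- A scalar term. -/
def sc (ψ : R4 → ℝ) (G : R4 × R4 → ℝ) : R4 → R4 → R2 →L[ℝ] R2 :=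
  tm ψ G fun _ => ContinuousLinearMap.id ℝ R2

lemma tm_kernel {a : ℕ} {G : R4 × R4 → ℝ} (hG : Hom a G) {B : R4 → R2 →L[ℝ] R2}
    (hB : ContDiff ℝ ∞ B) {δ : ℝ} {ψ : R4 → ℝ} {c : ℝ} (hc : 0 ≤ c) (hψ : ContDiff ℝ ∞ ψ)
    (hb : ∀ z, z ≠ 0 → |ψ z| * (‖z‖ ^ a)⁻¹ ≤ c * wt δ z) :
    ∃ C, IsKernel δ C (tm ψ G B) := by
  obtain ⟨C, -, h⟩ := (hG.smul_const hB).kernel
  exact ⟨_, h δ ψ c hc hψ hb⟩

lemma unif_tm {a : ℕ} {G : R4 × R4 → ℝ} (hG : Hom a G) {B : R4 → R2 →L[ℝ] R2}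
    (hB : ContDiff ℝ ∞ B) {ψ : ℝ → R4 → ℝ} {c : ℝ} (hc : 0 ≤ c) (hψ : ∀ δ, ContDiff ℝ ∞ (ψ δ))
    (hb : ∀ δ, 0 < δ → δ ≤ 1 → ∀ z, z ≠ 0 → |ψ δ z| * (‖z‖ ^ a)⁻¹ ≤ c * wt δ z) :
    Unif fun δ => tm (ψ δ) G B := by
  obtain ⟨C, -, h⟩ := (hG.smul_const hB).kernel
  exact ⟨_, fun δ h0 h1 => h δ (ψ δ) c hc (hψ δ) (hb δ h0 h1)⟩

lemma tm_smooth {a : ℕ} {G : R4 × R4 → ℝ} (hG : Hom a G) {B : R4 → R2 →L[ℝ] R2}
    (hB : ContDiff ℝ ∞ B) {ψ : R4 → ℝ} (hψ : ContDiff ℝ ∞ ψ)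
    (h0 : ψ =ᶠ[𝓝 (0 : R4)] fun _ => 0) :
    ContDiff ℝ ∞ fun p : R4 × R4 => tm ψ G B p.1 p.2 := by
  refine contDiff_iff_contDiffAt.2 fun p => ?_
  by_cases hp : p.2 = 0
  · refine (contDiffAt_const (c := (0 : R2 →L[ℝ] R2))).congr_of_eventuallyEq ?_
    have ht : Tendsto (fun q : R4 × R4 => q.2) (𝓝 p) (𝓝 0) := hp ▸ continuous_snd.tendsto p
    filter_upwards [ht.eventually h0] with q hq
    exact ContinuousLinearMap.ext fun u => by simp [tm, hq]
  · exact ((hψ.comp contDiff_snd).contDiffAt).smul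
      ((hG.smul_const hB).smooth.contDiffAt (isOpen_offZero.mem_nhds hp))

lemma tm_hasCompactSupport {a : ℕ} {G : R4 × R4 → ℝ} (hG : Hom a G) {B : R4 → R2 →L[ℝ] R2}
    {ψ : R4 → ℝ} {δ : ℝ} (h : ∀ z, δ ≤ ‖z‖ → ψ z = 0) :
    HasCompactSupport fun p : R4 × R4 => tm ψ G B p.1 p.2 := by
  obtain ⟨K, hK, h0⟩ := hG.supp
  refine HasCompactSupport.of_support_subset_isCompact
    (hK.prod (isCompact_closedBall (0 : R4) δ)) fun p hp => ⟨?_, ?_⟩
  · by_contra hx
    exact hp (by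
      show ψ p.2 • (G (p.1, p.2) • B p.1) = 0
      exact ContinuousLinearMap.ext fun u => by simp [h0 p.1 p.2 hx])
  · by_contra hz
    rw [mem_closedBall_zero_iff, not_le] at hz
    exact hp (by
      show ψ p.2 • (G (p.1, p.2) • B p.1) = 0
      exact ContinuousLinearMap.ext fun u => by simp [h p.2 hz.le])

lemma intOp_sc (ψ : R4 → ℝ) (G : R4 × R4 → ℝ) (f : R4 → R2) (x : R4) :
    intOp (sc ψ G) f x = ∫ z, (ψ z * G (x, z)) • f (x - z) := by
  simp [intOp, sc, tm, smul_smul]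

lemma intOp_tm {r : ℝ} {C : ℕ → ℝ} {ψ : R4 → ℝ} {G : R4 × R4 → ℝ} {B : R4 → R2 →L[ℝ] R2}
    (h : IsKernel r C (sc ψ G)) {f : R4 → R2} (hf : Continuous f) {b : ℝ} (hb : ∀ y, ‖f y‖ ≤ b)
    (x : R4) : intOp (tm ψ G B) f x = B x (intOp (sc ψ G) f x) := by
  rw [intOp, intOp, ← (B x).integral_comp_comm (h.integrable hf hb x)]
  refine integral_congr_ae (.of_forall fun z => ?_)
  simp [tm, sc]

/-- The derivative of a test function along a vector. -/
def dT (f : Test R2) (v : R4) : Test R2 :=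
  ⟨fun y => fderiv ℝ (f : R4 → R2) y v,
    ((Test.smooth f).fderiv_right (by simp)).clm_apply contDiff_const,
    (Test.compact f).fderiv_apply ℝ v⟩

lemma dT_apply (f : Test R2) (v y : R4) :
    (dT f v : R4 → R2) y = fderiv ℝ (f : R4 → R2) y v := rfl

lemma dT_dT (f : Test R2) (v w y : R4) :
    (dT (dT f v) w : R4 → R2) y = fderiv ℝ (fderiv ℝ (f : R4 → R2)) y w v := by
  have h1 : ContDiff ℝ ∞ (fderiv ℝ (f : R4 → R2)) := (Test.smooth f).fderiv_right (by simp)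
  have h := ((h1.differentiable (by simp) y).hasFDerivAt.clm_apply (hasFDerivAt_const v y)).fderiv
  exact (congrArg (fun T : R4 →L[ℝ] R2 => T w) h).trans (by simp)

/-- Differentiation of a scalar term. -/
lemma fderiv_sc {r : ℝ} {C : ℕ → ℝ} {a : ℕ} {ψ : R4 → ℝ} {G : R4 × R4 → ℝ} (hG : Hom a G)
    (h : IsKernel r C (sc ψ G)) (f : Test R2) (x v : R4) :
    fderiv ℝ (intOp (sc ψ G) (f : R4 → R2)) x v =
      intOp (sc ψ (dd G (v, 0))) (f : R4 → R2) x + intOp (sc ψ G) (dT f v : R4 → R2) x := by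
  obtain ⟨B, hB⟩ := Test.exists_bound f
  have hf := Test.smooth f
  have h1 : ∀ y, ‖fderiv ℝ (f : R4 → R2) y‖ ≤ B 1 := fun y => by
    simpa [norm_iteratedFDeriv_one] using hB 1 y
  rw [(h.hasFDerivAt_intOp hf hB x).fderiv, add_apply]
  congr 1
  · rw [intOp, intOp, ContinuousLinearMap.integral_apply
      (h.derivKer.integrable hf.continuous (fun y => by simpa using hB 0 y) x)]
    refine integral_congr_ae ?_
    filter_upwards [ae_ne_zero] with z hz
    have hd : HasFDerivAt (fun y => ψ z • (G (y, z) • ContinuousLinearMap.id ℝ R2))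
        (ψ z • ((fderiv ℝ G (x, z)).comp (ContinuousLinearMap.inl ℝ R4 R4)).smulRight
          (ContinuousLinearMap.id ℝ R2)) x :=
      by
      have d1 : HasFDerivAt (fun y => G (y, z))
          ((fderiv ℝ G (x, z)).comp (ContinuousLinearMap.inl ℝ R4 R4)) x :=
        (hG.differentiableAt (p := (x, z)) hz).hasFDerivAt.comp x
          (hasFDerivAt_prodMk_left (𝕜 := ℝ) x z)
      have d2 : HasFDerivAt (fun y => G (y, z) • ContinuousLinearMap.id ℝ R2)
          (((fderiv ℝ G (x, z)).comp (ContinuousLinearMap.inl ℝ R4 R4)).smulRight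
            (ContinuousLinearMap.id ℝ R2)) x :=
        d1.smul_const (ContinuousLinearMap.id ℝ R2)
      exact d2.fun_const_smul (ψ z)
    simp [Elliptic.derivKer, sc, tm, hd.fderiv, dd]
  · rw [intOp, intOp, ContinuousLinearMap.integral_apply
      (h.compKer.integrable (hf.continuous_fderiv (by simp)) h1 x)]
    rfl

/-- Integration by parts of a scalar term of degree two. -/
lemma sc_byParts {G : R4 × R4 → ℝ} (hG : Hom 2 G) {δ : ℝ} (hδ : 0 < δ) (hδ1 : δ ≤ 1)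
    (f : Test R2) (x v : R4) :
    intOp (sc (th δ) G) (dT f v : R4 → R2) x =
      intOp (sc (th1 δ v) G) (f : R4 → R2) x +
        intOp (sc (th δ) (ddz G v)) (f : R4 → R2) x := by
  obtain ⟨L, hL0, hL⟩ := th1_weight
  obtain ⟨C0, hC0, hG0⟩ := hG.bound_zero
  obtain ⟨C1, hC1, hG1⟩ := (hG.ddz v).bound_zero
  obtain ⟨B, hB⟩ := Test.exists_bound f
  have hf := Test.smooth f
  set a : R4 → ℝ := fun z => th δ z * G (x, z) with ha
  have hsl : ContDiffOn ℝ ∞ (fun z => G (x, z)) {z | z ≠ 0} :=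
    hG.smooth.comp (contDiff_const.prodMk contDiff_id).contDiffOn fun z hz => hz
  have hder : ∀ z, z ≠ 0 → fderiv ℝ a z v = th1 δ v z * G (x, z) + th δ z * ddz G v (x, z) := by
    intro z hz
    have h := (((th_smooth δ).differentiable (by simp) z).hasFDerivAt.mul
      ((hG.differentiableAt (p := (x, z)) hz).hasFDerivAt.comp z
        (hasFDerivAt_prodMk_right (𝕜 := ℝ) x z))).fderiv
    refine (congrArg (fun T : R4 →L[ℝ] ℝ => T v) h).trans ?_
    simp [th1, ddz_of_ne G v (p := (x, z)) hz]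
    ring
  have key := byParts (r := δ) (C := max C0 (L * ‖v‖ * C0 + C1)) (a := a) (v := v)
    ((th_smooth δ).contDiffOn.mul hsl) (fun z hz => by simp [ha, (th_outer hδ hz).eq_of_nhds])
    (fun z hz => ?_) (fun z hz => ?_) hf (fun y => by simpa using hB 0 y)
    (fun y => by simpa [norm_iteratedFDeriv_one] using hB 1 y) x
  · rw [intOp_sc]
    refine key.trans ?_
    rw [intOp_sc, intOp_sc]
    obtain ⟨K1, k1⟩ := tm_kernel hG (contDiff_const (c := ContinuousLinearMap.id ℝ R2))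
      (mul_nonneg hL0 (norm_nonneg v)) (th1_smooth δ v) fun z hz => (hL δ hδ hδ1 v z hz).1
    obtain ⟨K2, k2⟩ := tm_kernel (hG.ddz v) (contDiff_const (c := ContinuousLinearMap.id ℝ R2))
      zero_le_one (th_smooth δ) fun z hz => (th_weight hδ hδ1 hz).2
    have i1 := k1.integrable hf.continuous (fun y => by simpa using hB 0 y) x
    have i2 := k2.integrable hf.continuous (fun y => by simpa using hB 0 y) x
    simp only [tm, smul_apply, ContinuousLinearMap.id_apply, smul_smul] at i1 i2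
    rw [← integral_add i1 i2]
    refine integral_congr_ae ?_
    filter_upwards [ae_ne_zero] with z hz
    rw [hder z hz, add_smul]
  · have hz0 : 0 < ‖z‖ := norm_pos_iff.2 hz
    by_cases h : δ ≤ ‖z‖
    · simp only [ha, (th_outer hδ h).eq_of_nhds, zero_mul, abs_zero]
      have := wt_nonneg δ z
      positivity
    · rw [not_le] at h
      have e : wt δ z = (‖z‖ ^ 3)⁻¹ := Set.indicator_of_mem (by simpa using h) _
      calc |a z| = |th δ z| * ‖G (x, z)‖ := by rw [ha, abs_mul, Real.norm_eq_abs]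
        _ ≤ 1 * (C0 * (‖z‖ ^ 2)⁻¹) :=
            mul_le_mul (th_abs δ z) (hG0 x z hz) (norm_nonneg _) zero_le_one
        _ = C0 * wt δ z * ‖z‖ := by rw [e]; field_simp
        _ ≤ _ := by
            rw [e]
            gcongr
            exact le_max_left _ _
  · rw [hder z hz]
    have hw := wt_nonneg δ z
    have h1 : |th1 δ v z * G (x, z)| ≤ L * ‖v‖ * C0 * wt δ z := by
      rw [abs_mul, ← Real.norm_eq_abs (G (x, z))]
      calc |th1 δ v z| * ‖G (x, z)‖ ≤ |th1 δ v z| * (C0 * (‖z‖ ^ 2)⁻¹) :=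
            mul_le_mul_of_nonneg_left (hG0 x z hz) (abs_nonneg _)
        _ = C0 * (|th1 δ v z| * (‖z‖ ^ 2)⁻¹) := by ring
        _ ≤ C0 * (L * ‖v‖ * wt δ z) := mul_le_mul_of_nonneg_left (hL δ hδ hδ1 v z hz).1 hC0
        _ = _ := by ring
    have h2 : |th δ z * ddz G v (x, z)| ≤ C1 * wt δ z := by
      rw [abs_mul, ← Real.norm_eq_abs (ddz G v (x, z))]
      calc |th δ z| * ‖ddz G v (x, z)‖ ≤ |th δ z| * (C1 * (‖z‖ ^ 3)⁻¹) :=
            mul_le_mul_of_nonneg_left (hG1 x z hz) (abs_nonneg _)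
        _ = C1 * (|th δ z| * (‖z‖ ^ 3)⁻¹) := by ring
        _ ≤ C1 * (1 * wt δ z) := mul_le_mul_of_nonneg_left (th_weight hδ hδ1 hz).2 hC1
        _ = _ := by ring
    refine (abs_add_le _ _).trans ?_
    calc |th1 δ v z * G (x, z)| + |th δ z * ddz G v (x, z)|
        ≤ (L * ‖v‖ * C0 + C1) * wt δ z := by linarith
      _ ≤ _ := mul_le_mul_of_nonneg_right (le_max_right _ _) hw

/-! ### The system -/

variable (S : LocalSys)

/-- The inclusion of coefficient `(k, l)` into second derivatives. -/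
def incl2 (k l : Fin 4) : R2 →L[ℝ] J2 :=
  (ContinuousLinearMap.smulRightL ℝ R4 J1 (EuclideanSpace.proj k)).comp
    (ContinuousLinearMap.smulRightL ℝ R4 R2 (EuclideanSpace.proj l))

/-- The inclusion of coefficient `k` into first derivatives. -/
def incl1 (k : Fin 4) : R2 →L[ℝ] J1 :=
  ContinuousLinearMap.smulRightL ℝ R4 R2 (EuclideanSpace.proj k)

/-- Second order coefficients. -/
def B2 (k l : Fin 4) (x : R4) : R2 →L[ℝ] R2 := (S.P2 x).comp (incl2 k l)

/-- First order coefficients. -/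
def B1 (k : Fin 4) (x : R4) : R2 →L[ℝ] R2 := (S.P1 x).comp (incl1 k)

lemma B2_smooth (k l : Fin 4) : ContDiff ℝ ∞ (B2 S k l) := S.P2_smooth.clm_comp contDiff_const

lemma B1_smooth (k : Fin 4) : ContDiff ℝ ∞ (B1 S k) := S.P1_smooth.clm_comp contDiff_const

lemma r4_expand (v : R4) : v = ∑ i, v i • bvec i := by
  ext j; simp [bvec, Pi.single_apply]

lemma j1_expand (T : J1) : T = ∑ k, incl1 k (T (bvec k)) := by
  refine ContinuousLinearMap.ext fun u => ?_
  conv_lhs => rw [r4_expand u]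
  simp only [map_sum, map_smul, sum_apply]
  exact Finset.sum_congr rfl fun k _ => rfl

lemma P1_expand (x : R4) (T : J1) : S.P1 x T = ∑ k, B1 S k x (T (bvec k)) := by
  conv_lhs => rw [j1_expand T, map_sum]
  exact Finset.sum_congr rfl fun k _ => rfl

lemma P2_expand (x : R4) (T : J2) :
    S.P2 x T = ∑ k, ∑ l, B2 S k l x (T (bvec k) (bvec l)) := by
  have e : T = ∑ k, ∑ l, incl2 k l (T (bvec k) (bvec l)) := by
    refine ContinuousLinearMap.ext fun u => ?_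
    conv_lhs => rw [r4_expand u]
    simp only [map_sum, map_smul, sum_apply]
    refine Finset.sum_congr rfl fun k _ => ?_
    conv_lhs => rw [j1_expand (T (bvec k)), Finset.smul_sum]
    exact Finset.sum_congr rfl fun l _ => rfl
  conv_lhs => rw [e, map_sum]
  refine Finset.sum_congr rfl fun k _ => ?_
  rw [map_sum]
  exact Finset.sum_congr rfl fun l _ => rfl

/-- The normalising factor. -/
def wfun (x : R4) : ℝ := -Real.sqrt (gdet (S.g x)) / (8 * S.c0 * stdMass)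

/-- The parametrix kernel before the cut-off in `z`. -/
def F0 (p : R4 × R4) : ℝ := S.phi p.1 * wfun S p.1 * (qf (S.g p.1) p.2)⁻¹

lemma gdet_pos_g (x : R4) : 0 < gdet (S.g x) := by
  obtain ⟨L, hL⟩ := exists_orthoFrame (S.g x) (S.g_symm x) (S.g_pos x)
  exact gdet_pos hL

lemma contDiff_gdet : ContDiff ℝ ∞ fun x => gdet (S.g x) := by
  simp only [gdet, Matrix.det_apply', Matrix.of_apply]
  exact ContDiff.sum fun σ _ => contDiff_const.mul (contDiff_prod fun i _ =>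
    (S.g_smooth.clm_apply contDiff_const).clm_apply contDiff_const)

lemma contDiff_wfun : ContDiff ℝ ∞ (wfun S) :=
  (((contDiff_gdet S).sqrt fun x => (gdet_pos_g S x).ne').neg).div_const _

lemma hom_F0 : Hom 2 (F0 S) where
  smooth := by
    refine (((S.phi_smooth.comp contDiff_fst).mul
      ((contDiff_wfun S).comp contDiff_fst)).contDiffOn).mul (ContDiffOn.inv ?_ fun p hp => ?_)
    · exact (((S.g_smooth.comp contDiff_fst).clm_apply contDiff_snd).clm_apply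
        contDiff_snd).contDiffOn
    · exact (S.g_pos p.1 p.2 hp).ne'
  supp := ⟨tsupport S.phi, S.phi_compact, fun x z hx => by
    simp [F0, image_eq_zero_of_notMem_tsupport hx]⟩
  hom x z t ht := by
    simp only [F0, qf, map_smul, smul_apply, smul_eq_mul]
    field_simp

/-- Terms of the second order part. -/
def kKA (δ : ℝ) (k l : Fin 4) (x z : R4) : R2 →L[ℝ] R2 :=
  tm (th δ) (dd (dd (F0 S) (bvec l, 0)) (bvec k, 0)) (B2 S k l) x z +
    (tm (th1 δ (bvec k)) (dd (F0 S) (bvec l, 0)) (B2 S k l) x z +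
      tm (th δ) (ddz (dd (F0 S) (bvec l, 0)) (bvec k)) (B2 S k l) x z) +
    (tm (th1 δ (bvec l)) (dd (F0 S) (bvec k, 0)) (B2 S k l) x z +
      tm (th δ) (ddz (dd (F0 S) (bvec k, 0)) (bvec l)) (B2 S k l) x z)

/-- Terms of the first order part. -/
def kKB (δ : ℝ) (k : Fin 4) (x z : R4) : R2 →L[ℝ] R2 :=
  tm (th δ) (dd (F0 S) (bvec k, 0)) (B1 S k) x z +
    (tm (th1 δ (bvec k)) (F0 S) (B1 S k) x z + tm (th δ) (ddz (F0 S) (bvec k)) (B1 S k) x z)

/-- The lower order kernel. -/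
def kK (δ : ℝ) (x z : R4) : R2 →L[ℝ] R2 :=
  (∑ k, ∑ l, kKA S δ k l x z) + (∑ k, kKB S δ k x z) + tm (th δ) (F0 S) S.P0 x z

/-- Terms of the smooth kernel. -/
def kSA (δ : ℝ) (k l : Fin 4) (x z : R4) : R2 →L[ℝ] R2 :=
  tm (th2 δ (bvec l) (bvec k)) (F0 S) (B2 S k l) x z +
    (tm (th1 δ (bvec k)) (ddz (F0 S) (bvec l)) (B2 S k l) x z +
      tm (th1 δ (bvec l)) (ddz (F0 S) (bvec k)) (B2 S k l) x z)

/-- The smooth kernel. -/
def kS (δ : ℝ) (x z : R4) : R2 →L[ℝ] R2 := ∑ k, ∑ l, kSA S δ k l x z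

/-- The parametrix kernel. -/
def kR (δ : ℝ) : R4 → R4 → R2 →L[ℝ] R2 := sc (th δ) (F0 S)

lemma unif_th {a : ℕ} (ha : a = 2 ∨ a = 3) {G : R4 × R4 → ℝ} (hG : Hom a G)
    {B : R4 → R2 →L[ℝ] R2} (hB : ContDiff ℝ ∞ B) : Unif fun δ => tm (th δ) G B := by
  refine unif_tm hG hB (ψ := th) (c := 1) zero_le_one th_smooth fun δ h0 h1 z hz => ?_
  rcases ha with rfl | rfl
  · exact (th_weight h0 h1 hz).1
  · exact (th_weight h0 h1 hz).2

lemma unif_th1 {G : R4 × R4 → ℝ} (hG : Hom 2 G) {B : R4 → R2 →L[ℝ] R2} (hB : ContDiff ℝ ∞ B)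
    (v : R4) : Unif fun δ => tm (th1 δ v) G B := by
  obtain ⟨L, hL0, hL⟩ := th1_weight
  exact unif_tm hG hB (ψ := fun δ => th1 δ v) (c := L * ‖v‖) (by positivity)
    (fun δ => th1_smooth δ v) fun δ h0 h1 z hz => (hL δ h0 h1 v z hz).1

lemma unif_kKA (k l : Fin 4) : Unif fun δ => kKA S δ k l := by
  have hB := B2_smooth S k l
  have hx := fun v => (hom_F0 S).ddx v
  exact ((unif_th (.inl rfl) ((hx _).ddx _) hB).add
    ((unif_th1 (hx _) hB _).add (unif_th (.inr rfl) ((hx _).ddz _) hB))).add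
    ((unif_th1 (hx _) hB _).add (unif_th (.inr rfl) ((hx _).ddz _) hB))

lemma unif_kKB (k : Fin 4) : Unif fun δ => kKB S δ k :=
  (unif_th (.inl rfl) ((hom_F0 S).ddx _) (B1_smooth S k)).add
    ((unif_th1 (hom_F0 S) (B1_smooth S k) _).add
      (unif_th (.inr rfl) ((hom_F0 S).ddz _) (B1_smooth S k)))

lemma unif_kK : Unif fun δ => kK S δ :=
  ((Unif.sum fun k _ => Unif.sum fun l _ => unif_kKA S k l).add
    (Unif.sum fun k _ => unif_kKB S k)).add (unif_th (.inl rfl) (hom_F0 S) S.P0_smooth)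

lemma unif_kR : Unif fun δ => kR S δ := unif_th (.inl rfl) (hom_F0 S) contDiff_const

lemma kSA_props {δ : ℝ} (hδ : 0 < δ) (hδ1 : δ ≤ 1) (k l : Fin 4) :
    (∃ C, IsKernel δ C (kSA S δ k l)) ∧
      ContDiff ℝ ∞ (fun p : R4 × R4 => kSA S δ k l p.1 p.2) ∧
      HasCompactSupport fun p : R4 × R4 => kSA S δ k l p.1 p.2 := by
  obtain ⟨L, hL0, hL⟩ := th1_weight
  obtain ⟨L2, hL20, hL2⟩ := th2_weight hδ hδ1 (bvec l) (bvec k)
  have hB := B2_smooth S k l
  obtain ⟨C1, h1⟩ := tm_kernel (hom_F0 S) hB hL20 (th2_smooth δ (bvec l) (bvec k)) hL2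
  have hw : ∀ v : R4, ∀ z, z ≠ 0 → |th1 δ v z| * (‖z‖ ^ 3)⁻¹ ≤ L * ‖v‖ / δ * wt δ z :=
    fun v z hz => (hL δ hδ hδ1 v z hz).2
  obtain ⟨C2, h2⟩ := tm_kernel ((hom_F0 S).ddz (bvec l)) hB (by positivity)
    (th1_smooth δ (bvec k)) (hw (bvec k))
  obtain ⟨C3, h3⟩ := tm_kernel ((hom_F0 S).ddz (bvec k)) hB (by positivity)
    (th1_smooth δ (bvec l)) (hw (bvec l))
  refine ⟨⟨_, h1.add (h2.add h3)⟩, ?_, ?_⟩
  · exact (tm_smooth (hom_F0 S) hB (th2_smooth _ _ _) (th2_inner _ _)).add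
      ((tm_smooth ((hom_F0 S).ddz _) hB (th1_smooth _ _) (th1_inner _)).add
        (tm_smooth ((hom_F0 S).ddz _) hB (th1_smooth _ _) (th1_inner _)))
  · exact (tm_hasCompactSupport (hom_F0 S) fun z hz => th2_outer hδ _ _ hz).add
      ((tm_hasCompactSupport ((hom_F0 S).ddz _) fun z hz => (th1_outer hδ _ hz).eq_of_nhds).add
        (tm_hasCompactSupport ((hom_F0 S).ddz _) fun z hz => (th1_outer hδ _ hz).eq_of_nhds))

lemma isKernel_sum {ι : Type} {s : Finset ι} {r : ℝ} {k : ι → R4 → R4 → R2 →L[ℝ] R2}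
    (h : ∀ i ∈ s, ∃ C, IsKernel r C (k i)) : ∃ C, IsKernel r C fun x z => ∑ i ∈ s, k i x z := by
  classical
  induction s using Finset.induction_on with
  | empty => exact ⟨_, by simpa using IsKernel.zero (V := R2) (W := R2) r⟩
  | insert i s hi ih =>
    obtain ⟨C, hC⟩ := h i (Finset.mem_insert_self _ _)
    obtain ⟨C', hC'⟩ := ih fun j hj => h j (Finset.mem_insert_of_mem hj)
    simp only [Finset.sum_insert hi]
    exact ⟨_, hC.add hC'⟩

lemma hasCompactSupport_sum {ι : Type} {s : Finset ι} {k : ι → R4 × R4 → R2 →L[ℝ] R2}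
    (h : ∀ i ∈ s, HasCompactSupport (k i)) : HasCompactSupport fun p => ∑ i ∈ s, k i p := by
  classical
  induction s using Finset.induction_on with
  | empty =>
    simp only [Finset.sum_empty]
    exact (HasCompactSupport.zero (α := R4 × R4) (β := R2 →L[ℝ] R2))
  | insert i s hi ih =>
    simp only [Finset.sum_insert hi]
    exact (h i (Finset.mem_insert_self _ _)).add (ih fun j hj => h j (Finset.mem_insert_of_mem hj))

lemma kS_props {δ : ℝ} (hδ : 0 < δ) (hδ1 : δ ≤ 1) :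
    (∃ C, IsKernel δ C (kS S δ)) ∧
      ContDiff ℝ ∞ (fun p : R4 × R4 => kS S δ p.1 p.2) ∧
      HasCompactSupport fun p : R4 × R4 => kS S δ p.1 p.2 :=
  ⟨isKernel_sum fun k _ => isKernel_sum fun l _ => (kSA_props S hδ hδ1 k l).1,
    ContDiff.sum fun k _ => ContDiff.sum fun l _ => (kSA_props S hδ hδ1 k l).2.1,
    hasCompactSupport_sum fun k _ => hasCompactSupport_sum fun l _ =>
      (kSA_props S hδ hδ1 k l).2.2⟩

/-! ### The identity -/

lemma F0_slice {x : R4} (hx : x ∈ S.U) {z : R4} :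
    F0 S (x, z) = wfun S x * newtonKer (S.g x) 0 z := by
  simp [F0, S.phi_one x hx, newtonKer]

lemma ddz_F0_slice {x : R4} (hx : x ∈ S.U) {z : R4} (hz : z ≠ 0) (v : R4) :
    ddz (F0 S) v (x, z) = wfun S x * newtonD (S.g x) 0 v z := by
  have hne : qf (S.g x) z + 0 ≠ 0 := by rw [add_zero]; exact (S.g_pos x z hz).ne'
  rw [ddz_of_ne _ _ (p := (x, z)) hz]
  have h1 := (((hom_F0 S).differentiableAt (p := (x, z)) hz).hasFDerivAt.comp z
    (hasFDerivAt_prodMk_right (𝕜 := ℝ) x z)).fderiv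
  have e : (F0 S ∘ fun y => (x, y)) = fun y => wfun S x * newtonKer (S.g x) 0 y :=
    funext fun y => F0_slice S hx
  have hd : DifferentiableAt ℝ (newtonKer (S.g x) 0) z :=
    (((contDiff_qf (S.g x)).differentiable (by simp) z).add_const 0).fun_inv hne
  rw [e, (hd.hasFDerivAt.const_mul (wfun S x)).fderiv] at h1
  have h2 := congrArg (fun T : R4 →L[ℝ] ℝ => T v) h1
  simp only [smul_apply, smul_eq_mul, ContinuousLinearMap.comp_apply,
    ContinuousLinearMap.inr_apply, newtonKer_fderiv (S.g_symm x) hne] at h2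
  exact h2.symm

lemma wfun_mass (x : R4) :
    S.c0 * wfun S x * (-8 * (stdMass / Real.sqrt (gdet (S.g x)))) = 1 := by
  have h1 := (Real.sqrt_pos.2 (gdet_pos_g S x)).ne'
  have h2 := stdMass_pos.ne'
  have h3 := S.c0_ne
  simp only [wfun]
  field_simp

lemma kS_apply {x : R4} (hx : x ∈ S.U) {L : R4 ≃L[ℝ] R4}
    (hL : ∀ u v, S.g x (L u) (L v) = ∑ i, u i * v i) (δ : ℝ) {z : R4} (hz : z ≠ 0) (v : R2) :
    kS S δ x z v =
      (S.c0 * wfun S x * newtonRest (S.g x) 0 (th δ) (fun m => L (bvec m)) z) • v := by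
  have h1 : ContDiff ℝ ∞ (fderiv ℝ (th δ)) := (th_smooth δ).fderiv_right (by simp)
  have hD2 : ∀ a b, fderiv ℝ (fderiv ℝ (th δ)) z a b = th2 δ b a z := by
    intro a b
    have h := ((h1.differentiable (by simp) z).hasFDerivAt.clm_apply (hasFDerivAt_const b z)).fderiv
    exact ((congrArg (fun T : R4 →L[ℝ] ℝ => T a) h).trans (by simp)).symm
  set De : Cov := wfun S x • fderiv ℝ (newtonKer (S.g x) 0) z
  set T : Bil := F0 S (x, z) • fderiv ℝ (fderiv ℝ (th δ)) z +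
    ((fderiv ℝ (th δ) z).smulRight De + De.smulRight (fderiv ℝ (th δ) z)) with hT
  set T2 : J2 := ((ContinuousLinearMap.smulRightL ℝ R4 R2).flip v).comp T with hT2
  have hT2a : ∀ a b, T2 a b = T a b • v := fun a b => rfl
  have hne : qf (S.g x) z + 0 ≠ 0 := by rw [add_zero]; exact (S.g_pos x z hz).ne'
  have hDe : ∀ a, De a = ddz (F0 S) a (x, z) := fun a => by
    rw [ddz_F0_slice S hx hz, ← newtonKer_fderiv (S.g_symm x) hne]
    rfl
  have hTa : ∀ a b, T a b = F0 S (x, z) * th2 δ b a z +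
      (th1 δ a z * ddz (F0 S) b (x, z) + th1 δ b z * ddz (F0 S) a (x, z)) := fun a b => by
    simp only [hT, add_apply, smul_apply, smul_eq_mul, ContinuousLinearMap.smulRight_apply,
      hD2, hDe, th1]
    ring
  have hsymm : ∀ a b, T2 a b = T2 b a := by
    intro a b
    rw [hT2a, hT2a, hTa, hTa]
    have hs : th2 δ b a z = th2 δ a b z := by
      rw [← hD2, ← hD2]
      exact (th_smooth δ).contDiffAt.isSymmSndFDerivAt (by simpa using WithTop.coe_le_coe.2 (le_top : (2 : ℕ∞) ≤ ⊤)) a b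
    rw [hs, add_comm (th1 δ a z * _)]
  have horth : ∀ i j, S.g x (L (bvec i)) (L (bvec j)) = if i = j then 1 else 0 := frame_orth hL
  have hP := (P2_expand S x T2).symm.trans (S.principal x hx (fun m => L (bvec m)) horth T2 hsymm)
  have e : kS S δ x z v = ∑ k, ∑ l, B2 S k l x (T2 (bvec k) (bvec l)) := by
    simp only [kS, kSA, tm, sum_apply, add_apply, smul_apply]
    refine Finset.sum_congr rfl fun k _ => Finset.sum_congr rfl fun l _ => ?_
    rw [hT2a, hTa, map_smul]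
    simp only [smul_smul, ← add_smul]
    congr 1
    ring
  rw [e, hP]
  simp only [hT2a, hTa, ← Finset.sum_smul, smul_smul, newtonRest, Finset.mul_sum]
  congr 1
  refine Finset.sum_congr rfl fun m _ => ?_
  rw [F0_slice S hx, ddz_F0_slice S hx hz]
  have hth1 : ∀ u, th1 δ u = fun y => fderiv ℝ (th δ) y u := fun u => rfl
  simp only [th2, hth1]
  ring

theorem parametrix_identity {δ : ℝ} (hδ : 0 < δ) (hδ1 : δ ≤ 1) (f : Test R2) {x : R4}
    (hx : x ∈ S.U) :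
    S.app (intOp (kR S δ) (f : R4 → R2)) x =
      (f : R4 → R2) x + intOp (kK S δ) (f : R4 → R2) x + intOp (kS S δ) (f : R4 → R2) x := by
  obtain ⟨B, hB⟩ := Test.exists_bound f
  have hf := Test.smooth f
  have hfc : Continuous (f : R4 → R2) := hf.continuous
  have hb : ∀ y, ‖(f : R4 → R2) y‖ ≤ B 0 := fun y => by simpa using hB 0 y
  have hid : ContDiff ℝ ∞ fun _ : R4 => ContinuousLinearMap.id ℝ R2 := contDiff_const
  have kth : ∀ {a : ℕ} {G : R4 × R4 → ℝ}, (a = 2 ∨ a = 3) → Hom a G →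
      ∃ C, IsKernel δ C (sc (th δ) G) := fun {a G} ha hG => by
    obtain ⟨C, hC⟩ := unif_th ha hG hid
    exact ⟨C, hC δ hδ hδ1⟩
  have kth1 : ∀ {G : R4 × R4 → ℝ}, Hom 2 G → ∀ v, ∃ C, IsKernel δ C (sc (th1 δ v) G) :=
    fun {G} hG v => by
      obtain ⟨C, hC⟩ := unif_th1 hG hid v
      exact ⟨C, hC δ hδ hδ1⟩
  have hF := hom_F0 S
  obtain ⟨CR, hR⟩ := kth (.inl rfl) hF
  -- derivatives of the parametrix
  have hu1 : ∀ y v, fderiv ℝ (intOp (kR S δ) (f : R4 → R2)) y v =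
      intOp (sc (th δ) (dd (F0 S) (v, 0))) (f : R4 → R2) y +
        intOp (sc (th δ) (F0 S)) (dT f v : R4 → R2) y := fun y v => fderiv_sc hF hR f y v
  have hcd : ContDiff ℝ ∞ (intOp (kR S δ) (f : R4 → R2)) := intOp_contDiff hR hδ.le hf hB
  have hu2 : ∀ k l : Fin 4,
      fderiv ℝ (fderiv ℝ (intOp (kR S δ) (f : R4 → R2))) x (bvec k) (bvec l) =
        intOp (sc (th δ) (dd (dd (F0 S) (bvec l, 0)) (bvec k, 0))) (f : R4 → R2) x +
          intOp (sc (th δ) (dd (F0 S) (bvec l, 0))) (dT f (bvec k) : R4 → R2) x +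
          (intOp (sc (th δ) (dd (F0 S) (bvec k, 0))) (dT f (bvec l) : R4 → R2) x +
            intOp (sc (th δ) (F0 S)) (dT (dT f (bvec l)) (bvec k) : R4 → R2) x) := by
    intro k l
    have hx1 := hF.ddx (bvec l)
    obtain ⟨C1, h1⟩ := kth (.inl rfl) hx1
    obtain ⟨B', hB'⟩ := Test.exists_bound (dT f (bvec l))
    have d1 : DifferentiableAt ℝ
        (intOp (sc (th δ) (dd (F0 S) (bvec l, 0))) (f : R4 → R2)) x :=
      (h1.hasFDerivAt_intOp hf hB x).differentiableAt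
    have d2 : DifferentiableAt ℝ
        (intOp (sc (th δ) (F0 S)) (dT f (bvec l) : R4 → R2)) x :=
      (hR.hasFDerivAt_intOp (Test.smooth (dT f (bvec l))) hB' x).differentiableAt
    have hc1 : ContDiff ℝ ∞ (fderiv ℝ (intOp (kR S δ) (f : R4 → R2))) :=
      hcd.fderiv_right (by simp)
    have h := ((hc1.differentiable (by simp) x).hasFDerivAt.clm_apply
      (hasFDerivAt_const (bvec l) x)).fderiv
    have e0 := congrArg (fun T : R4 →L[ℝ] R2 => T (bvec k)) h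
    simp only [ContinuousLinearMap.comp_zero, zero_add, ContinuousLinearMap.flip_apply] at e0
    rw [← e0, funext fun y => hu1 y (bvec l)]
    rw [(d1.hasFDerivAt.fun_add d2.hasFDerivAt).fderiv, add_apply,
      fderiv_sc hx1 h1 f x (bvec k), fderiv_sc hF hR (dT f (bvec l)) x (bvec k)]
  -- pieces
  have eK : intOp (kK S δ) (f : R4 → R2) x =
      (∑ k, ∑ l, B2 S k l x
        (intOp (sc (th δ) (dd (dd (F0 S) (bvec l, 0)) (bvec k, 0))) (f : R4 → R2) x +
          intOp (sc (th δ) (dd (F0 S) (bvec l, 0))) (dT f (bvec k) : R4 → R2) x +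
          intOp (sc (th δ) (dd (F0 S) (bvec k, 0))) (dT f (bvec l) : R4 → R2) x)) +
      (∑ k, B1 S k x (fderiv ℝ (intOp (kR S δ) (f : R4 → R2)) x (bvec k))) +
      S.P0 x (intOp (kR S δ) (f : R4 → R2) x) := by
    choose CA hA using unif_kKA S
    choose CB hB1 using unif_kKB S
    obtain ⟨C0, h0⟩ := unif_th (.inl rfl) hF S.P0_smooth
    obtain ⟨CS1, hS1⟩ := Unif.sum (s := (Finset.univ : Finset (Fin 4))) fun k _ =>
      Unif.sum (s := (Finset.univ : Finset (Fin 4))) fun l _ => unif_kKA S k l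
    obtain ⟨CS2, hS2⟩ := Unif.sum (s := (Finset.univ : Finset (Fin 4))) fun k _ => unif_kKB S k
    have k12 := (hS1 δ hδ hδ1).add (hS2 δ hδ hδ1)
    show intOp (fun x z => (∑ k, ∑ l, kKA S δ k l x z) + (∑ k, kKB S δ k x z) +
      tm (th δ) (F0 S) S.P0 x z) (f : R4 → R2) x = _
    rw [intOp_add k12 (h0 δ hδ hδ1) hfc hb, intOp_add (hS1 δ hδ hδ1) (hS2 δ hδ hδ1) hfc hb]
    choose CR1 hR1 using fun k => Unif.sum (s := (Finset.univ : Finset (Fin 4)))
      fun l _ => unif_kKA S k l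
    rw [intOp_sum (fun k _ => hR1 k δ hδ hδ1) hfc hb,
      intOp_sum (fun k _ => hB1 k δ hδ hδ1) hfc hb]
    congr 1
    congr 1
    · refine Finset.sum_congr rfl fun k _ => ?_
      rw [intOp_sum (fun l _ => hA k l δ hδ hδ1) hfc hb]
      refine Finset.sum_congr rfl fun l _ => ?_
      have hxk := hF.ddx (bvec k)
      have hxl := hF.ddx (bvec l)
      obtain ⟨_, a1⟩ := kth (.inl rfl) (hxl.ddx (bvec k))
      obtain ⟨_, a2⟩ := kth1 hxl (bvec k)
      obtain ⟨_, a3⟩ := kth (.inr rfl) (hxl.ddz (bvec k))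
      obtain ⟨_, a4⟩ := kth1 hxk (bvec l)
      obtain ⟨_, a5⟩ := kth (.inr rfl) (hxk.ddz (bvec l))
      have hB2 := B2_smooth S k l
      obtain ⟨_, b1⟩ := unif_th (.inl rfl) (hxl.ddx (bvec k)) hB2
      obtain ⟨_, b2⟩ := unif_th1 hxl hB2 (bvec k)
      obtain ⟨_, b3⟩ := unif_th (.inr rfl) (hxl.ddz (bvec k)) hB2
      obtain ⟨_, b4⟩ := unif_th1 hxk hB2 (bvec l)
      obtain ⟨_, b5⟩ := unif_th (.inr rfl) (hxk.ddz (bvec l)) hB2
      have c1 := b1 δ hδ hδ1
      have c2 := b2 δ hδ hδ1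
      have c3 := b3 δ hδ hδ1
      have c4 := b4 δ hδ hδ1
      have c5 := b5 δ hδ hδ1
      show intOp (fun x z => _ + (_ + _) + (_ + _)) (f : R4 → R2) x = _
      rw [intOp_add (c1.add (c2.add c3)) (c4.add c5) hfc hb, intOp_add c1 (c2.add c3) hfc hb,
        intOp_add c2 c3 hfc hb, intOp_add c4 c5 hfc hb, intOp_tm a1 hfc hb, intOp_tm a2 hfc hb,
        intOp_tm a3 hfc hb, intOp_tm a4 hfc hb, intOp_tm a5 hfc hb,
        sc_byParts hxl hδ hδ1 f x (bvec k), sc_byParts hxk hδ hδ1 f x (bvec l)]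
      simp only [map_add]
    · refine Finset.sum_congr rfl fun k _ => ?_
      obtain ⟨_, a1⟩ := kth (.inl rfl) (hF.ddx (bvec k))
      obtain ⟨_, a2⟩ := kth1 hF (bvec k)
      obtain ⟨_, a3⟩ := kth (.inr rfl) (hF.ddz (bvec k))
      obtain ⟨_, b1⟩ := unif_th (.inl rfl) (hF.ddx (bvec k)) (B1_smooth S k)
      obtain ⟨_, b2⟩ := unif_th1 hF (B1_smooth S k) (bvec k)
      obtain ⟨_, b3⟩ := unif_th (.inr rfl) (hF.ddz (bvec k)) (B1_smooth S k)
      have c1 := b1 δ hδ hδ1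
      have c2 := b2 δ hδ hδ1
      have c3 := b3 δ hδ hδ1
      show intOp (fun x z => _ + (_ + _)) (f : R4 → R2) x = _
      rw [intOp_add c1 (c2.add c3) hfc hb, intOp_add c2 c3 hfc hb, intOp_tm a1 hfc hb,
        intOp_tm a2 hfc hb, intOp_tm a3 hfc hb, hu1 x (bvec k), sc_byParts hF hδ hδ1 f x (bvec k)]
      simp only [map_add]
    · exact intOp_tm hR hfc hb x
  -- the principal part
  obtain ⟨L, hL⟩ := exists_orthoFrame (S.g x) (S.g_symm x) (S.g_pos x)
  set P : Fin 4 → R4 := fun m => L (bvec m) with hP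
  set Lap : R4 → R2 := fun z =>
    ∑ m, fderiv ℝ (fderiv ℝ (f : R4 → R2)) (x - z) (P m) (P m) with hLap
  have eT : ∑ k, ∑ l, B2 S k l x
        (intOp (sc (th δ) (F0 S)) (dT (dT f (bvec l)) (bvec k) : R4 → R2) x) =
      (S.c0 * wfun S x) • ∫ z, (th δ z * newtonKer (S.g x) 0 z) • Lap z := by
    have hbd : ∀ g : Test R2, ∃ b, ∀ y, ‖(g : R4 → R2) y‖ ≤ b := fun g => by
      obtain ⟨B', hB'⟩ := Test.exists_bound g
      exact ⟨B' 0, fun y => by simpa using hB' 0 y⟩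
    have e1 : ∀ k l, B2 S k l x
        (intOp (sc (th δ) (F0 S)) (dT (dT f (bvec l)) (bvec k) : R4 → R2) x) =
      ∫ z, (th δ z * F0 S (x, z)) •
        B2 S k l x (fderiv ℝ (fderiv ℝ (f : R4 → R2)) (x - z) (bvec k) (bvec l)) := by
      intro k l
      obtain ⟨b, hb'⟩ := hbd (dT (dT f (bvec l)) (bvec k))
      rw [intOp, ← (B2 S k l x).integral_comp_comm
        (hR.integrable (Test.smooth _).continuous hb' x)]
      refine integral_congr_ae (.of_forall fun z => ?_)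
      simp [sc, tm, dT_dT, smul_smul]
    have i1 : ∀ k l, Integrable fun z => (th δ z * F0 S (x, z)) •
        B2 S k l x (fderiv ℝ (fderiv ℝ (f : R4 → R2)) (x - z) (bvec k) (bvec l)) := by
      intro k l
      obtain ⟨b, hb'⟩ := hbd (dT (dT f (bvec l)) (bvec k))
      refine ((B2 S k l x).integrable_comp (hR.integrable (Test.smooth _).continuous hb' x)).congr
        (.of_forall fun z => ?_)
      simp [sc, tm, dT_dT, smul_smul]
    simp only [e1]
    rw [Finset.sum_congr rfl fun k _ => (integral_finsetSum _ fun l _ => i1 k l).symm,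
      ← integral_finsetSum _ fun k _ => integrable_finsetSum _ fun l _ => i1 k l, ← integral_smul]
    refine integral_congr_ae (.of_forall fun z => ?_)
    simp only [← Finset.smul_sum]
    rw [← P2_expand, S.principal x hx P (frame_orth hL) _ fun a b =>
      hf.contDiffAt.isSymmSndFDerivAt (by simpa using WithTop.coe_le_coe.2 (le_top : (2 : ℕ∞) ≤ ⊤)) a b, F0_slice S hx,
      smul_smul, smul_smul]
    congr 1
    ring
  have hN := newton (W := R2) (S.g_symm x) (S.g_pos x) hL (th_smooth δ) hδ1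
    (fun z hz => (th_outer hδ hz).eq_of_nhds)
    (fun z hz => by rw [(th_outer hδ hz).fderiv_eq]; simp)
    (fun z hz v => by
      show fderiv ℝ (th1 δ v) z v = 0
      rw [(th1_outer hδ v hz).fderiv_eq]; simp) hf hB x
  have eS : intOp (kS S δ) (f : R4 → R2) x =
      (S.c0 * wfun S x) • ∫ z, newtonRest (S.g x) 0 (th δ) P z • (f : R4 → R2) (x - z) := by
    rw [← integral_smul]
    refine integral_congr_ae ?_
    filter_upwards [ae_ne_zero] with z hz
    rw [kS_apply S hx hL δ hz, smul_smul]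
  show S.P2 x (fderiv ℝ (fderiv ℝ (intOp (kR S δ) (f : R4 → R2))) x) +
    S.P1 x (fderiv ℝ (intOp (kR S δ) (f : R4 → R2)) x) +
    S.P0 x (intOp (kR S δ) (f : R4 → R2) x) = _
  rw [P2_expand, P1_expand, eK, eS]
  simp only [hu2, ← add_assoc, map_add, Finset.sum_add_distrib]
  rw [eT, hN, smul_add, smul_smul, th_zero, one_mul, wfun_mass, one_smul]
  abel

/-- The local parametrix. -/
theorem parametrixStatement : ParametrixStatement := by
  intro S
  obtain ⟨CR, hR⟩ := unif_kR S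
  obtain ⟨CK, hK⟩ := unif_kK S
  refine ⟨CR, CK, fun δ hδ hδ1 => ?_⟩
  obtain ⟨⟨CS, hS⟩, h2, h3⟩ := kS_props S hδ hδ1
  exact ⟨kR S δ, kK S δ, kS S δ, CS, hR δ hδ hδ1, hK δ hδ hδ1, hS, h2, h3,
    fun f x hx => parametrix_identity S hδ hδ1 f hx⟩

end Vale.Agent.P204.Full.Elliptic
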