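import Vale.Agent.P204.Full.Elliptic.Cutoff
import Vale.Agent.P204.Full.Elliptic.Bd

/-!
P204 elliptic module: bounds of derivatives of a field built in one chart and read in another.
-/

open scoped Manifold ContDiff Topology
open MeasureTheory Set Filter

noncomputable section

namespace Vale.Agent.P204.Full.Elliptic

universe u

theorem exists_cut {K O : Set R4} (hK : IsCompact K) (hO : IsOpen O) (hKO : K ⊆ O) :
    ∃ χ : R4 → ℝ, ContDiff ℝ ∞ χ ∧ HasCompactSupport χ ∧ tsupport χ ⊆ O ∧ ∀ x ∈ K, χ x = 1 := by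
  obtain ⟨δ, hδ, hsub⟩ := hK.exists_cthickening_subset_open hO hKO
  obtain ⟨χ, hχ, -, hsupp, hone⟩ := exists_contMDiff_support_eq_eq_one_iff (n := ⊤) 𝓘(ℝ, R4)
    (s := Metric.thickening δ K) (t := K) Metric.isOpen_thickening hK.isClosed
    (Metric.self_subset_thickening hδ K)
  have hts : tsupport χ ⊆ Metric.cthickening δ K := by
    rw [tsupport, hsupp]
    exact Metric.closure_thickening_subset_cthickening δ K
  exact ⟨χ, contMDiff_iff_contDiff.1 hχ,
    (hK.cthickening (r := δ)).of_isClosed_subset (isClosed_tsupport χ) hts, hts.trans hsub,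
    fun x hx => (hone x).1 hx⟩

/-- The pull-back of forms as a linear map. -/
def pullBilL (A : Endo) : Bil →L[ℝ] Bil :=
  LinearMap.toContinuousLinearMap
    { toFun := pullBil A
      map_add' := pullBil_add A
      map_smul' := fun r b => pullBil_smul A r b }

variable {X : Type u} [TopologicalSpace X] [T2Space X] [ChartedSpace R4 X]
  [IsManifold 𝓘(ℝ, R4) ∞ X]

open Base

lemma cdOn_pullBilL {A : R4 → Endo} {s : Set R4} (hA : ContDiffOn ℝ ∞ A s) :
    ContDiffOn ℝ ∞ (fun y => pullBilL (A y)) s := by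
  rw [contDiffOn_clm_apply]
  intro b
  exact Base.cdOn_pullBil hA contDiffOn_const

lemma cut_map_bound {φ : R4 → R4} (hφ : ContDiff ℝ ∞ φ) (hc : HasCompactSupport φ) :
    ∀ m, ∃ D, ∀ x, 1 ≤ m → ‖iteratedFDeriv ℝ m φ x‖ ≤ D := fun m => by
  obtain ⟨D, hD⟩ := (hc.iteratedFDeriv m).exists_bound_of_continuous
    (hφ.continuous_iteratedFDeriv (by exact_mod_cast le_top))
  exact ⟨D, fun x _ => hD x⟩

lemma mix_coeff {V W : Type} [NormedAddCommGroup V] [NormedSpace ℝ V] [NormedAddCommGroup W]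
    [NormedSpace ℝ W] {c e : OpenPartialHomeomorph X R4} (hc : Atl c) (he : Atl e)
    {N : R4 → Bil →L[ℝ] W} (hN : ContDiff ℝ ∞ N) {M : R4 → V →L[ℝ] Bil} (hM : ContDiff ℝ ∞ M)
    {ζ : R4 → ℝ} (hζ : ContDiff ℝ ∞ ζ) (hζs : tsupport ζ ⊆ tdom c e) :
    ContDiff ℝ ∞ fun y =>
      ζ y • (N y).comp ((pullBilL (dtrans c e y)).comp (M (trans c e y))) := by
  have h1 : ContDiffOn ℝ ∞ (fun y => M (trans c e y)) (tdom c e) :=
    hM.comp_contDiffOn (contDiffOn_trans hc he)
  have h2 : ContDiffOn ℝ ∞ (fun y => pullBilL (dtrans c e y)) (tdom c e) :=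
    cdOn_pullBilL (contDiffOn_dtrans hc he)
  have h3 : ContDiffOn ℝ ∞ (fun y => (pullBilL (dtrans c e y)).comp (M (trans c e y))) (tdom c e) :=
    ContDiffOn.clm_comp (𝕜 := ℝ) (F := Bil) h2 h1
  exact cut_smooth (F := V →L[ℝ] W) hζ hζs (isOpen_tdom c e)
    (ContDiffOn.clm_comp (𝕜 := ℝ) (F := Bil) hN.contDiffOn h3)

/-- A field built from bounded data in one chart has bounded reading in another. -/
theorem mix_bound {V W : Type} [NormedAddCommGroup V] [NormedSpace ℝ V] [NormedAddCommGroup W]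
    [NormedSpace ℝ W] {c e : OpenPartialHomeomorph X R4}
    (hc : Atl c) (he : Atl e) {N : R4 → Bil →L[ℝ] W} (hN : ContDiff ℝ ∞ N)
    (hNc : HasCompactSupport N) (hNs : tsupport N ⊆ c.target) {M : R4 → V →L[ℝ] Bil}
    (hM : ContDiff ℝ ∞ M) (hMc : HasCompactSupport M) (hMs : tsupport M ⊆ e.target) (j : ℕ) :
    ∃ C, 0 ≤ C ∧ ∀ (g : R4 → V) (b : ℝ), ContDiff ℝ ∞ g → Bd j b g →
      Bd j (C * b) (fun y => N y (view2 c (push2 e fun z => M z (g z)) y)) := by
  set B : Set X := e.symm '' tsupport M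
  have hB : IsClosed B :=
    (hMc.isCompact.image_of_continuousOn (e.continuousOn_symm.mono hMs)).isClosed
  have hBsub : ∀ x ∈ B, x ∈ e.source := fun x hx => by
    obtain ⟨z, hz, rfl⟩ := hx
    exact e.map_target (hMs hz)
  set K : Set R4 := tsupport N ∩ c.symm ⁻¹' B with hK
  have hKc : IsCompact K := hNc.isCompact.of_isClosed_subset
    ((c.continuousOn_symm.mono hNs).preimage_isClosed_of_isClosed (isClosed_tsupport N) hB)
    inter_subset_left
  have hKO : K ⊆ tdom c e := fun y hy => ⟨hNs hy.1, hBsub _ hy.2⟩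
  obtain ⟨ζ, hζ, hζc, hζs, hζ1⟩ := exists_cut hKc (isOpen_tdom c e) hKO
  set φ : R4 → R4 := fun y => ζ y • trans c e y
  have hφ : ContDiff ℝ ∞ φ :=
    cut_smooth hζ hζs (isOpen_tdom c e) (contDiffOn_trans hc he)
  have hφb := cut_map_bound hφ (cut_compact (F := R4) hζc (trans c e))
  set m : R4 → V →L[ℝ] W := fun y =>
    ζ y • (N y).comp ((pullBilL (dtrans c e y)).comp (M (trans c e y))) with hm
  have hms : ContDiff ℝ ∞ m := mix_coeff hc he hN hM hζ hζs
  have hmc : HasCompactSupport m := cut_compact (F := V →L[ℝ] W) hζc _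
  obtain ⟨C, hC, hbd⟩ := bd_apply_comp hms hmc hφ hφb j
  refine ⟨C, hC, fun g b hg hb => ?_⟩
  have e2 : (fun y => N y (view2 c (push2 e fun z => M z (g z)) y)) = fun y => m y (g (φ y)) := by
    funext y
    by_cases hy : y ∈ K
    · obtain ⟨hyc, hye⟩ := hKO hy
      simp only [hm, φ, hζ1 y hy, one_smul, view2, Base.push2_pos _ hye]
      rw [← Base.pullBil_comp, dchart_comp_dsymm' he hc ⟨hyc, hye⟩]
      rfl
    · have hl : N y (view2 c (push2 e fun z => M z (g z)) y) = 0 := by
        by_cases hN' : y ∈ tsupport N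
        · by_cases hs : c.symm y ∈ e.source
          · have h0 : M (e (c.symm y)) = 0 := image_eq_zero_of_notMem_tsupport fun h =>
              hy ⟨hN', e (c.symm y), h, e.left_inv hs⟩
            simp [view2, Base.push2_pos _ hs, h0, Base.pullBil_zero]
          · simp [view2, push2, hs, Base.pullBil_zero]
        · simp [image_eq_zero_of_notMem_tsupport hN']
      rw [hl]
      symm
      by_cases hζy : y ∈ tsupport ζ
      · obtain ⟨hyc, hye⟩ := hζs hζy
        by_cases hN' : y ∈ tsupport N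
        · have h0 : M (trans c e y) = 0 := image_eq_zero_of_notMem_tsupport fun h =>
            hy ⟨hN', trans c e y, h, e.left_inv hye⟩
          simp [hm, h0]
        · simp [hm, image_eq_zero_of_notMem_tsupport hN']
      · simp [hm, image_eq_zero_of_notMem_tsupport hζy]
  rw [e2]
  exact hbd g b hg hb

end Vale.Agent.P204.Full.Elliptic
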