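import Vale.Agent.P204.Full.Elliptic.Bd

/-!
P204 elliptic module, part 5: a smooth compactly supported kernel maps `L²` into every `C^j`.
-/

open scoped ContDiff RealInnerProductSpace
open MeasureTheory Set Filter

noncomputable section

namespace Vale.Agent.P204.Full.Elliptic

section Sop

variable {V W : Type} [NormedAddCommGroup V] [NormedSpace ℝ V] [NormedAddCommGroup W]
  [NormedSpace ℝ W]

/-- A kernel in the variables `(x, y)`. -/
def sop (σ : R4 → R4 → V →L[ℝ] W) (f : R4 → V) (x : R4) : W := ∫ y, σ x y (f y)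

lemma derivKer_smooth {σ : R4 → R4 → V →L[ℝ] W} (h : ContDiff ℝ ∞ fun p : R4 × R4 => σ p.1 p.2)
    (hc : HasCompactSupport fun p : R4 × R4 => σ p.1 p.2) :
    (ContDiff ℝ ∞ fun p : R4 × R4 => derivKer σ p.1 p.2) ∧
      HasCompactSupport fun p : R4 × R4 => derivKer σ p.1 p.2 := by
  have e : (fun p : R4 × R4 => fderiv ℝ (fun y => σ y p.2) p.1) = fun p =>
      ((ContinuousLinearMap.compL ℝ R4 (R4 × R4) (V →L[ℝ] W)).flip
        (ContinuousLinearMap.inl ℝ R4 R4)) (fderiv ℝ (fun q : R4 × R4 => σ q.1 q.2) p) :=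
    funext fun p => by
      have h2 := (h.differentiable (by simp) p).hasFDerivAt.comp p.1
        (hasFDerivAt_prodMk_left (𝕜 := ℝ) p.1 p.2)
      exact h2.fderiv
  constructor
  · have h1 : ContDiff ℝ ∞ fun p : R4 × R4 => fderiv ℝ (fun y => σ y p.2) p.1 := by
      rw [e]
      exact (ContinuousLinearMap.contDiff (F := R4 →L[ℝ] V →L[ℝ] W) _).comp
        (h.fderiv_right (m := ∞) le_rfl)
    exact (LinearIsometryEquiv.contDiff (F := V →L[ℝ] R4 →L[ℝ] W)
      (ContinuousLinearMap.flipₗᵢ ℝ R4 V W)).comp h1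
  · refine HasCompactSupport.of_support_subset_isCompact hc fun p hp => ?_
    by_contra hn
    refine hp ?_
    have h0 : fderiv ℝ (fun y => σ y p.2) p.1 = 0 := by
      rw [congrFun e p, fderiv_of_notMem_tsupport ℝ hn, map_zero]
    simp [derivKer, h0]

lemma derivKer_bound {σ : R4 → R4 → V →L[ℝ] W} (h : ContDiff ℝ ∞ fun p : R4 × R4 => σ p.1 p.2)
    (hc : HasCompactSupport fun p : R4 × R4 => σ p.1 p.2) :
    ∃ M, 0 ≤ M ∧ ∀ x y v, ‖derivKer σ x y v‖ ≤ M * ‖v‖ := by
  have hn : Continuous fun p : R4 × R4 => ‖derivKer σ p.1 p.2‖ :=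
    (continuous_norm (E := V →L[ℝ] R4 →L[ℝ] W)).comp (derivKer_smooth h hc).1.continuous
  obtain ⟨M, hM⟩ := hc.isCompact.exists_bound_of_continuousOn (f := fun p : R4 × R4 =>
    ‖derivKer σ p.1 p.2‖) hn.continuousOn
  refine ⟨|M|, abs_nonneg M, fun x y v => ((derivKer σ x y).le_opNorm v).trans
    (mul_le_mul_of_nonneg_right ?_ (norm_nonneg v))⟩
  by_cases hp : (x, y) ∈ tsupport fun p : R4 × R4 => σ p.1 p.2
  · exact ((le_abs_self _).trans (hM (x, y) hp)).trans (le_abs_self M)
  · have hd : fderiv ℝ (fun z => σ z y) x = 0 := by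
      have h2 := (h.differentiable (by simp) (x, y)).hasFDerivAt.comp x
        (hasFDerivAt_prodMk_left (𝕜 := ℝ) x y)
      refine h2.fderiv.trans ?_
      rw [fderiv_of_notMem_tsupport ℝ hp, ContinuousLinearMap.zero_comp]
    simp [derivKer, hd]

lemma derivKer_cont {σ : R4 → R4 → V →L[ℝ] W} (h : ContDiff ℝ ∞ fun p : R4 × R4 => σ p.1 p.2)
    (hc : HasCompactSupport fun p : R4 × R4 => σ p.1 p.2) {f : R4 → V} (hf : Continuous f) (x : R4) :
    Continuous fun y => derivKer σ x y (f y) :=
  ((derivKer_smooth h hc).1.continuous.comp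
    (Continuous.prodMk continuous_const continuous_id)).clm_apply hf

lemma derivKer_hasFDerivAt {σ : R4 → R4 → V →L[ℝ] W}
    (h : ContDiff ℝ ∞ fun p : R4 × R4 => σ p.1 p.2) (v : V) (x y : R4) :
    HasFDerivAt (fun z => σ z y v) (derivKer σ x y v) x := by
  have hd : ContDiff ℝ ∞ fun z => σ z y := h.comp (contDiff_id.prodMk contDiff_const)
  refine ((hd.differentiable (by simp) x).hasFDerivAt.clm_apply
    (hasFDerivAt_const v x)).congr_fderiv ?_
  ext k
  simp [derivKer, ContinuousLinearMap.flipₗᵢ]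

lemma integral_norm_le_sq {U : Type} [NormedAddCommGroup U] [InnerProductSpace ℝ U] (f : Test U)
    {K : Set R4} (hK : IsCompact K) :
    ∫ y in K, ‖(f : R4 → U) y‖ ≤ (volume.real K + 1) * ‖toL2 U f‖ := by
  set F := ‖toL2 U f‖
  have hF : 0 ≤ F := norm_nonneg _
  have hv : 0 ≤ volume.real K := measureReal_nonneg
  have key : ∀ t, 0 < t → ∫ y in K, ‖(f : R4 → U) y‖ ≤ (t * volume.real K + F ^ 2 / t) / 2 := by
    intro t ht
    have i1 : IntegrableOn (fun y => ‖(f : R4 → U) y‖) K :=
      (Test.smooth f).continuous.norm.continuousOn.integrableOn_compact hK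
    have c2 : Continuous fun y => ‖(f : R4 → U) y‖ ^ 2 := (Test.smooth f).continuous.norm.pow 2
    have i2 : Integrable fun y => ‖(f : R4 → U) y‖ ^ 2 :=
      c2.integrable_of_hasCompactSupport ((Test.compact f).mono fun y hy h0 => hy (by simp [h0]))
    have i3 : IntegrableOn (fun _ : R4 => t) K :=
      integrableOn_const hK.measure_lt_top.ne
    calc ∫ y in K, ‖(f : R4 → U) y‖
        ≤ ∫ y in K, (t + ‖(f : R4 → U) y‖ ^ 2 / t) / 2 := by
          refine integral_mono i1 ((i3.add (i2.integrableOn.div_const t)).div_const 2) fun y => ?_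
          have : 0 ≤ (t - ‖(f : R4 → U) y‖) ^ 2 / t := by positivity
          field_simp at this ⊢
          nlinarith
      _ = (t * volume.real K + (∫ y in K, ‖(f : R4 → U) y‖ ^ 2) / t) / 2 := by
          rw [integral_div, integral_add i3 (i2.integrableOn.div_const t), integral_div,
            setIntegral_const, smul_eq_mul, mul_comm]
      _ ≤ _ := by
          gcongr
          rw [norm_toL2_sq]
          exact setIntegral_le_integral i2 (.of_forall fun y => sq_nonneg _)
  rcases hF.eq_or_lt with h0 | hpos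
  · refine le_of_forall_pos_le_add fun e he => ?_
    have h := key (e / (volume.real K + 1)) (by positivity)
    rw [← h0] at h ⊢
    have h2 : e / (volume.real K + 1) * volume.real K ≤ e := by
      rw [div_mul_eq_mul_div, div_le_iff₀ (by positivity)]
      nlinarith
    simp at h ⊢
    linarith
  · have h := key F hpos
    have h2 : F ^ 2 / F = F := by field_simp
    rw [h2] at h
    nlinarith [h]

lemma fderiv_sop {U : Type} [NormedAddCommGroup U] [InnerProductSpace ℝ U]
    {σ : R4 → R4 → U →L[ℝ] W} (hs : ContDiff ℝ ∞ fun p : R4 × R4 => σ p.1 p.2)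
    (hc : HasCompactSupport fun p : R4 × R4 => σ p.1 p.2) (f : Test U) :
    fderiv ℝ (sop σ (f : R4 → U)) = sop (derivKer σ) (f : R4 → U) := by
  obtain ⟨M, -, hM⟩ := derivKer_bound hs hc
  funext x₀
  have hcont : ∀ x, Continuous fun y => σ x y ((f : R4 → U) y) := fun x =>
    (hs.continuous.comp (Continuous.prodMk continuous_const continuous_id)).clm_apply
      (Test.smooth f).continuous
  have hcont' : Continuous fun y => derivKer σ x₀ y ((f : R4 → U) y) :=
    derivKer_cont hs hc (Test.smooth f).continuous x₀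
  have hint : Integrable fun y => σ x₀ y ((f : R4 → U) y) :=
    (hcont x₀).integrable_of_hasCompactSupport
      ((Test.compact f).mono fun y hy h0 => hy (by simp [h0]))
  have hbd : Integrable fun y => M * ‖(f : R4 → U) y‖ :=
    ((Test.smooth f).continuous.norm.integrable_of_hasCompactSupport
      (Test.compact f).norm).const_mul _
  have hle : ∀ x y, ‖derivKer σ x y ((f : R4 → U) y)‖ ≤ M * ‖(f : R4 → U) y‖ :=
    fun x y => hM x y _
  have hdiff : ∀ x y, HasFDerivAt (fun z => σ z y ((f : R4 → U) y))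
      (derivKer σ x y ((f : R4 → U) y)) x := fun x y => derivKer_hasFDerivAt hs _ x y
  have h := hasFDerivAt_integral_of_dominated_of_fderiv_le
    (F := fun x y => σ x y ((f : R4 → U) y)) (F' := fun x y => derivKer σ x y ((f : R4 → U) y))
    (bound := fun y => M * ‖(f : R4 → U) y‖) (s := univ) (x₀ := x₀) Filter.univ_mem
    (Filter.Eventually.of_forall fun x => (hcont x).aestronglyMeasurable) hint
    hcont'.aestronglyMeasurable (Filter.Eventually.of_forall fun y x _ => hle x y) hbd
    (Filter.Eventually.of_forall fun y x _ => hdiff x y)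
  exact h.fderiv

end Sop

lemma sop_bound_zero {V W : Type} [NormedAddCommGroup V] [InnerProductSpace ℝ V]
    [NormedAddCommGroup W] [NormedSpace ℝ W] {σ : R4 → R4 → V →L[ℝ] W}
    (hs : ContDiff ℝ ∞ fun p : R4 × R4 => σ p.1 p.2)
    (hc : HasCompactSupport fun p : R4 × R4 => σ p.1 p.2) :
    ∃ C, 0 ≤ C ∧ ∀ (f : Test V) (x : R4),
      ‖iteratedFDeriv ℝ 0 (sop σ (f : R4 → V)) x‖ ≤ C * ‖toL2 V f‖ := by
  obtain ⟨M, hM⟩ := hc.isCompact.exists_bound_of_continuousOn (f := fun p : R4 × R4 =>
    ‖σ p.1 p.2‖) ((continuous_norm (E := V →L[ℝ] W)).comp hs.continuous).continuousOn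
  have hM' : ∀ x y, ‖σ x y‖ ≤ |M| := fun x y => by
    by_cases hp : (x, y) ∈ tsupport fun p : R4 × R4 => σ p.1 p.2
    · exact ((le_abs_self _).trans (hM (x, y) hp)).trans (le_abs_self M)
    · rw [show σ x y = 0 from image_eq_zero_of_notMem_tsupport
        (f := fun p : R4 × R4 => σ p.1 p.2) hp, norm_zero]
      exact abs_nonneg M
  set K := Prod.snd '' tsupport fun p : R4 × R4 => σ p.1 p.2
  have hK : IsCompact K := hc.isCompact.image continuous_snd
  refine ⟨|M| * (volume.real K + 1), mul_nonneg (abs_nonneg M)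
    (add_nonneg measureReal_nonneg zero_le_one), fun f x => ?_⟩
  rw [norm_iteratedFDeriv_zero]
  have i1 : IntegrableOn (fun y => ‖(f : R4 → V) y‖) K :=
    (Test.smooth f).continuous.norm.continuousOn.integrableOn_compact hK
  have hz : ∀ y, y ∉ K → σ x y ((f : R4 → V) y) = 0 := fun y hy => by
    have : σ x y = 0 :=
      image_eq_zero_of_notMem_tsupport (f := fun p : R4 × R4 => σ p.1 p.2) (x := (x, y))
        fun hm => hy ⟨(x, y), hm, rfl⟩
    simp [this]
  calc ‖sop σ (f : R4 → V) x‖ = ‖∫ y in K, σ x y ((f : R4 → V) y)‖ := by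
        rw [sop, setIntegral_eq_integral_of_forall_compl_eq_zero hz]
    _ ≤ ∫ y in K, |M| * ‖(f : R4 → V) y‖ := by
        refine norm_integral_le_of_norm_le (i1.const_mul _) (.of_forall fun y => ?_)
        exact ((σ x y).le_opNorm _).trans
          (mul_le_mul_of_nonneg_right (hM' x y) (norm_nonneg _))
    _ ≤ _ := by
        rw [integral_const_mul, mul_assoc]
        exact mul_le_mul_of_nonneg_left (integral_norm_le_sq f hK) (abs_nonneg M)

lemma sop_bound (m : ℕ) : ∀ {V W : Type} [NormedAddCommGroup V] [InnerProductSpace ℝ V]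
    [NormedAddCommGroup W] [NormedSpace ℝ W] {σ : R4 → R4 → V →L[ℝ] W},
    (ContDiff ℝ ∞ fun p : R4 × R4 => σ p.1 p.2) →
    (HasCompactSupport fun p : R4 × R4 => σ p.1 p.2) →
      ∃ C, 0 ≤ C ∧ ∀ (f : Test V) (x : R4),
        ‖iteratedFDeriv ℝ m (sop σ (f : R4 → V)) x‖ ≤ C * ‖toL2 V f‖ := by
  induction m with
  | zero =>
    intro V W _ _ _ _ σ hs hc
    exact sop_bound_zero hs hc
  | succ m ih =>
    intro V W _ _ _ _ σ hs hc
    obtain ⟨hs', hc'⟩ := derivKer_smooth hs hc
    obtain ⟨C, hC0, hC⟩ := ih hs' hc'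
    refine ⟨C, hC0, fun f x => ?_⟩
    rw [← norm_iteratedFDeriv_fderiv, fderiv_sop hs hc f]
    exact hC f x

section IntOp

variable {V W : Type} [NormedAddCommGroup V] [InnerProductSpace ℝ V] [NormedAddCommGroup W]
  [InnerProductSpace ℝ W]

lemma intOp_eq_sop (k : R4 → R4 → V →L[ℝ] W) (f : R4 → V) :
    intOp k f = sop (fun x y => k x (x - y)) f := funext fun x => by
  rw [intOp, sop, ← integral_sub_left_eq_self _ volume x]
  simp only [sub_sub_cancel]

/-- A smooth compactly supported kernel in `(x, z)` maps `L²` into `C^j`. -/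
theorem intOp_smoothing {k : R4 → R4 → V →L[ℝ] W}
    (hs : ContDiff ℝ ∞ fun p : R4 × R4 => k p.1 p.2)
    (hc : HasCompactSupport fun p : R4 × R4 => k p.1 p.2) (j : ℕ) :
    ∃ C, 0 ≤ C ∧ ∀ f : Test V, Bd j (C * ‖toL2 V f‖) (intOp k (f : R4 → V)) := by
  have hs' : ContDiff ℝ ∞ fun p : R4 × R4 => k p.1 (p.1 - p.2) :=
    hs.comp (contDiff_fst.prodMk (contDiff_fst.sub contDiff_snd))
  have hc' : HasCompactSupport fun p : R4 × R4 => k p.1 (p.1 - p.2) := by
    refine HasCompactSupport.of_support_subset_isCompact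
      (hc.isCompact.image (continuous_fst.prodMk (continuous_fst.sub continuous_snd))) fun p hp => ?_
    exact ⟨(p.1, p.1 - p.2), subset_tsupport _ hp, by simp⟩
  choose C hC0 hC using fun m => sop_bound m (σ := fun x y => k x (x - y)) hs' hc'
  refine ⟨∑ m ∈ Finset.range (j + 1), C m, Finset.sum_nonneg fun m _ => hC0 m,
    fun f m hm x => ?_⟩
  rw [intOp_eq_sop]
  exact (hC m f x).trans (mul_le_mul_of_nonneg_right
    (Finset.single_le_sum (fun m _ => hC0 m) (Finset.mem_range.2 (by omega))) (norm_nonneg _))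

end IntOp

end Vale.Agent.P204.Full.Elliptic
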