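import Vale.Agent.P204.Full.Elliptic.Model
import Vale.Agent.P204.Full.Elliptic.Mix
import Vale.Agent.P204.Full.Elliptic.Smoothing
import Vale.Agent.P204.Full.Elliptic.Local

/-!
P204 elliptic module: bounds of the operators between lifts, and kernels acting on all coefficients at once.
-/

open scoped Manifold ContDiff Topology RealInnerProductSpace
open MeasureTheory Set Filter

noncomputable section

namespace Vale.Agent.P204.Full.Elliptic

universe u

section Generic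

variable {V W V' W' : Type} [NormedAddCommGroup V] [NormedSpace ℝ V] [NormedAddCommGroup W]
  [NormedSpace ℝ W] [NormedAddCommGroup V'] [NormedSpace ℝ V'] [NormedAddCommGroup W']
  [NormedSpace ℝ W']

lemma bd_sum {ι : Type} (s : Finset ι) {j : ℕ} {f : ι → R4 → V} {b : ι → ℝ}
    (hs : ∀ i ∈ s, ContDiff ℝ ∞ (f i)) (hb : ∀ i ∈ s, Bd j (b i) (f i)) :
    Bd j (∑ i ∈ s, b i) (∑ i ∈ s, f i) := by
  classical
  induction s using Finset.induction_on with
  | empty =>
    rw [Finset.sum_empty, Finset.sum_empty]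
    exact bd_zero le_rfl
  | insert a t ha ih =>
    rw [Finset.sum_insert ha, Finset.sum_insert ha]
    refine (hb a (Finset.mem_insert_self _ _)).add (ih (fun i hi => hs i (Finset.mem_insert_of_mem hi))
      fun i hi => hb i (Finset.mem_insert_of_mem hi)) (hs a (Finset.mem_insert_self _ _)) ?_
    rw [Finset.sum_fn]
    exact ContDiff.sum fun i hi => hs i (Finset.mem_insert_of_mem hi)

lemma IsKernel.map {r : ℝ} {C : ℕ → ℝ} {k : R4 → R4 → V →L[ℝ] W} (h : IsKernel r C k)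
    (T : (V →L[ℝ] W) →L[ℝ] (V' →L[ℝ] W')) :
    IsKernel r (fun m => ‖T‖ * C m) fun x z => T (k x z) where
  smooth := T.contDiff.comp_contDiffOn h.smooth
  nonneg m := mul_nonneg (norm_nonneg T) (h.nonneg m)
  bound m x z hz := by
    refine (T.norm_iteratedFDeriv_comp_left ((h.contDiff_slice hz).contDiffAt (x := x)) (n := m)
      (by exact_mod_cast le_top)).trans ?_
    rw [mul_assoc]
    exact mul_le_mul_of_nonneg_left (h.bound m x z hz) (norm_nonneg T)

lemma intOp_supp {r : ℝ} {C : ℕ → ℝ} {k : R4 → R4 → V →L[ℝ] W} (h : IsKernel r C k) {f : R4 → V}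
    {p : R4} {a : ℝ} (hf : ∀ y, a < ‖y - p‖ → f y = 0) {x : R4} (hx : a + r ≤ ‖x - p‖) :
    intOp k f x = 0 := by
  refine integral_eq_zero_of_ae ?_
  filter_upwards [ae_ne_zero] with z hz
  by_cases hzr : r ≤ ‖z‖
  · have h1 := h.norm_le hz x
    rw [wt_eq_zero hzr, mul_zero, norm_le_zero_iff] at h1
    simp [h1]
  · have h2 : a < ‖x - z - p‖ := by
      have h3 := norm_le_norm_add_norm_sub' (x - p) (x - z - p)
      rw [show x - p - (x - z - p) = z by abel] at h3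
      linarith [not_le.1 hzr]
    simp [hf _ h2]

end Generic

section Inner

variable {V : Type} [NormedAddCommGroup V] [InnerProductSpace ℝ V]

lemma IsKernel.op_bd {r : ℝ} {C : ℕ → ℝ} {k : R4 → R4 → V →L[ℝ] V} (h : IsKernel r C k)
    (hr : 0 ≤ r) {j : ℕ} {D : ℝ} (hD : ∀ m ≤ j, ∀ B : ℕ → ℝ, ∀ b : ℝ,
      (∀ i ≤ m, 0 ≤ B i ∧ B i ≤ b) → opBound m C B ≤ D * b)
    (g : Test V) {b : ℝ} (hb : Bd j b (g : R4 → V)) : Bd j (r * (D * b)) (h.op hr g : R4 → V) := by
  obtain ⟨B0, hB0⟩ := Test.exists_bound g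
  intro m hm x
  refine ((intOp_smooth_bound m h hr (Test.smooth g) (B := fun i => if i ≤ j then b else B0 i)
    fun i y => ?_).2 x).trans ?_
  · split_ifs with hi
    · exact hb i hi y
    · exact hB0 i y
  · refine mul_le_mul_of_nonneg_left (hD m hm _ b fun i hi => ?_) hr
    rw [if_pos (hi.trans hm)]
    exact ⟨hb.nonneg, le_rfl⟩

lemma opBound_le_upto (j : ℕ) {C : ℕ → ℝ} (hC : ∀ i, 0 ≤ C i) :
    ∃ D, 0 ≤ D ∧ ∀ m ≤ j, ∀ B : ℕ → ℝ, ∀ b : ℝ,
      (∀ i ≤ m, 0 ≤ B i ∧ B i ≤ b) → opBound m C B ≤ D * b := by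
  choose D hD0 hD using fun m => opBound_le m C hC
  refine ⟨∑ m ∈ Finset.range (j + 1), D m, Finset.sum_nonneg fun m _ => hD0 m,
    fun m hm B b hB => (hD m B b hB).trans ?_⟩
  exact mul_le_mul_of_nonneg_right (Finset.single_le_sum (fun m _ => hD0 m)
    (Finset.mem_range.2 (by omega))) ((hB 0 (Nat.zero_le m)).1.trans (hB 0 (Nat.zero_le m)).2)

end Inner

variable {X : Type u} [TopologicalSpace X] [T2Space X] [CompactSpace X] [ChartedSpace R4 X]
  [IsManifold 𝓘(ℝ, R4) ∞ X] {G : Geo X} (C : Cfg G)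

/-- Multiplication of each pair of coefficients by its weight. -/
def Cfg.wmap (w : C.ι → R4 → ℝ) (y : R4) : C.V →L[ℝ] C.V :=
  ∑ k, w k y • (C.inj k).comp (C.prj k)

lemma Cfg.wmap_apply (w : C.ι → R4 → ℝ) (y : R4) (x : C.V) :
    C.wmap w y x = ∑ k, C.inj k (w k y • C.prj k x) := by
  simp [Cfg.wmap, map_smul]

lemma Cfg.wmap_smooth {w : C.ι → R4 → ℝ} (hw : C.Wt w) :
    ContDiff ℝ ∞ (C.wmap w) ∧ HasCompactSupport (C.wmap w) := by
  refine ⟨ContDiff.sum fun k _ => (hw.smooth k).smul contDiff_const, ?_⟩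
  refine HasCompactSupport.of_support_subset_isCompact (K := ⋃ k, tsupport (w k))
    (isCompact_iUnion fun k => hw.compact C k) fun y hy => ?_
  by_contra hn
  refine hy (Finset.sum_eq_zero fun k _ => ?_)
  have hk : w k y = 0 := image_eq_zero_of_notMem_tsupport fun h => hn (mem_iUnion.2 ⟨k, h⟩)
  exact ContinuousLinearMap.ext fun a => by simp [hk]

/-- Multiplication by weights on tests. -/
def Cfg.wmul {w : C.ι → R4 → ℝ} (hw : C.Wt w) : Test C.V →ₗ[ℝ] Test C.V where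
  toFun g := ⟨fun y => C.wmap w y ((g : R4 → C.V) y),
    (C.wmap_smooth hw).1.clm_apply (Test.smooth g),
    (Test.compact g).mono fun y hy h => hy (by simp [h])⟩
  map_add' f g := Subtype.ext (funext fun y => map_add (C.wmap w y) _ _)
  map_smul' r g := Subtype.ext (funext fun y => map_smul (C.wmap w y) r _)

lemma Cfg.wmul_apply {w : C.ι → R4 → ℝ} (hw : C.Wt w) (g : Test C.V) (y : R4) :
    (C.wmul hw g : R4 → C.V) y = C.wmap w y ((g : R4 → C.V) y) := rfl

lemma Cfg.prj_wmul {w : C.ι → R4 → ℝ} (hw : C.Wt w) (g : Test C.V) (y : R4) (k : C.ι) :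
    C.prj k ((C.wmul hw g : R4 → C.V) y) = w k y • C.prj k ((g : R4 → C.V) y) := by
  rw [C.wmul_apply, C.wmap_apply, C.prj_sum]

lemma Cfg.wmul_adj {w : C.ι → R4 → ℝ} (hw : C.Wt w) (g h : Test C.V) :
    ⟪toL2 C.V (C.wmul hw g), toL2 C.V h⟫ = ⟪toL2 C.V g, toL2 C.V (C.wmul hw h)⟫ := by
  rw [inner_toL2, inner_toL2]
  refine integral_congr_ae (.of_forall fun y => ?_)
  simp only [C.inner_eq, C.prj_wmul, real_inner_smul_left, real_inner_smul_right]

lemma Cfg.chi_le_one (k : C.ι) (y : R4) : |C.chi k y| ≤ 1 := by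
  by_cases hy : y ∈ (C.ch k).target
  · have h := Finset.single_le_sum (fun l _ => sq_nonneg (ext0 (C.ch l) (C.chi l) ((C.ch k).symm y)))
      (Finset.mem_univ k)
    rw [C.chi_sum, ext0_symm _ hy] at h
    exact (sq_le_one_iff_abs_le_one _).1 h
  · rw [image_eq_zero_of_notMem_tsupport fun h => hy (C.wt_chi.target C k h), abs_zero]
    exact zero_le_one

lemma Cfg.wmul_chi_l2 (g : Test C.V) : ‖toL2 C.V (C.wmul C.wt_chi g)‖ ≤ ‖toL2 C.V g‖ := by
  refine (sq_le_sq₀ (norm_nonneg _) (norm_nonneg _)).1 ?_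
  rw [norm_toL2_sq, norm_toL2_sq]
  refine integral_mono (integrable_sq_norm _) (integrable_sq_norm _) fun y => ?_
  simp only [← real_inner_self_eq_norm_sq, C.inner_eq, C.prj_wmul, real_inner_smul_left,
    real_inner_smul_right, ← mul_assoc]
  refine Finset.sum_le_sum fun k _ => mul_le_of_le_one_left real_inner_self_nonneg ?_
  rw [← pow_two]
  exact (sq_le_one_iff_abs_le_one _).2 (C.chi_le_one k y)

lemma Cfg.wmul_bd {w : C.ι → R4 → ℝ} (hw : C.Wt w) (j : ℕ) :
    ∃ c, 0 ≤ c ∧ ∀ (g : Test C.V) b, Bd j b (g : R4 → C.V) →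
      Bd j (c * b) (C.wmul hw g : R4 → C.V) := by
  obtain ⟨c, hc, h⟩ := bd_apply (C.wmap_smooth hw).1 (C.wmap_smooth hw).2 j
  exact ⟨c, hc, fun g b hb => h _ b (Test.smooth g) hb⟩

/-- Project with one weight, lift with another. -/
def Cfg.blk {w v : C.ι → R4 → ℝ} (hw : C.Wt w) (hv : C.Wt v) : Test C.V →ₗ[ℝ] Test C.V :=
  (C.lift hw).comp (C.proj hv)

lemma Cfg.lift_piece_smooth {w : C.ι → R4 → ℝ} (hw : C.Wt w) (u : fieldsE G) (k : C.ι) :
    ContDiff ℝ ∞ fun y => C.Cw w k y (view2 (C.ch k) u.1 y) :=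
  cut_smooth (F := R2) (hw.smooth k) (hw.supp k) Metric.isOpen_ball
    ((cdOn_coordL (C.e_smooth k)).clm_apply ((Base.smooth_view2 u.2.1 (G.c_mem _)).mono (C.ball_sub k)))

lemma Cfg.blk_bd {w v : C.ι → R4 → ℝ} (hw : C.Wt w) (hv : C.Wt v) (j : ℕ) :
    ∃ c, 0 ≤ c ∧ ∀ (g : Test C.V) b, Bd j b (g : R4 → C.V) →
      Bd j (c * b) (C.blk hw hv g : R4 → C.V) := by
  have hM : ∀ l, ContDiff ℝ ∞ (fun y => (C.Ew v l y).comp (C.prj l)) ∧
      HasCompactSupport (fun y => (C.Ew v l y).comp (C.prj l)) ∧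
      tsupport (fun y => (C.Ew v l y).comp (C.prj l)) ⊆ (C.ch l).target := fun l => by
    have hs : Function.support (fun y => (C.Ew v l y).comp (C.prj l)) ⊆ tsupport (v l) := fun y hy => by
      by_contra h
      exact hy (by simp [Cfg.Ew, image_eq_zero_of_notMem_tsupport h])
    exact ⟨(C.Ew_smooth hv l).clm_comp contDiff_const,
      HasCompactSupport.of_support_subset_isCompact (hv.compact C l) hs,
      (closure_minimal hs (isClosed_tsupport _)).trans (hv.target C l)⟩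
  have hN : ∀ k, ContDiff ℝ ∞ (fun y => (C.inj k).comp (C.Cw w k y)) ∧
      HasCompactSupport (fun y => (C.inj k).comp (C.Cw w k y)) ∧
      tsupport (fun y => (C.inj k).comp (C.Cw w k y)) ⊆ (C.ch k).target := fun k => by
    have hs : Function.support (fun y => (C.inj k).comp (C.Cw w k y)) ⊆ tsupport (w k) := fun y hy => by
      by_contra h
      exact hy (ContinuousLinearMap.ext fun a => by simp [Cfg.Cw, image_eq_zero_of_notMem_tsupport h])
    exact ⟨contDiff_const.clm_comp (C.Cw_smooth hw k),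
      HasCompactSupport.of_support_subset_isCompact (hw.compact C k) hs,
      (closure_minimal hs (isClosed_tsupport _)).trans (hw.target C k)⟩
  choose c hc0 hc using fun k l => mix_bound (G.c_mem (C.idx k)) (G.c_mem (C.idx l)) (hN k).1
    (hN k).2.1 (hN k).2.2 (hM l).1 (hM l).2.1 (hM l).2.2 j
  refine ⟨∑ k, ∑ l, c k l, Finset.sum_nonneg fun k _ => Finset.sum_nonneg fun l _ => hc0 k l,
    fun g b hb => ?_⟩
  have e : (C.blk hw hv g : R4 → C.V) = ∑ p : C.ι × C.ι, fun y =>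
      C.inj p.1 (C.Cw w p.1 y (view2 (C.ch p.1) (C.piece v g p.2) y)) := by
    funext y
    rw [Finset.sum_apply, Fintype.sum_prod_type]
    show C.liftFun w (C.proj hv g).1 y = _
    rw [C.proj_coe]
    refine Finset.sum_congr rfl fun k _ => ?_
    rw [← map_sum (C.inj k), ← map_sum (C.Cw w k y)]
    simp [view2, ← pullBilL_apply, Finset.sum_apply]
  rw [e, Finset.sum_mul]
  simp only [Finset.sum_mul]
  rw [← Fintype.sum_prod_type (f := fun p : C.ι × C.ι => c p.1 p.2 * b)]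
  refine bd_sum _ (fun p _ => ?_) fun p _ => ?_
  · exact (C.inj p.1).contDiff.comp
      (C.lift_piece_smooth hw ⟨_, (C.piece_spec hv g p.2).1⟩ p.1)
  · exact hc p.1 p.2 _ b (Test.smooth g) hb
where
  pullBilL_apply {A : Endo} {b : Bil} : pullBilL A b = pullBil A b := rfl

variable [MeasurableSpace X] [BorelSpace X]

theorem Cfg.blk_adj (hB : BaseFacts G) {w v : C.ι → R4 → ℝ} (hw : C.Wt w) (hv : C.Wt v)
    (g h : Test C.V) :
    ⟪toL2 C.V (C.blk hw hv g), toL2 C.V h⟫ = ⟪toL2 C.V g, toL2 C.V (C.blk hv hw h)⟫ := by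
  rw [real_inner_comm (toL2 C.V (C.blk hv hw h))]
  simp only [Cfg.blk, LinearMap.comp_apply, ← C.adjoint hB]
  exact pair_comm G _ _

lemma Cfg.proj_lift_chi (hspan : AntiSpanStatement) (u : fieldsE G) :
    C.proj C.wt_chi (C.lift C.wt_chi u) = u :=
  Subtype.ext (funext fun x => by rw [C.proj_lift_eq hspan C.wt_chi, C.chi_sum, one_smul])

lemma Cfg.pair_lift (hB : BaseFacts G) (hspan : AntiSpanStatement) (u v : fieldsE G) :
    G.pair u.1 v.1 = ⟪toL2 C.V (C.lift C.wt_chi u), toL2 C.V (C.lift C.wt_chi v)⟫ := by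
  conv_lhs => rw [← C.proj_lift_chi hspan v]
  rw [C.adjoint hB]

theorem Cfg.lift_l2 (hB : BaseFacts G) (hspan : AntiSpanStatement) {w : C.ι → R4 → ℝ}
    (hw : C.Wt w) :
    ∃ c, 0 ≤ c ∧ ∀ u, ‖toL2 C.V (C.lift hw u)‖ ≤ c * ‖toL2 C.V (C.lift C.wt_chi u)‖ := by
  set F : X → ℝ := fun x => ∑ k, ext0 (C.ch k) (w k) x ^ 2
  have hF : ContMDiff 𝓘(ℝ, R4) 𝓘(ℝ, ℝ) ∞ F := contMDiff_finsetSum fun k _ => by
    simp only [pow_two]
    exact (ext0_smooth (G.c_mem _) (hw.smooth k) (hw.compact C k) (hw.target C k)).mul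
      (ext0_smooth (G.c_mem _) (hw.smooth k) (hw.compact C k) (hw.target C k))
  obtain ⟨M0, hM0⟩ := (isCompact_range hF.continuous).bddAbove
  set M := max M0 0
  have hM : ∀ x, F x ≤ M := fun x => (hM0 ⟨x, rfl⟩).trans (le_max_left _ _)
  refine ⟨Real.sqrt M, Real.sqrt_nonneg _, fun u => ?_⟩
  let Fu : fieldsE G := ⟨fun x => F x • u.1 x, hB.smul2 _ _ hF u.2.1, fun x a b => by
    show F x * u.1 x (G.J x a) (G.J x b) = -(F x * u.1 x a b)
    rw [u.2.2 x a b, mul_neg]⟩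
  have hproj : C.proj hw (C.lift hw u) = Fu :=
    Subtype.ext (funext fun x => C.proj_lift_eq hspan hw u x)
  have h1 : ‖toL2 C.V (C.lift hw u)‖ ^ 2 ≤ M * ‖toL2 C.V (C.lift C.wt_chi u)‖ ^ 2 := by
    rw [← real_inner_self_eq_norm_sq, ← C.adjoint hB, hproj, C.pair_lift hB hspan, inner_toL2,
      norm_toL2_sq, ← integral_const_mul]
    refine integral_mono ?_ ((integrable_sq_norm _).const_mul M) fun y => ?_
    · exact ((Test.smooth _).continuous.inner (Test.smooth _).continuous).integrable_of_hasCompactSupport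
        ((Test.compact (C.lift C.wt_chi u)).mono fun y hy h => hy (by simp [h]))
    · simp only [← real_inner_self_eq_norm_sq, C.inner_eq, Finset.mul_sum]
      refine Finset.sum_le_sum fun k _ => ?_
      have e : C.prj k ((C.lift C.wt_chi Fu : R4 → C.V) y) =
          F ((C.ch k).symm y) • C.prj k ((C.lift C.wt_chi u : R4 → C.V) y) := by
        rw [C.prj_lift, C.prj_lift, ← map_smul]
        rfl
      rw [e, real_inner_smul_right]
      exact mul_le_mul_of_nonneg_right (hM _) real_inner_self_nonneg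
  refine (sq_le_sq₀ (norm_nonneg _) (mul_nonneg (Real.sqrt_nonneg _) (norm_nonneg _))).1 ?_
  rw [mul_pow, Real.sq_sqrt (le_max_right _ _)]
  exact h1

theorem Cfg.blk_l2 (hB : BaseFacts G) (hspan : AntiSpanStatement) {w v : C.ι → R4 → ℝ}
    (hw : C.Wt w) (hv : C.Wt v) :
    ∃ c, 0 ≤ c ∧ ∀ g, ‖toL2 C.V (C.blk hw hv g)‖ ≤ c * ‖toL2 C.V g‖ := by
  obtain ⟨cw, hcw, hw'⟩ := C.lift_l2 hB hspan hw
  obtain ⟨cv, hcv, hv'⟩ := C.lift_l2 hB hspan hv
  refine ⟨cw * cv, mul_nonneg hcw hcv, fun g => (hw' _).trans ?_⟩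
  rw [mul_assoc]
  refine mul_le_mul_of_nonneg_left ?_ hcw
  set a := ‖toL2 C.V (C.lift C.wt_chi (C.proj hv g))‖
  have h1 : a * a ≤ cv * ‖toL2 C.V g‖ * a := by
    have e : a * a = ⟪toL2 C.V (C.lift hv (C.proj hv g)), toL2 C.V g⟫ := by
      rw [← C.adjoint hB, C.pair_lift hB hspan, real_inner_self_eq_norm_mul_norm]
    rw [e]
    calc _ ≤ ‖toL2 C.V (C.lift hv (C.proj hv g))‖ * ‖toL2 C.V g‖ := real_inner_le_norm _ _
      _ ≤ cv * a * ‖toL2 C.V g‖ := mul_le_mul_of_nonneg_right (hv' _) (norm_nonneg _)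
      _ = cv * ‖toL2 C.V g‖ * a := by ring
  rcases (norm_nonneg (toL2 C.V (C.lift C.wt_chi (C.proj hv g)))).eq_or_lt with h0 | h0
  · rw [show a = 0 from h0.symm]
    positivity
  · exact le_of_mul_le_mul_right h1 h0

end Vale.Agent.P204.Full.Elliptic
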