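import Vale.Agent.P204.Full.Elliptic.Fields

/-!
P204 elliptic module: finitely many small chart balls with orthonormal pairs of anti-invariant forms and
cut-offs whose squares sum to one.
-/

open scoped Manifold ContDiff Topology
open MeasureTheory Set Filter

noncomputable section

namespace Vale.Agent.P204.Full.Elliptic

universe u

variable {X : Type u} [TopologicalSpace X] [T2Space X] [CompactSpace X] [ChartedSpace R4 X]
  [IsManifold 𝓘(ℝ, R4) ∞ X] (G : Geo X)

/-- The configuration of chart balls. -/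
structure Cfg where
  ι : Type
  [fin : Fintype ι]
  [dec : DecidableEq ι]
  idx : ι → Fin G.n
  p : ι → R4
  r : ι → ℝ
  r_pos : ∀ k, 0 < r k
  ball_sub : ∀ k, Metric.ball (p k) (3 * r k) ⊆ (G.c (idx k)).target
  e : ι → R4 → Fin 2 → Bil
  e_smooth : ∀ k a, ContDiffOn ℝ ∞ (fun y => e k y a) (Metric.ball (p k) (3 * r k))
  e_pair : ∀ k, ∀ y ∈ Metric.ball (p k) (3 * r k), AntiPair (Base.viewJ G.J (G.c (idx k)) y) (e k y)
  chi : ι → R4 → ℝ
  chi_smooth : ∀ k, ContDiff ℝ ∞ (chi k)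
  chi_small : ∀ k, tsupport (chi k) ⊆ Metric.closedBall (p k) (2 * r k)
  chi_two : ∀ k y, chi k y ≠ 0 → ‖y‖ ≤ 2
  chi_sum : ∀ x, ∑ k, ext0 (G.c (idx k)) (chi k) x ^ 2 = 1

attribute [instance] Cfg.fin Cfg.dec

theorem exists_cfg [MeasurableSpace X] (hB : BaseFacts G) (hff : FrameFieldStatement) :
    Nonempty (Cfg G) := by
  have hloc : ∀ i, ∀ y0 ∈ Metric.closedBall (0 : R4) 2, ∃ r : ℝ, 0 < r ∧
      Metric.ball y0 (3 * r) ⊆ (G.c i).target ∧ ∃ e : R4 → Fin 2 → Bil,
        (∀ a, ContDiffOn ℝ ∞ (fun y => e y a) (Metric.ball y0 (3 * r))) ∧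
          ∀ y ∈ Metric.ball y0 (3 * r), AntiPair (Base.viewJ G.J (G.c i) y) (e y) := by
    intro i y0 hy0
    obtain ⟨s, hs, hsub, e, he, hp⟩ := hff (G.c i).target (view2 (G.c i) G.omega)
      (Base.viewJ G.J (G.c i)) (G.c i).open_target (Base.smooth_view2 G.omega_smooth (G.c_mem i))
      (Base.smooth_viewJ G.J_acs (G.c_mem i)) (fun y hy => herm_view G i hy) y0
      (Base.closedBall_subset_target G i (by norm_num) hy0)
    have h3 : 3 * (s / 3) = s := by ring
    exact ⟨s / 3, by positivity, h3.symm ▸ hsub, e, h3.symm ▸ he, h3.symm ▸ hp⟩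
  choose rr hrr hsub ee hee hep using hloc
  have hcov : ∀ i, ∃ t : Finset {y : R4 // y ∈ Metric.closedBall (0 : R4) 2},
      Metric.closedBall (0 : R4) 2 ⊆ ⋃ q ∈ t, Metric.ball (q : R4) (rr i q q.2) := fun i =>
    (isCompact_closedBall (0 : R4) 2).elim_finite_subcover
      (fun q : {y : R4 // y ∈ Metric.closedBall (0 : R4) 2} => Metric.ball (q : R4) (rr i q q.2))
      (fun _ => Metric.isOpen_ball) fun y hy =>
        mem_iUnion.2 ⟨⟨y, hy⟩, Metric.mem_ball_self (hrr i y hy)⟩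
  choose t ht using hcov
  let ι : Type := (i : Fin G.n) × {q // q ∈ t i}
  let idx : ι → Fin G.n := fun k => k.1
  let p : ι → R4 := fun k => (k.2.1 : R4)
  let r : ι → ℝ := fun k => rr k.1 k.2.1.1 k.2.1.2
  have hr : ∀ k, 0 < r k := fun k => hrr _ _ _
  have hball : ∀ k, Metric.ball (p k) (3 * r k) ⊆ (G.c (idx k)).target := fun k => hsub _ _ _
  let b : ∀ k : ι, ContDiffBump (p k) := fun k => ⟨r k, 2 * r k, hr k, by linarith [hr k]⟩
  let B : ∀ k : ι, ContDiffBump (p k) := fun k =>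
    ⟨2 * r k, 5 / 2 * r k, by linarith [hr k], by linarith [hr k]⟩
  let f : ι → X → ℝ := fun k x => G.rho (idx k) x * ext0 (G.c (idx k)) (fun y => b k y) x
  have hbs : ∀ k, tsupport (fun y => b k y) ⊆ (G.c (idx k)).target := fun k => by
    rw [(b k).tsupport_eq]
    exact (Metric.closedBall_subset_ball (by show 2 * r k < 3 * r k; linarith [hr k])).trans (hball k)
  have hf : ∀ k, ContMDiff 𝓘(ℝ, R4) 𝓘(ℝ, ℝ) ∞ (f k) := fun k =>
    (hB.rho_smooth _).mul (ext0_smooth (G.c_mem _) (b k).contDiff (b k).hasCompactSupport (hbs k))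
  let F : X → ℝ := fun x => ∑ k, f k x ^ 2
  have hF : ContMDiff 𝓘(ℝ, R4) 𝓘(ℝ, ℝ) ∞ F := contMDiff_finsetSum fun k _ => by
    simp only [pow_two]
    exact (hf k).mul (hf k)
  have hFpos : ∀ x, 0 < F x := fun x => by
    obtain ⟨i, -, hi⟩ := Finset.exists_ne_zero_of_sum_ne_zero
      (f := fun i => G.rho i x) (s := Finset.univ) (by rw [hB.rho_sum]; exact one_ne_zero)
    obtain ⟨hsrc, hn⟩ := hB.rho_supp i x hi
    obtain ⟨q, hq, hxq⟩ := mem_iUnion₂.1 (ht i (mem_closedBall_zero_iff.2 hn.le))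
    refine lt_of_lt_of_le ?_ (Finset.single_le_sum (fun k _ => sq_nonneg (f k x))
      (Finset.mem_univ (⟨i, q, hq⟩ : ι)))
    have h1 : f ⟨i, q, hq⟩ x = G.rho i x := by
      simp only [f, idx, ext0, indicator_of_mem hsrc]
      rw [(b ⟨i, q, hq⟩).one_of_mem_closedBall (Metric.ball_subset_closedBall hxq), mul_one]
    rw [h1]
    positivity
  let cX : ι → X → ℝ := fun k x => f k x / Real.sqrt (F x)
  have hc : ∀ k, ContMDiff 𝓘(ℝ, R4) 𝓘(ℝ, ℝ) ∞ (cX k) := fun k =>
    (hf k).div₀ (fun x => (Real.contDiffAt_sqrt (hFpos x).ne').contMDiffAt.comp x (hF x))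
      fun x => (Real.sqrt_pos.2 (hFpos x)).ne'
  let chi : ι → R4 → ℝ := fun k y => B k y • cX k ((G.c (idx k)).symm y)
  have hb1 : ∀ k y, y ∈ (G.c (idx k)).target → cX k ((G.c (idx k)).symm y) ≠ 0 →
      y ∈ Metric.closedBall (p k) (2 * r k) ∧ ‖y‖ ≤ 2 := fun k y hy h => by
    have h1 : f k ((G.c (idx k)).symm y) ≠ 0 := fun h0 => h (by simp only [cX, h0, zero_div])
    simp only [f, ext0_symm _ hy] at h1
    refine ⟨?_, ?_⟩
    · have : y ∈ Function.support (fun y => b k y) := right_ne_zero_of_mul h1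
      rw [(b k).support_eq] at this
      exact Metric.ball_subset_closedBall this
    · have h2 := (hB.rho_supp _ _ (left_ne_zero_of_mul h1)).2
      rw [(G.c (idx k)).right_inv hy] at h2
      exact h2.le
  have hBt : ∀ k, tsupport (fun y => B k y) ⊆ (G.c (idx k)).target := fun k => by
    rw [(B k).tsupport_eq]
    exact (Metric.closedBall_subset_ball (by show 5 / 2 * r k < 3 * r k; linarith [hr k])).trans
      (hball k)
  have hchi : ∀ k y, chi k y ≠ 0 → y ∈ (G.c (idx k)).target ∧ cX k ((G.c (idx k)).symm y) ≠ 0 :=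
    fun k y h => by
      simp only [chi, smul_eq_mul] at h
      exact ⟨hBt k (subset_tsupport _ (left_ne_zero_of_mul h)), right_ne_zero_of_mul h⟩
  refine ⟨⟨ι, idx, p, r, hr, hball, fun k => ee k.1 k.2.1.1 k.2.1.2, fun k a => hee _ _ _ a,
    fun k => hep _ _ _, chi, fun k => ?_, fun k => ?_, fun k y h => ?_, fun x => ?_⟩⟩
  · exact cut_smooth (F := ℝ) (B k).contDiff (hBt k) (G.c (idx k)).open_target
      (Base.contDiffOn_fun (hc k) (G.c_mem _))
  · refine closure_minimal (fun y h => ?_) Metric.isClosed_closedBall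
    obtain ⟨h1, h2⟩ := hchi k y h
    exact (hb1 k y h1 h2).1
  · obtain ⟨h1, h2⟩ := hchi k y h
    exact (hb1 k y h1 h2).2
  · have h : ∀ k, ext0 (G.c (idx k)) (chi k) x = cX k x := fun k => by
      by_cases hx : x ∈ (G.c (idx k)).source
      · simp only [ext0, indicator_of_mem hx, chi, smul_eq_mul]
        rw [(G.c (idx k)).left_inv hx]
        by_cases h0 : cX k x = 0
        · rw [h0, mul_zero]
        · have h1 := hb1 k _ ((G.c (idx k)).map_source hx) (by rwa [(G.c (idx k)).left_inv hx])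
          rw [(B k).one_of_mem_closedBall h1.1, one_mul]
      · simp [ext0, cX, f, indicator_of_notMem hx]
    simp only [h, cX, div_pow, ← Finset.sum_div, Real.sq_sqrt (hFpos x).le]
    exact div_self (hFpos x).ne'

end Vale.Agent.P204.Full.Elliptic
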