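import Vale.Agent.P204.Full.Base.Main

/-!
P204 elliptic module: cut-offs turning functions smooth on an open set into smooth functions.
-/

open scoped Manifold ContDiff Topology
open MeasureTheory Set Filter

noncomputable section

namespace Vale.Agent.P204.Full.Elliptic

universe u

variable {F : Type*} [NormedAddCommGroup F] [NormedSpace ℝ F]

lemma cut_smooth {η : R4 → ℝ} {f : R4 → F} {O : Set R4} (hη : ContDiff ℝ ∞ η)
    (hs : tsupport η ⊆ O) (hO : IsOpen O) (hf : ContDiffOn ℝ ∞ f O) :
    ContDiff ℝ ∞ fun y => η y • f y := contDiff_iff_contDiffAt.2 fun y => by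
  by_cases hy : y ∈ O
  · exact hη.contDiffAt.smul (hf.contDiffAt (hO.mem_nhds hy))
  · refine (contDiffAt_const (c := (0 : F))).congr_of_eventuallyEq ?_
    filter_upwards [(notMem_tsupport_iff_eventuallyEq.1 fun h => hy (hs h))] with z hz
    simp [hz]

lemma cut_compact {η : R4 → ℝ} (hc : HasCompactSupport η) (f : R4 → F) :
    HasCompactSupport fun y => η y • f y :=
  hc.mono fun y hy h => hy (by simp [h])

variable {X : Type u} [TopologicalSpace X] [T2Space X] [ChartedSpace R4 X]
  [IsManifold 𝓘(ℝ, R4) ∞ X]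

/-- A function on a chart, extended by zero. -/
def ext0 (c : OpenPartialHomeomorph X R4) (g : R4 → ℝ) : X → ℝ :=
  c.source.indicator fun x => g (c x)

lemma ext0_smooth {c : OpenPartialHomeomorph X R4} (hc : c ∈ IsManifold.maximalAtlas 𝓘(ℝ, R4) ∞ X)
    {g : R4 → ℝ} (hg : ContDiff ℝ ∞ g) (hgc : HasCompactSupport g) (hs : tsupport g ⊆ c.target) :
    ContMDiff 𝓘(ℝ, R4) 𝓘(ℝ, ℝ) ∞ (ext0 c g) := fun x => by
  have hK : IsClosed (c.symm '' tsupport g) :=
    (hgc.isCompact.image_of_continuousOn (c.continuousOn_symm.mono hs)).isClosed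
  by_cases hx : x ∈ c.source
  · refine (hg.contDiffAt.contMDiffAt.comp x
      (contMDiffAt_of_mem_maximalAtlas hc hx)).congr_of_eventuallyEq ?_
    filter_upwards [c.open_source.mem_nhds hx] with z hz
    simp [ext0, indicator_of_mem hz]
  · have hxK : x ∉ c.symm '' tsupport g := by
      rintro ⟨y, hy, rfl⟩
      exact hx (c.map_target (hs hy))
    refine (contMDiffAt_const (c := (0 : ℝ))).congr_of_eventuallyEq ?_
    filter_upwards [hK.isOpen_compl.mem_nhds hxK] with z hz
    by_cases hzs : z ∈ c.source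
    · simp only [ext0, indicator_of_mem hzs]
      exact image_eq_zero_of_notMem_tsupport fun h => hz ⟨_, h, c.left_inv hzs⟩
    · simp [ext0, indicator_of_notMem hzs]

omit [T2Space X] [IsManifold 𝓘(ℝ, R4) ∞ X] in
lemma ext0_symm {c : OpenPartialHomeomorph X R4} (g : R4 → ℝ) {y : R4} (hy : y ∈ c.target) :
    ext0 c g (c.symm y) = g y := by
  simp [ext0, indicator_of_mem (c.map_target hy), c.right_inv hy]

lemma kappa_subset {X : Type u} [TopologicalSpace X] [ChartedSpace R4 X]
    [IsManifold 𝓘(ℝ, R4) ∞ X] (G : Geo X) (i : Fin G.n) :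
    tsupport (fun y : R4 => kappaBump y) ⊆ (G.c i).target := by
  rw [kappaBump.tsupport_eq, G.c_target]
  exact Metric.closedBall_subset_ball (by norm_num [kappaBump])

end Vale.Agent.P204.Full.Elliptic
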