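import Vale.Agent.P204.Full.Elliptic.KernelL2
import Vale.Agent.P204.Full.Defs

/-!
P204 elliptic module: what the local parametrix lemma says. It is proved in `Elliptic/Local.lean`;
nothing here is an assumption of the final theorem.
-/

open scoped ContDiff
open MeasureTheory Set

noncomputable section

namespace Vale.Agent.P204.Full.Elliptic

/-- Values of pairs of coefficients. -/
abbrev R2 : Type := EuclideanSpace ℝ (Fin 2)

/-- Values of first derivatives. -/
abbrev J1 : Type := R4 →L[ℝ] R2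

/-- Values of second derivatives. -/
abbrev J2 : Type := R4 →L[ℝ] J1

instance j1NormedGroup : NormedAddCommGroup J1 := ContinuousLinearMap.toNormedAddCommGroup
instance j1NormedSpace : NormedSpace ℝ J1 := ContinuousLinearMap.toNormedSpace
instance j2NormedGroup : NormedAddCommGroup J2 := ContinuousLinearMap.toNormedAddCommGroup
instance j2NormedSpace : NormedSpace ℝ J2 := ContinuousLinearMap.toNormedSpace
instance j2DualNormedGroup : NormedAddCommGroup (J2 →L[ℝ] R2) :=
  ContinuousLinearMap.toNormedAddCommGroup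
instance j2DualNormedSpace : NormedSpace ℝ (J2 →L[ℝ] R2) := ContinuousLinearMap.toNormedSpace

/-- A second order system on `ℝ⁴` with cut-off coefficients, whose principal part is, on `U`,
a multiple of the trace for the metric `g`, acting on each component. -/
structure LocalSys where
  U : Set R4
  U_open : IsOpen U
  phi : R4 → ℝ
  phi_smooth : ContDiff ℝ ∞ phi
  phi_compact : HasCompactSupport phi
  phi_one : ∀ x ∈ U, phi x = 1
  g : R4 → Bil
  g_smooth : ContDiff ℝ ∞ g
  g_symm : ∀ x u v, g x u v = g x v u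
  g_pos : ∀ (x v : R4), v ≠ 0 → 0 < g x v v
  c0 : ℝ
  c0_ne : c0 ≠ 0
  P2 : R4 → J2 →L[ℝ] R2
  P1 : R4 → J1 →L[ℝ] R2
  P0 : R4 → R2 →L[ℝ] R2
  P2_smooth : ContDiff ℝ ∞ P2
  P1_smooth : ContDiff ℝ ∞ P1
  P0_smooth : ContDiff ℝ ∞ P0
  P2_compact : HasCompactSupport P2
  P1_compact : HasCompactSupport P1
  P0_compact : HasCompactSupport P0
  principal : ∀ x ∈ U, ∀ P : Fin 4 → R4, (∀ k l, g x (P k) (P l) = if k = l then 1 else 0) →
    ∀ S : J2, (∀ u v, S u v = S v u) → P2 x S = c0 • ∑ m, S (P m) (P m)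

/-- The system applied to a function. -/
def LocalSys.app (S : LocalSys) (f : R4 → R2) (x : R4) : R2 :=
  S.P2 x (fderiv ℝ (fderiv ℝ f) x) + S.P1 x (fderiv ℝ f x) + S.P0 x (f x)

/-- A parametrix: the constants of the first two kernels do not depend on the radius `δ`. -/
def ParametrixStatement : Prop :=
  ∀ S : LocalSys, ∃ CR CK : ℕ → ℝ, ∀ δ : ℝ, 0 < δ → δ ≤ 1 →
    ∃ (kR kK kS : R4 → R4 → R2 →L[ℝ] R2) (CS : ℕ → ℝ),
      IsKernel δ CR kR ∧ IsKernel δ CK kK ∧ IsKernel δ CS kS ∧
      ContDiff ℝ ∞ (fun p : R4 × R4 => kS p.1 p.2) ∧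
      HasCompactSupport (fun p : R4 × R4 => kS p.1 p.2) ∧
      ∀ f : Test R2, ∀ x ∈ S.U,
        S.app (intOp kR (f : R4 → R2)) x =
          (f : R4 → R2) x + intOp kK (f : R4 → R2) x + intOp kS (f : R4 → R2) x

end Vale.Agent.P204.Full.Elliptic
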