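import Vale.Agent.P204.Full.Common.Linear
import Vale.Agent.P204.Full.Elliptic.LocalSpec

/-!
P204 elliptic module: the pointwise operator `du ↦ A du`, and the algebraic facts about it, stated here
and proved in `Elliptic/Alg.lean`; nothing here is an assumption of the final theorem.
-/

open scoped ContDiff
open Set

noncomputable section

namespace Vale.Agent.P204.Full.Elliptic

/-- Values of first derivatives of fields of two-forms. -/
abbrev D3 : Type := R4 →L[ℝ] Bil

instance d3NormedGroup : NormedAddCommGroup D3 := ContinuousLinearMap.toNormedAddCommGroup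
instance d3NormedSpace : NormedSpace ℝ D3 := ContinuousLinearMap.toNormedSpace
instance d3DualNormedGroup : NormedAddCommGroup (D3 →L[ℝ] Cov) :=
  ContinuousLinearMap.toNormedAddCommGroup
instance d3DualNormedSpace : NormedSpace ℝ (D3 →L[ℝ] Cov) := ContinuousLinearMap.toNormedSpace

/-- The antisymmetrised derivative. -/
def d3 (D : D3) (u v w : R4) : ℝ := D u v w - D v u w + D w u v

/-- `dθ ∧ a` on the standard basis, for the derivative `D` of `θ`. -/
def top31c (D : D3) (a : Cov) : ℝ :=
  d3 D (bvec 0) (bvec 1) (bvec 2) * a (bvec 3) - d3 D (bvec 0) (bvec 1) (bvec 3) * a (bvec 2) +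
    d3 D (bvec 0) (bvec 2) (bvec 3) * a (bvec 1) - d3 D (bvec 1) (bvec 2) (bvec 3) * a (bvec 0)

/-- The vector `X` with `t a(X) = dθ ∧ a` for all covectors, `t` the coefficient of `ω ∧ ω`. -/
def xvec (om : Bil) (D : D3) : R4 :=
  (top22 om om)⁻¹ • (-(d3 D (bvec 1) (bvec 2) (bvec 3)) • bvec 0 +
    d3 D (bvec 0) (bvec 2) (bvec 3) • bvec 1 - d3 D (bvec 0) (bvec 1) (bvec 3) • bvec 2 +
    d3 D (bvec 0) (bvec 1) (bvec 2) • bvec 3)

/-- The one-form `A dθ = -g(X, .)`. -/
def aloc (om : Bil) (J : Endo) (D : D3) : Cov := -((om (xvec om D)).comp J)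

/-- `aloc` as a linear map in the derivative. -/
def alocL (om : Bil) (J : Endo) : D3 →L[ℝ] Cov :=
  LinearMap.toContinuousLinearMap
    { toFun := aloc om J
      map_add' := fun D D' => by
        have h : xvec om (D + D') = xvec om D + xvec om D' := by
          simp only [xvec, d3, add_apply]
          module
        ext v
        simp only [aloc, h, map_add, ContinuousLinearMap.add_comp, neg_add_rev, add_apply, neg_apply]
        ring
      map_smul' := fun r D => by
        have h : xvec om (r • D) = r • xvec om D := by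
          simp only [xvec, d3, smul_apply, smul_eq_mul]
          module
        ext v
        simp only [aloc, h, map_smul, ContinuousLinearMap.smul_comp, RingHom.id_apply, neg_apply,
          smul_apply, smul_neg] }

theorem alocL_apply (om : Bil) (J : Endo) (D : D3) : alocL om J D = aloc om J D := rfl

/-- A positive Hermitian pair at a point. -/
structure Herm (om : Bil) (J : Endo) : Prop where
  alt : IsAlt om
  sq : ∀ v, J (J v) = -v
  inv : ∀ u v, om (J u) (J v) = om u v
  pos : ∀ v, v ≠ 0 → 0 < om v (J v)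
  top_pos : 0 < top22 om om

/-- An orthonormal pair of anti-invariant forms. -/
structure AntiPair (J : Endo) (e : Fin 2 → Bil) : Prop where
  alt : ∀ a, IsAlt (e a)
  anti : ∀ a, pullBil J (e a) = -e a
  orth : ∀ a b, top22 (e a) (e b) = if a = b then 1 else 0

/-- The form with given coefficients. -/
def frameL (e : Fin 2 → Bil) : R2 →L[ℝ] Bil :=
  ∑ a, (EuclideanSpace.proj a : R2 →L[ℝ] ℝ).smulRight (e a)

/-- Naturality of `aloc` under linear changes of coordinates. -/
def AlocNaturalStatement : Prop :=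
  ∀ (A J J' : Endo) (om : Bil) (D D' : D3), A.det ≠ 0 → IsAlt om → top22 om om ≠ 0 →
    (∀ v, A (J' v) = J (A v)) → (∀ u v w, D u v w = -(D u w v)) →
    (∀ u v w, d3 D' u v w = d3 D (A u) (A v) (A w)) →
      aloc (pullBil A om) J' D' = pullCov A (aloc om J D)

/-- The principal symbol is a multiple of the metric trace, componentwise. -/
def SymbolStatement : Prop :=
  ∀ (om : Bil) (J : Endo) (e : Fin 2 → Bil), Herm om J → AntiPair J e →
    ∀ P : Fin 4 → R4, (∀ k l, om (P k) (J (P l)) = if k = l then 1 else 0) →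
    ∀ S : J2, (∀ u v, S u v = S v u) → ∀ K : R4 →L[ℝ] Cov,
      (∀ h, K h = aloc om J ((frameL e).comp (S h))) →
        ∀ a, top22 (K - K.flip) (e a) = -(1 / 4) * ∑ m, S (P m) (P m) a

/-- An orthonormal pair spans the anti-invariant forms. -/
def AntiSpanStatement : Prop :=
  ∀ (om : Bil) (J : Endo) (e : Fin 2 → Bil), Herm om J → AntiPair J e →
    ∀ b, IsAlt b → pullBil J b = -b → b = ∑ a, top22 b (e a) • e a

/-- Smooth orthonormal pairs exist near every point. -/
def FrameFieldStatement : Prop :=
  ∀ (U : Set R4) (om : R4 → Bil) (J : R4 → Endo), IsOpen U → ContDiffOn ℝ ∞ om U →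
    ContDiffOn ℝ ∞ J U → (∀ y ∈ U, Herm (om y) (J y)) → ∀ y0 ∈ U,
      ∃ r : ℝ, 0 < r ∧ Metric.ball y0 r ⊆ U ∧ ∃ e : R4 → Fin 2 → Bil,
        (∀ a, ContDiffOn ℝ ∞ (fun y => e y a) (Metric.ball y0 r)) ∧
          ∀ y ∈ Metric.ball y0 r, AntiPair (J y) (e y)

end Vale.Agent.P204.Full.Elliptic
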