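import Vale.Agent.P204.Full.Elliptic.Cutoff
import Vale.Agent.P204.Full.Elliptic.Ops

/-!
P204 elliptic module: the one-form `A du`, the operator `L u = (d A du)^{20}`, its symmetry and its kernel.
-/

open scoped Manifold ContDiff Topology
open MeasureTheory Set Filter

noncomputable section

namespace Vale.Agent.P204.Full.Elliptic

universe u

open Base

variable {X : Type u} [TopologicalSpace X] [T2Space X] [CompactSpace X] [ChartedSpace R4 X]
  [IsManifold 𝓘(ℝ, R4) ∞ X]
  (G : Geo X)

/-- The one-form `A dθ`. -/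
def Af (θ : X → Bil) (x : X) : Cov :=
  aloc (G.omega x) (G.J x) (fderiv ℝ (view2 (chartAt R4 x) θ) (chartAt R4 x x))

lemma view2_diff {θ : X → Bil} (hθ : Smooth2 θ) {c : OpenPartialHomeomorph X R4} (hc : Atl c)
    {y : R4} (hy : y ∈ c.target) : DifferentiableAt ℝ (view2 c θ) y :=
  ((smooth_view2 hθ hc).contDiffAt (c.open_target.mem_nhds hy)).differentiableAt (by simp)

lemma view1_Af (hnat : AlocNaturalStatement) {θ : X → Bil} (hθ : Smooth2 θ)
    {c : OpenPartialHomeomorph X R4} (hc : Atl c) {y : R4} (hy : y ∈ c.target) :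
    view1 c (Af G θ) y =
      aloc (view2 c G.omega y) (viewJ G.J c y) (fderiv ℝ (view2 c θ) y) := by
  set x := c.symm y with hx
  set e := chartAt R4 x with he
  have hte : Atl e := atl_chartAt x
  have ht : y ∈ tdom c e := mem_tdom_chartAt hy
  have hA : dsymm c y = dtrans c e y := by
    rw [dsymm_trans hc hte ht]
    show (dsymm e (e x)).comp _ = _
    rw [he, dsymm_chartAt]
    exact ContinuousLinearMap.id_comp _
  show pullCov (dsymm c y) (Af G θ x) = _
  refine (hnat (dsymm c y) (G.J x) (viewJ G.J c y) (G.omega x) (fderiv ℝ (view2 e θ) (e x))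
    (fderiv ℝ (view2 c θ) y) (det_dsymm_ne hc hy) (G.omega_smooth.1 x) (omega_top_ne G x)
    (fun v => congrArg (fun f : Endo => f v) (dsymm_viewJ G.J hc hy)) ?_ ?_).symm
  · exact fun u v w => d2At_alt (view2_diff hθ hte (e.map_source (mem_chart_source R4 x)))
      (.of_forall fun z => isAlt_view2 hθ.1 e z) u v w
  · intro u v w
    have hev : view2 c θ =ᶠ[𝓝 y] pb2 (trans c e) (view2 e θ) :=
      (eventually_tdom ht).mono fun z hz => view2_trans hc hte θ hz
    show d2At (view2 c θ) y u v w = d2At (view2 e θ) (e x) _ _ _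
    rw [hA, d2At_congr hev, d2At_pb2 (contDiffAt_trans hc hte ht)
      (view2_diff hθ hte (trans_mem ht).1) (isAlt_view2 hθ.1 _ _) u v w]
    rfl

lemma cdOn_aloc {om : R4 → Bil} {J : R4 → Endo} {D : R4 → D3} {s : Set R4}
    (ho : ContDiffOn ℝ ∞ om s) (hJ : ContDiffOn ℝ ∞ J s) (hD : ContDiffOn ℝ ∞ D s)
    (hne : ∀ y ∈ s, top22 (om y) (om y) ≠ 0) :
    ContDiffOn ℝ ∞ (fun y => aloc (om y) (J y) (D y)) s := by
  have h3 : ∀ i j k, ContDiffOn ℝ ∞ (fun y => d3 (D y) (bvec i) (bvec j) (bvec k)) s := fun i j k => by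
    simp only [d3]
    have h : ∀ a b c, ContDiffOn ℝ ∞ (fun y => D y (bvec a) (bvec b) (bvec c)) s := fun a b c =>
      ((hD.clm_apply contDiffOn_const).clm_apply contDiffOn_const).clm_apply contDiffOn_const
    exact ((h i j k).sub (h j i k)).add (h k i j)
  have hX : ContDiffOn ℝ ∞ (fun y => xvec (om y) (D y)) s := by
    refine ((cdOn_top22 ho ho).inv hne).smul ?_
    exact ((((h3 1 2 3).neg.smul contDiffOn_const).add ((h3 0 2 3).smul contDiffOn_const)).sub
      ((h3 0 1 3).smul contDiffOn_const)).add ((h3 0 1 2).smul contDiffOn_const)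
  exact ((ho.clm_apply hX).clm_comp hJ).neg

lemma view2_omega_ne {c : OpenPartialHomeomorph X R4} (hc : Atl c) {y : R4} (hy : y ∈ c.target) :
    top22 (view2 c G.omega y) (view2 c G.omega y) ≠ 0 :=
  (Base.W_view G hc G.omega G.omega G.omega_smooth.1 G.omega_smooth.1 hy).1

lemma Af_smooth (hnat : AlocNaturalStatement) {θ : X → Bil} (hθ : Smooth2 θ) : Smooth1 (Af G θ) :=
  fun x₀ => by
    have hc := atl_chartAt x₀
    refine (cdOn_aloc (smooth_view2 G.omega_smooth hc) (smooth_viewJ G.J_acs hc)
      ((smooth_view2 hθ hc).fderiv_of_isOpen (chartAt R4 x₀).open_target (by simp))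
      fun y hy => view2_omega_ne G hc hy).congr fun y hy => view1_Af G hnat hθ hc hy

lemma Af_add {θ η : X → Bil} (hθ : Smooth2 θ) (hη : Smooth2 η) :
    Af G (θ + η) = Af G θ + Af G η := funext fun x => by
  have hd := fun {ζ : X → Bil} (h : Smooth2 ζ) =>
    view2_diff h (atl_chartAt x) ((chartAt R4 x).map_source (mem_chart_source R4 x))
  simp only [Af, Pi.add_apply, ← alocL_apply, ← map_add]
  rw [Full.view2_add, fderiv_add (hd hθ) (hd hη)]

lemma Af_smul (r : ℝ) {θ : X → Bil} (hθ : Smooth2 θ) : Af G (r • θ) = r • Af G θ :=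
  funext fun x => by
    have hd := view2_diff hθ (atl_chartAt x) ((chartAt R4 x).map_source (mem_chart_source R4 x))
    simp only [Af, Pi.smul_apply, ← alocL_apply, ← map_smul]
    rw [Full.view2_smul, fderiv_const_smul hd]

lemma view1_diff {α : X → Cov} (h : Smooth1 α) (x : X) :
    DifferentiableAt ℝ (view1 (chartAt R4 x) α) (chartAt R4 x x) :=
  ((h x).contDiffAt ((chartAt R4 x).open_target.mem_nhds
    ((chartAt R4 x).map_source (mem_chart_source R4 x)))).differentiableAt (by simp)

lemma smooth1_add {α β : X → Cov} (h : Smooth1 α) (k : Smooth1 β) : Smooth1 (α + β) := fun x₀ => by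
  have e : view1 (chartAt R4 x₀) (α + β) = view1 (chartAt R4 x₀) α + view1 (chartAt R4 x₀) β := rfl
  rw [e]
  exact (h x₀).add (k x₀)

omit [T2Space X] [CompactSpace X] [IsManifold 𝓘(ℝ, R4) ∞ X] in
lemma smooth1_zero : Smooth1 (0 : X → Cov) := fun x₀ => by
  have e : view1 (chartAt R4 x₀) (0 : X → Cov) = fun _ => 0 := rfl
  rw [e]
  exact contDiffOn_const

lemma extD1_add {α β : X → Cov} (h : Smooth1 α) (k : Smooth1 β) :
    extD1 (α + β) = extD1 α + extD1 β := funext fun x => by
  have e : view1 (chartAt R4 x) (α + β) = view1 (chartAt R4 x) α + view1 (chartAt R4 x) β := rfl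
  simp only [extD1, Pi.add_apply, e, d1At, fderiv_add (view1_diff h x) (view1_diff k x),
    ContinuousLinearMap.flip_add]
  abel

lemma extD1_smul (r : ℝ) {α : X → Cov} (h : Smooth1 α) : extD1 (r • α) = r • extD1 α :=
  funext fun x => by
    have e : view1 (chartAt R4 x) (r • α) = r • view1 (chartAt R4 x) α := rfl
    simp only [extD1, Pi.smul_apply, e, d1At, fderiv_const_smul (view1_diff h x),
      ContinuousLinearMap.flip_smul, smul_sub]

/-- Smooth anti-invariant fields. -/
def fieldsE : Submodule ℝ (X → Bil) where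
  carrier := {u | Smooth2 u ∧ G.Anti u}
  zero_mem' := ⟨Smooth2.zero, fun x u v => by simp⟩
  add_mem' ha hb := ⟨ha.1.add hb.1, fun x u v => by
    simp [ha.2 x u v, hb.2 x u v]
    ring⟩
  smul_mem' r a ha := ⟨ha.1.smul r, fun x u v => by simp [ha.2 x u v]⟩

/-- `u ↦ (d A du)^{20}`. -/
def opL (hnat : AlocNaturalStatement) : fieldsE G →ₗ[ℝ] fieldsE G where
  toFun u := ⟨G.p20 (extD1 (Af G u.1)),
    Base.p20_smooth G (Base.exact_closed (Af_smooth G hnat u.2.1)).1⟩
  map_add' u w := Subtype.ext (by
    simp only [Submodule.coe_add]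
    rw [Af_add G u.2.1 w.2.1, extD1_add (Af_smooth G hnat u.2.1) (Af_smooth G hnat w.2.1),
      G.p20_add])
  map_smul' r u := Subtype.ext (by
    simp only [Submodule.coe_smul, RingHom.id_apply]
    rw [Af_smul G r u.2.1, extD1_smul r (Af_smooth G hnat u.2.1), G.p20_smul])

variable [MeasurableSpace X] [BorelSpace X]

omit [T2Space X] [CompactSpace X] [BorelSpace X] in
lemma pair_comm (θ η : X → Bil) : G.pair θ η = G.pair η θ := by
  simp only [Geo.pair, G.W_comm]

omit [BorelSpace X] in
lemma W_p20 (hP : PointFacts G) {u η : X → Bil} (hu : Smooth2 u) (hua : G.Anti u)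
    (hη : Smooth2 η) (x : X) : G.W x (u x) (G.p20 η x) = G.W x (u x) (η x) := by
  conv_rhs => rw [← hP.split x (η x)]
  rw [G.W_add_right, G.W_comm x (u x) (inv11 (G.J x) (η x)),
    hP.W_inv_anti x _ _ (hP.inv11_at x _ (hη.1 x)) ⟨hu.1 x, G.anti_pull hua x⟩, zero_add]
  rfl

omit [BorelSpace X] in
lemma pair_p20 (hP : PointFacts G) {u η : X → Bil} (hu : Smooth2 u) (hua : G.Anti u)
    (hη : Smooth2 η) : G.pair u (G.p20 η) = G.pair u η :=
  integral_congr_ae (.of_forall fun x => W_p20 G hP hu hua hη x)

/-- The integrand of `- pair u (dα)` in the chart `i`. -/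
def eInt (i : Fin G.n) (θ : X → Bil) (α : X → Cov) (y : R4) : ℝ :=
  G.rho i ((G.c i).symm y) * top31c (fderiv ℝ (view2 (G.c i) θ) y) (view1 (G.c i) α y)

lemma pair_piece (hB : BaseFacts G) (i : Fin G.n) {θ : X → Bil} (hθ : Smooth2 θ) {α : X → Cov}
    (hα : Smooth1 α) :
    Integrable ((G.c i).target.indicator (eInt G i θ α)) ∧
      G.pair θ (extD1 fun x => G.rho i x • α x) = -∫ y in (G.c i).target, eInt G i θ α y := by
  set c := G.c i with hc
  have hat : Atl c := G.c_mem i
  have hα' : Smooth1 fun x => G.rho i x • α x := hB.smul1 _ _ (hB.rho_smooth i) hα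
  set ρ : R4 → ℝ := fun y => G.rho i (c.symm y) with hρ
  set θ' : R4 → Bil := fun y => kappaBump y • view2 c θ y with hθ'
  set β : R4 → Cov := fun y => kappaBump y • (ρ y • view1 c α y) with hβ
  have hκ : tsupport (fun y : R4 => kappaBump y) ⊆ c.target := kappa_subset G i
  have hθs : ContDiff ℝ ∞ θ' :=
    cut_smooth (F := Bil) kappaBump.contDiff hκ c.open_target (smooth_view2 hθ hat)
  have hβs : ContDiff ℝ ∞ β := cut_smooth (F := Cov) kappaBump.contDiff hκ c.open_target
    ((contDiffOn_fun (hB.rho_smooth i) hat).smul (smooth_view1 hα hat))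
  have hβc : HasCompactSupport β := cut_compact (F := Cov) kappaBump.hasCompactSupport _
  have hsmall : ∀ y ∈ c.target, ρ y ≠ 0 → ‖y‖ < 2 := fun y hy h => by
    have := (hB.rho_supp i _ h).2
    rwa [c.right_inv hy] at this
  have hone : ∀ y : R4, ‖y‖ ≤ 2 → kappaBump y = 1 := fun y hy =>
    kappaBump.one_of_mem_closedBall (mem_closedBall_zero_iff.2 hy)
  have hview : ∀ y ∈ c.target, view1 c (fun x => G.rho i x • α x) y = β y := fun y hy => by
    rw [Base.view1_smul, hβ]
    by_cases h : ρ y = 0
    · simp only [h, zero_smul, smul_zero]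
      show ρ y • _ = _
      rw [h, zero_smul]
    · simp only [hone y (hsmall y hy h).le, one_smul]
      rfl
  have hnear : ∀ y : R4, ‖y‖ < 2 → θ' =ᶠ[𝓝 y] view2 c θ := fun y hy => by
    filter_upwards [(isOpen_lt continuous_norm continuous_const).mem_nhds hy] with z hz
    simp [hθ', hone z (le_of_lt hz)]
  have hint : ∀ y ∈ c.target, top31 θ' β y = eInt G i θ α y := fun y hy => by
    show top31c (fderiv ℝ θ' y) (β y) = _
    by_cases h : ρ y = 0
    · simp only [eInt, ← hc, show G.rho i (c.symm y) = 0 from h, zero_mul]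
      simp [top31c, hβ, h]
    · rw [(hnear y (hsmall y hy h)).fderiv_eq]
      simp only [eInt, ← hc, hβ, hone y (hsmall y hy h).le, one_smul, top31c, smul_apply,
        smul_eq_mul]
      show _ = ρ y * _
      ring
  have hout : ∀ y, y ∉ c.target → top31 θ' β y = 0 := fun y hy => by
    have : β y = 0 := by
      have h := image_eq_zero_of_notMem_tsupport (f := fun y : R4 => kappaBump y) fun h => hy (hκ h)
      simp [hβ, h]
    simp [top31, this]
  have hi : Integrable fun y => top31 θ' β y := by
    have hcont : Continuous fun y => top31 θ' β y := by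
      simp only [top31, d2At]
      have := hθs.continuous_fderiv (by simp)
      have := hβs.continuous
      fun_prop
    exact hcont.integrable_of_hasCompactSupport (hβc.mono fun y hy h => hy (by simp [top31, h]))
  have heq : c.target.indicator (eInt G i θ α) = fun y => top31 θ' β y := funext fun y => by
    by_cases hy : y ∈ c.target
    · rw [indicator_of_mem hy, hint y hy]
    · rw [indicator_of_notMem hy, hout y hy]
  refine ⟨heq ▸ hi, ?_⟩
  have hf : ∀ x, G.W x (θ x) (extD1 (fun x => G.rho i x • α x) x) ≠ 0 → x ∈ c.source := by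
    intro x hx
    by_contra hns
    refine hx ?_
    have hK : IsClosed (c.symm '' Metric.closedBall (0 : R4) 2) :=
      ((isCompact_closedBall _ _).image_of_continuousOn (c.continuousOn_symm.mono
        (Base.closedBall_subset_target G i (by norm_num)))).isClosed
    have hxK : x ∉ c.symm '' Metric.closedBall (0 : R4) 2 := by
      rintro ⟨y, hy, rfl⟩
      exact hns (c.map_target (Base.closedBall_subset_target G i (by norm_num) hy))
    have hev : view1 (chartAt R4 x) (fun x => G.rho i x • α x) =ᶠ[𝓝 (chartAt R4 x x)]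
        fun _ => 0 := by
      have h1 := (chartAt R4 x).symm.continuousAt
        ((chartAt R4 x).map_source (mem_chart_source R4 x))
      have h2 := h1.preimage_mem_nhds (t := (c.symm '' Metric.closedBall (0 : R4) 2)ᶜ) (by
        rw [(chartAt R4 x).left_inv (mem_chart_source R4 x)]
        exact hK.isOpen_compl.mem_nhds hxK)
      filter_upwards [h2] with z hz
      rw [Base.view1_smul]
      have h0 : G.rho i ((chartAt R4 x).symm z) = 0 := by
        by_contra h0
        obtain ⟨a, b⟩ := hB.rho_supp i _ h0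
        exact hz ⟨_, mem_closedBall_zero_iff.2 b.le, c.left_inv a⟩
      rw [h0, zero_smul]
    have : extD1 (fun x => G.rho i x • α x) x = 0 := by
      rw [extD1, Base.d1At_congr hev]
      simp [d1At]
    simp [Geo.W, top22, this]
  rw [Geo.pair, hB.vol_chart i _ (hB.pair_integrable θ _ (hB.smooth_cont θ hθ)
    (hB.smooth_cont _ (Base.exact_closed hα').1)) hf]
  have h1 : ∀ y ∈ c.target,
      G.W (c.symm y) (θ (c.symm y)) (extD1 (fun x => G.rho i x • α x) (c.symm y)) *
        top22 (view2 c G.omega y) (view2 c G.omega y) = top22 (θ' y) (d1At β y) := by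
    intro y hy
    obtain ⟨hne, hW⟩ := hB.W_view c hat θ (extD1 fun x => G.rho i x • α x) hθ.1
      (Base.exact_closed hα').1.1 y hy
    rw [hW, div_mul_cancel₀ _ hne, Base.d_view hα' hat hy,
      Base.d1At_congr (Filter.eventually_of_mem (c.open_target.mem_nhds hy) hview :
        view1 c (fun x => G.rho i x • α x) =ᶠ[𝓝 y] β)]
    by_cases h2 : ‖y‖ ≤ 2
    · simp [hθ', hone y h2]
    · have : β =ᶠ[𝓝 y] fun _ => 0 := by
        filter_upwards [c.open_target.mem_nhds hy,
          (isOpen_lt continuous_const continuous_norm).mem_nhds (lt_of_not_ge h2)] with z hz hz2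
        have : ρ z = 0 := not_not.1 fun h => absurd (hsmall z hz h) (not_lt.2 (le_of_lt hz2))
        simp [hβ, this]
      have h0 : d1At β y = 0 := by rw [Base.d1At_congr this]; simp [d1At]
      simp [h0, top22]
  rw [setIntegral_congr_fun c.open_target.measurableSet h1,
    setIntegral_eq_integral_of_forall_compl_eq_zero (fun y hy => ?_), stokes hθs hβs hβc,
    ← heq, integral_indicator c.open_target.measurableSet]
  have : β =ᶠ[𝓝 y] fun _ => 0 := by
    filter_upwards [notMem_tsupport_iff_eventuallyEq.1 fun h => hy (hκ h)] with z hz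
    simp [hβ, hz]
  have h0 : d1At β y = 0 := by rw [Base.d1At_congr this]; simp [d1At]
  simp [h0, top22]

lemma pair_dA (hB : BaseFacts G) {θ : X → Bil} (hθ : Smooth2 θ) {α : X → Cov} (hα : Smooth1 α) :
    G.pair θ (extD1 α) = -∑ i, ∫ y in (G.c i).target, eInt G i θ α y := by
  have key : ∀ s : Finset (Fin G.n), Smooth1 (∑ i ∈ s, fun x => G.rho i x • α x) ∧
      G.pair θ (extD1 (∑ i ∈ s, fun x => G.rho i x • α x)) =
        -∑ i ∈ s, ∫ y in (G.c i).target, eInt G i θ α y := by
    intro s
    induction s using Finset.induction_on with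
    | empty =>
      refine ⟨by simpa using smooth1_zero, ?_⟩
      have h : extD1 (0 : X → Cov) = 0 := by
        simpa using extD1_smul (0 : ℝ) (smooth1_zero (X := X))
      simp [h, Geo.pair, Geo.W, top22]
    | @insert a s ha ih =>
      have h1 : Smooth1 fun x => G.rho a x • α x := hB.smul1 _ _ (hB.rho_smooth a) hα
      rw [Finset.sum_insert ha, Finset.sum_insert ha, neg_add, ← ih.2,
        ← (pair_piece G hB a hθ hα).2, extD1_add h1 ih.1]
      refine ⟨smooth1_add h1 ih.1, ?_⟩
      have c1 := hB.smooth_cont θ hθ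
      rw [Geo.pair, Geo.pair, Geo.pair, ← integral_add
        (hB.pair_integrable θ _ c1 (hB.smooth_cont _ (Base.exact_closed h1).1))
        (hB.pair_integrable θ _ c1 (hB.smooth_cont _ (Base.exact_closed ih.1).1))]
      exact integral_congr_ae (.of_forall fun x => G.W_add_right x _ _ _)
  have e : (∑ i, fun x => G.rho i x • α x) = α := funext fun x => by
    rw [Finset.sum_apply, ← Finset.sum_smul, hB.rho_sum, one_smul]
  have h := (key Finset.univ).2
  rwa [e] at h

omit [T2Space X] [CompactSpace X] [MeasurableSpace X] [BorelSpace X] in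
lemma top31c_apply {om : Bil} (hne : top22 om om ≠ 0) (D : D3) (a : Cov) :
    top31c D a = top22 om om * a (xvec om D) := by
  simp only [xvec, map_smul, map_add, map_sub, smul_eq_mul]
  field_simp
  simp only [top31c]
  ring

omit [MeasurableSpace X] [BorelSpace X] in
/-- The integrand of the energy in a chart. -/
lemma eInt_Af (hnat : AlocNaturalStatement) (i : Fin G.n) {θ η : X → Bil} (hη : Smooth2 η)
    {y : R4} (hy : y ∈ (G.c i).target) :
    eInt G i θ (Af G η) y = -(G.rho i ((G.c i).symm y) *
      top22 (view2 (G.c i) G.omega y) (view2 (G.c i) G.omega y) *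
      view2 (G.c i) G.omega y
        (xvec (view2 (G.c i) G.omega y) (fderiv ℝ (view2 (G.c i) η) y))
        (viewJ G.J (G.c i) y
          (xvec (view2 (G.c i) G.omega y) (fderiv ℝ (view2 (G.c i) θ) y)))) := by
  rw [eInt, view1_Af G hnat hη (G.c_mem i) hy,
    top31c_apply (view2_omega_ne G (G.c_mem i) hy) _ _]
  simp [aloc]
  ring

omit [T2Space X] [CompactSpace X] [MeasurableSpace X] [BorelSpace X] in
lemma herm_view (i : Fin G.n) {y : R4} (hy : y ∈ (G.c i).target) :
    Herm (view2 (G.c i) G.omega y) (viewJ G.J (G.c i) y) := by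
  set c := G.c i with hc
  have hat : Atl c := G.c_mem i
  have hJ : ∀ v, dsymm c y (viewJ G.J c y v) = G.J (c.symm y) (dsymm c y v) := fun v =>
    congrArg (fun f : Endo => f v) (dsymm_viewJ G.J hat hy)
  have hinj : Function.Injective (dsymm c y) := by
    have h := dchart_comp_dsymm hat hy
    exact Function.LeftInverse.injective (g := dchart c (c.symm y)) fun v =>
      congrArg (fun f : Endo => f v) h
  refine ⟨isAlt_view2 G.omega_smooth.1 c y, fun v => hinj ?_, fun u v => ?_, fun v hv => ?_,
    G.c_oriented i y hy⟩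
  · rw [hJ, hJ, map_neg]
    exact G.J_acs.2 _ _
  · show G.omega _ (dsymm c y _) (dsymm c y _) = _
    rw [hJ, hJ]
    exact G.omega_inv _ _ _
  · show 0 < G.omega _ (dsymm c y v) (dsymm c y (viewJ G.J c y v))
    rw [hJ]
    exact G.omega_pos _ _ fun h => hv (hinj (by rw [h, map_zero]))

lemma Herm.symm {om : Bil} {J : Endo} (h : Herm om J) (u v : R4) : om u (J v) = om v (J u) := by
  have h1 := h.inv u (J v)
  rw [h.sq, map_neg, ← h.alt] at h1
  exact h1.symm

/-- `L` is symmetric. -/
theorem pair_opL_symm (hB : BaseFacts G) (hP : PointFacts G) (hnat : AlocNaturalStatement)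
    (u w : fieldsE G) : G.pair (opL G hnat u).1 w.1 = G.pair u.1 (opL G hnat w).1 := by
  have hu := Af_smooth G hnat u.2.1
  have hw := Af_smooth G hnat w.2.1
  rw [pair_comm]
  show G.pair w.1 (G.p20 _) = G.pair u.1 (G.p20 _)
  rw [pair_p20 G hP w.2.1 w.2.2 (Base.exact_closed hu).1,
    pair_p20 G hP u.2.1 u.2.2 (Base.exact_closed hw).1, pair_dA G hB w.2.1 hu, pair_dA G hB u.2.1 hw]
  congr 1
  refine Finset.sum_congr rfl fun i _ => setIntegral_congr_fun (G.c i).open_target.measurableSet
    fun y hy => ?_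
  simp only [eInt_Af G hnat i u.2.1 hy, eInt_Af G hnat i w.2.1 hy, (herm_view G i hy).symm]

/-- The kernel of `L` consists of closed fields. -/
theorem closed_of_opL (hB : BaseFacts G) (hP : PointFacts G) (hnat : AlocNaturalStatement)
    (u : fieldsE G) (hu : opL G hnat u = 0) : Closed2 u.1 := by
  have hA := Af_smooth G hnat u.2.1
  have h0 : G.pair u.1 (extD1 (Af G u.1)) = 0 := by
    rw [← pair_p20 G hP u.2.1 u.2.2 (Base.exact_closed hA).1,
      show G.p20 (extD1 (Af G u.1)) = 0 from congrArg Subtype.val hu]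
    simp [Geo.pair, Geo.W, top22]
  rw [pair_dA G hB u.2.1 hA, neg_eq_zero] at h0
  set e := fun i : Fin G.n => fun y : R4 => -((G.c i).target.indicator (eInt G i u.1 (Af G u.1)) y)
  have hnn : ∀ i y, 0 ≤ e i y := fun i y => by
    by_cases hy : y ∈ (G.c i).target
    · simp only [e, indicator_of_mem hy, eInt_Af G hnat i u.2.1 hy, neg_neg]
      refine mul_nonneg (mul_nonneg (hB.rho_nonneg i _) (herm_view G i hy).top_pos.le) ?_
      set v := xvec (view2 (G.c i) G.omega y) (fderiv ℝ (view2 (G.c i) u.1) y)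
      by_cases hv : v = 0
      · simp [hv]
      · exact ((herm_view G i hy).pos v hv).le
    · simp [e, indicator_of_notMem hy]
  have hint : ∀ i, Integrable (e i) := fun i => (pair_piece G hB i u.2.1 hA).1.neg
  have hzero : ∀ i, e i =ᵐ[volume] 0 := fun i => by
    rw [← integral_eq_zero_iff_of_nonneg (hnn i) (hint i)]
    have hsum : ∑ i, ∫ y, e i y = 0 := by
      simp only [e, integral_neg, integral_indicator (G.c _).open_target.measurableSet,
        Finset.sum_neg_distrib, h0, neg_zero]
    exact (Finset.sum_eq_zero_iff_of_nonneg fun i _ => integral_nonneg (hnn i)).1 hsum i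
      (Finset.mem_univ i)
  refine hB.closed_of_pair _ u.2.1 fun α hα => ?_
  rw [pair_dA G hB u.2.1 hα, neg_eq_zero]
  refine Finset.sum_eq_zero fun i _ => ?_
  refine integral_eq_zero_of_ae ?_
  filter_upwards [ae_restrict_mem (G.c i).open_target.measurableSet,
    ae_restrict_of_ae (hzero i)] with y hy h
  have hh := herm_view G i hy
  simp only [e, indicator_of_mem hy, eInt_Af G hnat i u.2.1 hy, neg_neg, Pi.zero_apply] at h
  show eInt G i u.1 α y = 0
  rw [eInt, top31c_apply hh.top_pos.ne']
  rcases mul_eq_zero.1 h with h1 | h1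
  · rcases mul_eq_zero.1 h1 with h2 | h2
    · rw [h2, zero_mul]
    · exact absurd h2 hh.top_pos.ne'
  · have hv : xvec (view2 (G.c i) G.omega y) (fderiv ℝ (view2 (G.c i) u.1) y) = 0 :=
      not_not.1 fun hv => (hh.pos _ hv).ne' h1
    simp [hv]

end Vale.Agent.P204.Full.Elliptic
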