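import Vale.Agent.P204.Full.Elliptic.Test

/-!
P204 elliptic module, part 3: kernel operators on tests, their `L²` bound and their transposes.
-/

open scoped ContDiff RealInnerProductSpace
open MeasureTheory Set

noncomputable section

namespace Vale.Agent.P204.Full.Elliptic

variable {V W : Type} [NormedAddCommGroup V] [InnerProductSpace ℝ V]
  [NormedAddCommGroup W] [InnerProductSpace ℝ W]
  {r : ℝ} {C : ℕ → ℝ} {k : R4 → R4 → V →L[ℝ] W}

lemma wt_eq_zero {r : ℝ} {z : R4} (hz : r ≤ ‖z‖) : wt r z = 0 :=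
  indicator_of_notMem (by simpa [Metric.mem_ball] using hz) _

lemma IsKernel.intOp_hasCompactSupport (hk : IsKernel r C k) (f : Test V) :
    HasCompactSupport (intOp k (f : R4 → V)) := by
  obtain ⟨R, hR⟩ := (Test.compact f).isCompact.isBounded.subset_closedBall (0 : R4)
  refine HasCompactSupport.of_support_subset_isCompact (isCompact_closedBall (0 : R4) (R + r)) ?_
  intro x hx
  by_contra hn
  refine hx (integral_eq_zero_of_ae ?_)
  filter_upwards [ae_ne_zero] with z hz
  by_cases hzr : r ≤ ‖z‖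
  · have := hk.norm_le hz x
    rw [wt_eq_zero hzr, mul_zero, norm_le_zero_iff] at this
    simp [this]
  · have : x - z ∉ tsupport (f : R4 → V) := fun hm => by
      have h2 := hR hm
      simp only [Metric.mem_closedBall, dist_zero_right, not_le] at h2 hn hzr
      have := norm_le_norm_sub_add x z
      linarith
    simp [image_eq_zero_of_notMem_tsupport this]

/-- A kernel operator on tests. -/
def IsKernel.op (hk : IsKernel r C k) (hr : 0 ≤ r) : Test V →ₗ[ℝ] Test W where
  toFun f := ⟨intOp k (f : R4 → V),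
    intOp_contDiff hk hr (Test.smooth f) (Test.exists_bound f).choose_spec,
    hk.intOp_hasCompactSupport f⟩
  map_add' f g := by
    obtain ⟨B, hB⟩ := Test.exists_bound f
    obtain ⟨B', hB'⟩ := Test.exists_bound g
    refine Subtype.ext (funext fun x => ?_)
    have i1 := hk.integrable (Test.smooth f).continuous (fun y => by simpa using hB 0 y) x
    have i2 := hk.integrable (Test.smooth g).continuous (fun y => by simpa using hB' 0 y) x
    simpa [intOp] using integral_add i1 i2
  map_smul' c f := Subtype.ext (funext fun x => by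
    simpa [intOp] using integral_smul c fun z => k x z ((f : R4 → V) (x - z)))

lemma IsKernel.op_apply (hk : IsKernel r C k) (hr : 0 ≤ r) (f : Test V) (x : R4) :
    (hk.op hr f : R4 → W) x = intOp k (f : R4 → V) x := rfl

/-- Integrand of the Schur test. -/
def schurF (C0 r t : ℝ) (u f : R4 → ℝ) (p : R4 × R4) : ℝ :=
  C0 * (wt r p.2 * (t ^ 2 * u p.1) + wt r p.2 * f (p.1 - p.2)) / 2

lemma schur_point {C0 a b w N t : ℝ} (ha : 0 ≤ a) (ht : 0 ≤ t) (hC : 0 ≤ C0 * w)
    (hN : N ≤ C0 * w * b) :
    t * a * N ≤ C0 * (w * (t ^ 2 * a ^ 2) + w * b ^ 2) / 2 := by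
  have h1 := mul_le_mul_of_nonneg_left hN (mul_nonneg ht ha)
  have h2 := mul_le_mul_of_nonneg_left (two_mul_le_add_sq (t * a) b) hC
  nlinarith [h1, h2]

lemma IsKernel.schur_slice (hk : IsKernel r C k) (f : Test V) {t : ℝ} (ht : 0 ≤ t) (x : R4) :
    t * ‖intOp k (f : R4 → V) x‖ ^ 2 ≤ ∫ z, schurF (C 0) r t
      (fun y => ‖intOp k (f : R4 → V) y‖ ^ 2) (fun y => ‖(f : R4 → V) y‖ ^ 2) (x, z) := by
  obtain ⟨B, hB⟩ := Test.exists_bound f
  have h0 : ∀ y, ‖(f : R4 → V) y‖ ≤ B 0 := fun y => by simpa using hB 0 y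
  set a := ‖intOp k (f : R4 → V) x‖
  have i0 := hk.integrable (Test.smooth f).continuous h0 x
  have g2 : Integrable fun z => wt r z * ‖(f : R4 → V) (x - z)‖ ^ 2 := by
    refine (wt_integrable r).mul_bdd (c := B 0 ^ 2)
      (((Test.smooth f).continuous.comp (continuous_const.sub continuous_id)).norm.pow
        2).aestronglyMeasurable (.of_forall fun z => ?_)
    rw [Real.norm_eq_abs, abs_of_nonneg (by positivity)]
    exact pow_le_pow_left₀ (norm_nonneg _) (h0 _) 2
  have hi := ((((wt_integrable r).mul_const (t ^ 2 * a ^ 2)).add g2).const_mul (C 0)).div_const 2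
  calc t * a ^ 2 = t * a * a := by ring
    _ ≤ t * a * ∫ z, ‖k x z ((f : R4 → V) (x - z))‖ :=
        mul_le_mul_of_nonneg_left (norm_integral_le_integral_norm _)
          (mul_nonneg ht (norm_nonneg _))
    _ = ∫ z, t * a * ‖k x z ((f : R4 → V) (x - z))‖ := (integral_const_mul _ _).symm
    _ ≤ _ := by
      refine integral_mono_ae (i0.norm.const_mul _) hi ?_
      filter_upwards [ae_ne_zero] with z hz
      exact schur_point (norm_nonneg _) ht (mul_nonneg (hk.nonneg 0) (wt_nonneg r z))
        (((k x z).le_opNorm _).trans (mul_le_mul_of_nonneg_right (hk.norm_le hz x) (norm_nonneg _)))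

lemma schur_total {C0 r t : ℝ} (hr : 0 ≤ r) {u f : R4 → ℝ} (hu : Integrable u) (hf : Integrable f) :
    Integrable (schurF C0 r t u f) (volume.prod volume) ∧
      ∫ p, schurF C0 r t u f p ∂(volume.prod volume)
        = wMass * C0 * r * (t ^ 2 * (∫ x, u x) + ∫ x, f x) / 2 := by
  have j1 : Integrable (fun p : R4 × R4 => wt r p.2 * (t ^ 2 * u p.1)) (volume.prod volume) := by
    simpa [mul_comm] using Integrable.mul_prod (hu.const_mul (t ^ 2)) (wt_integrable r)
  have j2 : Integrable (fun p : R4 × R4 => wt r p.2 * f (p.1 - p.2)) (volume.prod volume) :=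
    Integrable.convolution_integrand (ContinuousLinearMap.mul ℝ ℝ) (wt_integrable r) hf
  refine ⟨((j1.add j2).const_mul C0).div_const 2, ?_⟩
  have p1 : ∫ p : R4 × R4, wt r p.2 * (t ^ 2 * u p.1) ∂(volume.prod volume)
      = wMass * r * (t ^ 2 * ∫ x, u x) := by
    have e : (fun p : R4 × R4 => wt r p.2 * (t ^ 2 * u p.1))
        = fun p => (t ^ 2 * u p.1) * wt r p.2 := funext fun p => mul_comm _ _
    rw [e, integral_prod_mul (fun x => t ^ 2 * u x) (wt r), integral_const_mul, wt_integral hr]
    ring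
  have p2 : ∫ p : R4 × R4, wt r p.2 * f (p.1 - p.2) ∂(volume.prod volume)
      = wMass * r * ∫ x, f x := by
    rw [integral_prod_symm _ j2]
    simp only [integral_const_mul, integral_sub_right_eq_self f]
    rw [integral_mul_const, wt_integral hr]
  simp only [schurF]
  rw [integral_div, integral_const_mul, integral_add j1 j2, p1, p2]
  ring

lemma schur_solve {c U F : ℝ} (c0 : 0 ≤ c)
    (key : ∀ t, 0 < t → t * U ≤ c * (t ^ 2 * U + F) / 2) : U ≤ c ^ 2 * F := by
  rcases c0.eq_or_lt with h0 | hpos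
  · have := key 1 one_pos
    rw [← h0] at this ⊢
    linarith
  · have := key (1 / c) (by positivity)
    field_simp at this
    nlinarith [this]

lemma integrable_sq_norm (g : Test W) : Integrable fun x => ‖(g : R4 → W) x‖ ^ 2 := by
  refine ((Test.smooth g).continuous.norm.pow 2).integrable_of_hasCompactSupport ?_
  refine (Test.compact g).mono fun x hx h => hx ?_
  change ‖(g : R4 → W) x‖ ^ 2 = 0
  rw [h, norm_zero]
  norm_num

lemma IsKernel.norm_op_le (hk : IsKernel r C k) (hr : 0 ≤ r) (f : Test V) :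
    ‖toL2 W (hk.op hr f)‖ ≤ wMass * C 0 * r * ‖toL2 V f‖ := by
  have c0 : 0 ≤ wMass * C 0 * r := mul_nonneg (mul_nonneg wMass_nonneg (hk.nonneg 0)) hr
  have fint := integrable_sq_norm f
  have uint := integrable_sq_norm (hk.op hr f)
  have main : ‖toL2 W (hk.op hr f)‖ ^ 2 ≤ (wMass * C 0 * r) ^ 2 * ‖toL2 V f‖ ^ 2 := by
    rw [norm_toL2_sq, norm_toL2_sq]
    refine schur_solve c0 fun t ht => ?_
    obtain ⟨hi, he⟩ := schur_total (C0 := C 0) (t := t) hr uint fint
    rw [← integral_const_mul, ← he, integral_prod _ hi]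
    exact integral_mono (uint.const_mul t) hi.integral_prod_left fun x => hk.schur_slice f ht.le x
  refine (sq_le_sq₀ (norm_nonneg _) (mul_nonneg c0 (norm_nonneg _))).1 ?_
  rw [mul_pow]
  exact main

variable [FiniteDimensional ℝ V] [FiniteDimensional ℝ W]

/-- The adjoint as a linear isometry. -/
def adjI : (V →L[ℝ] W) ≃ₗᵢ[ℝ] (W →L[ℝ] V) where
  toFun A := ContinuousLinearMap.adjoint A
  invFun A := ContinuousLinearMap.adjoint A
  left_inv A := ContinuousLinearMap.adjoint_adjoint A
  right_inv A := ContinuousLinearMap.adjoint_adjoint A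
  map_add' A B := map_add _ A B
  map_smul' c A := by simp
  norm_map' A := LinearIsometryEquiv.norm_map ContinuousLinearMap.adjoint A

/-- The transposed kernel. -/
def transKer (k : R4 → R4 → V →L[ℝ] W) : R4 → R4 → W →L[ℝ] V :=
  fun x z => ContinuousLinearMap.adjoint (k (x - z) (-z))

lemma wt_neg (r : ℝ) (z : R4) : wt r (-z) = wt r z := by simp [wt_eq_comp]

lemma IsKernel.transKer (hk : IsKernel r C k) : IsKernel r C (transKer k) where
  nonneg := hk.nonneg
  bound m x z hz := by
    have h := LinearIsometryEquiv.norm_iteratedFDeriv_comp_left (𝕜 := ℝ) (G := W →L[ℝ] V)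
      adjI (fun y => k (y - z) (-z)) x (i := m)
    refine h.trans_le ?_
    rw [iteratedFDeriv_comp_sub' (f := fun y => k y (-z))]
    simpa [wt_neg] using hk.bound m (x - z) (-z) (neg_ne_zero.2 hz)
  smooth := by
    have h : ContDiffOn ℝ ∞ (fun p : R4 × R4 => k (p.1 - p.2) (-p.2)) {p | p.2 ≠ 0} :=
      hk.smooth.comp ((contDiff_fst.sub contDiff_snd).prodMk contDiff_snd.neg).contDiffOn
        fun p hp => neg_ne_zero.2 hp
    exact (LinearIsometryEquiv.contDiff (F := W →L[ℝ] V) (n := ∞)
      (adjI (V := V) (W := W))).comp_contDiffOn h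

lemma IsKernel.inner_op (hk : IsKernel r C k) (hr : 0 ≤ r) (f : Test V) (g : Test W) :
    ⟪toL2 W (hk.op hr f), toL2 W g⟫ = ⟪toL2 V f, toL2 V (hk.transKer.op hr g)⟫ := by
  rw [inner_toL2, inner_toL2]
  simp only [IsKernel.op_apply, intOp]
  obtain ⟨B, hB⟩ := Test.exists_bound f
  obtain ⟨B', hB'⟩ := Test.exists_bound g
  have hf0 : ∀ y, ‖(f : R4 → V) y‖ ≤ B 0 := fun y => by simpa using hB 0 y
  have hg0 : ∀ y, ‖(g : R4 → W) y‖ ≤ B' 0 := fun y => by simpa using hB' 0 y
  have e1 : ∀ x, ⟪∫ z, k x z ((f : R4 → V) (x - z)), (g : R4 → W) x⟫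
      = ∫ z, ⟪k x z ((f : R4 → V) (x - z)), (g : R4 → W) x⟫ := by
    intro x
    rw [real_inner_comm, ← integral_inner (hk.integrable (Test.smooth f).continuous hf0 x)]
    exact integral_congr_ae (.of_forall fun z => real_inner_comm _ _)
  have e2 : ∀ x, ⟪(f : R4 → V) x, ∫ z, Elliptic.transKer k x z ((g : R4 → W) (x - z))⟫
      = ∫ z, ⟪k (x - z) (-z) ((f : R4 → V) x), (g : R4 → W) (x - z)⟫ := by
    intro x
    rw [← integral_inner (hk.transKer.integrable (Test.smooth g).continuous hg0 x)]
    exact integral_congr_ae (.of_forall fun z => ContinuousLinearMap.adjoint_inner_right _ _ _)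
  simp only [e1, e2]
  have hG : ContinuousOn (fun p : R4 × R4 => ⟪k p.1 p.2 ((f : R4 → V) (p.1 - p.2)), (g : R4 → W) p.1⟫)
      {p | p.2 ≠ 0} :=
    (hk.smooth.continuousOn.clm_apply ((Test.smooth f).continuous.comp
      (continuous_fst.sub continuous_snd)).continuousOn).inner
      ((Test.smooth g).continuous.comp continuous_fst).continuousOn
  have hae : ∀ᵐ p : R4 × R4 ∂(volume.prod volume), p.2 ≠ 0 :=
    (Measure.quasiMeasurePreserving_snd (μ := (volume : Measure R4)) (ν := volume)).ae ae_ne_zero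
  have hm := hG.aestronglyMeasurable (μ := volume.prod volume) isOpen_offZero.measurableSet
  rw [Measure.restrict_eq_self_of_ae_mem (s := {p : R4 × R4 | p.2 ≠ 0}) hae] at hm
  have gint : Integrable fun x => ‖(g : R4 → W) x‖ :=
    (Test.smooth g).continuous.norm.integrable_of_hasCompactSupport (Test.compact g).norm
  have hint : Integrable (fun p : R4 × R4 => ⟪k p.1 p.2 ((f : R4 → V) (p.1 - p.2)), (g : R4 → W) p.1⟫)
      (volume.prod volume) := by
    refine ((Integrable.mul_prod gint (wt_integrable r)).const_mul (C 0 * B 0)).mono' hm ?_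
    filter_upwards [hae] with p hp
    refine (norm_inner_le_norm _ _).trans ?_
    have a := ((k p.1 p.2).le_opNorm ((f : R4 → V) (p.1 - p.2))).trans
      (mul_le_mul (hk.norm_le hp p.1) (hf0 _) (norm_nonneg _)
        (mul_nonneg (hk.nonneg 0) (wt_nonneg r p.2)))
    calc _ ≤ C 0 * wt r p.2 * B 0 * ‖(g : R4 → W) p.1‖ :=
          mul_le_mul_of_nonneg_right a (norm_nonneg _)
      _ = C 0 * B 0 * (‖(g : R4 → W) p.1‖ * wt r p.2) := by ring
  rw [integral_integral_swap hint]
  have e3 : ∀ z, ∫ x, ⟪k x z ((f : R4 → V) (x - z)), (g : R4 → W) x⟫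
      = ∫ y, ⟪k (y + z) z ((f : R4 → V) y), (g : R4 → W) (y + z)⟫ := by
    intro z
    rw [← integral_add_right_eq_self _ z]
    simp only [add_sub_cancel_right]
  simp only [e3]
  have hadd : Integrable (fun p : R4 × R4 => ⟪k (p.1 + p.2) p.2 ((f : R4 → V) p.1),
      (g : R4 → W) (p.1 + p.2)⟫) (volume.prod volume) := by
    have h := ((measurePreserving_add_prod (μ := (volume : Measure R4)) (ν := volume)
      ).integrable_comp hint.aestronglyMeasurable).2 hint
    simpa [Function.comp_def] using h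
  rw [← integral_integral_swap hadd]
  refine integral_congr_ae (.of_forall fun y => ?_)
  simp only
  rw [← integral_neg_eq_self]
  simp [sub_eq_add_neg]

end Vale.Agent.P204.Full.Elliptic
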