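import Vale.Agent.P204.Full.Elliptic.Charts
import Vale.Agent.P204.Full.Elliptic.Abstract

/-!
P204 elliptic module: weighted lifts of fields to tests, their adjoint projections, and `L²` bounds.
-/

open scoped Manifold ContDiff Topology RealInnerProductSpace
open MeasureTheory Set Filter

noncomputable section

namespace Vale.Agent.P204.Full.Elliptic

universe u

/-- Coordinates of a form in an orthonormal pair. -/
def coordL (e : Fin 2 → Bil) : Bil →L[ℝ] R2 :=
  LinearMap.toContinuousLinearMap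
    { toFun := fun b => WithLp.toLp 2 fun a => top22 b (e a)
      map_add' := fun a b => by ext i; simp [top22_add_left]
      map_smul' := fun r b => by ext i; simp [top22_smul_left] }

lemma coordL_apply (e : Fin 2 → Bil) (b : Bil) (a : Fin 2) : coordL e b a = top22 b (e a) := by
  simp [coordL]

lemma frameL_apply (e : Fin 2 → Bil) (v : R2) : frameL e v = ∑ a, v a • e a := by
  simp [frameL]

lemma IsAlt.frame {e : Fin 2 → Bil} (h : ∀ a, IsAlt (e a)) (v : R2) : IsAlt (frameL e v) := by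
  rw [frameL_apply, Fin.sum_univ_two]
  exact ((h 0).smul _).add ((h 1).smul _)

lemma pull_frame {J : Endo} {e : Fin 2 → Bil} (h : AntiPair J e) (v : R2) :
    pullBil J (frameL e v) = -frameL e v := by
  rw [frameL_apply, Fin.sum_univ_two, pullBil_add, pullBil_smul, pullBil_smul, h.anti, h.anti]
  module

lemma top22_frame (b : Bil) (e : Fin 2 → Bil) (v : R2) :
    top22 b (frameL e v) = ⟪coordL e b, v⟫ := by
  rw [frameL_apply, Fin.sum_univ_two, top22_comm, top22_add_left, top22_smul_left, top22_smul_left,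
    PiLp.inner_apply, Fin.sum_univ_two]
  simp [coordL_apply, top22_comm b]

section Smooth

variable {e : R4 → Fin 2 → Bil} {s : Set R4}

lemma cdOn_frameL (he : ∀ a, ContDiffOn ℝ ∞ (fun y => e y a) s) :
    ContDiffOn ℝ ∞ (fun y => frameL (e y)) s := by
  rw [contDiffOn_clm_apply]
  intro v
  simp only [frameL_apply, Fin.sum_univ_two]
  exact ((he 0).const_smul _).add ((he 1).const_smul _)

lemma cdOn_coordL (he : ∀ a, ContDiffOn ℝ ∞ (fun y => e y a) s) :
    ContDiffOn ℝ ∞ (fun y => coordL (e y)) s := by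
  rw [contDiffOn_clm_apply]
  intro b
  rw [contDiffOn_euclidean]
  intro a
  simp only [coordL_apply]
  exact Base.cdOn_top22 contDiffOn_const (he a)

end Smooth

variable {X : Type u} [TopologicalSpace X] [T2Space X] [CompactSpace X] [ChartedSpace R4 X]
  [IsManifold 𝓘(ℝ, R4) ∞ X] {G : Geo X} (C : Cfg G)

/-- The values of all local coefficients. -/
abbrev Cfg.V : Type := EuclideanSpace ℝ (C.ι × Fin 2)

/-- The `k`-th pair of coefficients. -/
def Cfg.prj (k : C.ι) : C.V →L[ℝ] R2 :=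
  ∑ b, (EuclideanSpace.proj (k, b) : C.V →L[ℝ] ℝ).smulRight (EuclideanSpace.single b 1)

/-- Its adjoint. -/
def Cfg.inj (k : C.ι) : R2 →L[ℝ] C.V :=
  ∑ b, (EuclideanSpace.proj b : R2 →L[ℝ] ℝ).smulRight (EuclideanSpace.single (k, b) 1)

lemma Cfg.prj_apply (k : C.ι) (v : C.V) (b : Fin 2) : C.prj k v b = v (k, b) := by
  fin_cases b <;> simp [Cfg.prj]

lemma Cfg.inj_apply (k l : C.ι) (a : R2) (b : Fin 2) :
    C.inj k a (l, b) = if l = k then a b else 0 := by
  by_cases h : l = k
  · subst h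
    fin_cases b <;> simp [Cfg.inj]
  · simp [Cfg.inj, h, Prod.ext_iff]

lemma Cfg.prj_inj (k l : C.ι) (a : R2) : C.prj l (C.inj k a) = if l = k then a else 0 := by
  ext b
  rw [C.prj_apply, C.inj_apply]
  by_cases h : l = k <;> simp [h]

lemma Cfg.prj_sum (f : C.ι → R2) (l : C.ι) : C.prj l (∑ k, C.inj k (f k)) = f l := by
  simp [C.prj_inj]

lemma Cfg.inner_eq (x y : C.V) : ⟪x, y⟫ = ∑ k, ⟪C.prj k x, C.prj k y⟫ := by
  simp only [PiLp.inner_apply, C.prj_apply]
  exact Fintype.sum_prod_type _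

/-- A weight on the chart balls. -/
structure Cfg.Wt (C : Cfg G) (w : C.ι → R4 → ℝ) : Prop where
  smooth : ∀ k, ContDiff ℝ ∞ (w k)
  supp : ∀ k, tsupport (w k) ⊆ Metric.ball (C.p k) (3 * C.r k)

lemma Cfg.Wt.target {w : C.ι → R4 → ℝ} (hw : C.Wt w) (k : C.ι) :
    tsupport (w k) ⊆ (G.c (C.idx k)).target := (hw.supp k).trans (C.ball_sub k)

lemma Cfg.Wt.compact {w : C.ι → R4 → ℝ} (hw : C.Wt w) (k : C.ι) : HasCompactSupport (w k) :=
  Metric.isCompact_of_isClosed_isBounded (isClosed_tsupport _)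
    (Metric.isBounded_ball.subset (hw.supp k))

lemma Cfg.wt_chi : C.Wt C.chi :=
  ⟨C.chi_smooth, fun k => (C.chi_small k).trans
    (Metric.closedBall_subset_ball (by linarith [C.r_pos k]))⟩

/-- The weighted frame map. -/
def Cfg.Ew (w : C.ι → R4 → ℝ) (k : C.ι) (y : R4) : R2 →L[ℝ] Bil := w k y • frameL (C.e k y)

/-- The weighted coordinate map. -/
def Cfg.Cw (w : C.ι → R4 → ℝ) (k : C.ι) (y : R4) : Bil →L[ℝ] R2 := w k y • coordL (C.e k y)

lemma Cfg.Ew_smooth {w : C.ι → R4 → ℝ} (hw : C.Wt w) (k : C.ι) : ContDiff ℝ ∞ (C.Ew w k) :=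
  cut_smooth (F := R2 →L[ℝ] Bil) (hw.smooth k) (hw.supp k) Metric.isOpen_ball
    (cdOn_frameL (C.e_smooth k))

lemma Cfg.Cw_smooth {w : C.ι → R4 → ℝ} (hw : C.Wt w) (k : C.ι) : ContDiff ℝ ∞ (C.Cw w k) :=
  cut_smooth (F := Bil →L[ℝ] R2) (hw.smooth k) (hw.supp k) Metric.isOpen_ball
    (cdOn_coordL (C.e_smooth k))

/-- The weighted lift of a field. -/
def Cfg.liftFun (w : C.ι → R4 → ℝ) (u : X → Bil) (y : R4) : C.V :=
  ∑ k, C.inj k (C.Cw w k y (view2 (G.c (C.idx k)) u y))

lemma Cfg.liftFun_test {w : C.ι → R4 → ℝ} (hw : C.Wt w) (u : fieldsE G) :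
    ContDiff ℝ ∞ (C.liftFun w u.1) ∧ HasCompactSupport (C.liftFun w u.1) := by
  have h : ∀ k, ContDiff ℝ ∞ fun y => C.Cw w k y (view2 (G.c (C.idx k)) u.1 y) := fun k => by
    have h1 := cut_smooth (F := R2) (hw.smooth k) (hw.supp k) Metric.isOpen_ball
      ((cdOn_coordL (C.e_smooth k)).clm_apply ((Base.smooth_view2 u.2.1 (G.c_mem _)).mono
        (C.ball_sub k)))
    exact h1
  refine ⟨ContDiff.sum fun k _ => (C.inj k).contDiff.comp (h k), ?_⟩
  refine HasCompactSupport.of_support_subset_isCompact (K := ⋃ k, tsupport (w k))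
    (isCompact_iUnion fun k => hw.compact C k) fun y hy => ?_
  by_contra hn
  refine hy (Finset.sum_eq_zero fun k _ => ?_)
  have hk : w k y = 0 := image_eq_zero_of_notMem_tsupport fun h => hn (mem_iUnion.2 ⟨k, h⟩)
  simp [Cfg.Cw, hk]

/-- The weighted lift as a linear map. -/
def Cfg.lift {w : C.ι → R4 → ℝ} (hw : C.Wt w) : fieldsE G →ₗ[ℝ] Test C.V where
  toFun u := ⟨C.liftFun w u.1, C.liftFun_test hw u⟩
  map_add' u v := Subtype.ext (funext fun y => by
    show C.liftFun w (u.1 + v.1) y = C.liftFun w u.1 y + C.liftFun w v.1 y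
    simp only [Cfg.liftFun, Full.view2_add, Pi.add_apply, map_add, Finset.sum_add_distrib])
  map_smul' r u := Subtype.ext (funext fun y => by
    show C.liftFun w (r • u.1) y = r • C.liftFun w u.1 y
    simp only [Cfg.liftFun, Full.view2_smul, Pi.smul_apply, map_smul, Finset.smul_sum])

lemma Cfg.prj_lift {w : C.ι → R4 → ℝ} (hw : C.Wt w) (u : fieldsE G) (y : R4) (k : C.ι) :
    C.prj k ((C.lift hw u : R4 → C.V) y) = C.Cw w k y (view2 (G.c (C.idx k)) u.1 y) :=
  C.prj_sum _ k

/-- One piece of the projection. -/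
def Cfg.piece (w : C.ι → R4 → ℝ) (g : R4 → C.V) (k : C.ι) : X → Bil :=
  push2 (G.c (C.idx k)) fun y => C.Ew w k y (C.prj k (g y))

lemma Cfg.Ew_alt {w : C.ι → R4 → ℝ} (hw : C.Wt w) (k : C.ι) (y : R4) (v : R2) :
    IsAlt (C.Ew w k y v) := by
  by_cases h : y ∈ tsupport (w k)
  · exact (IsAlt.frame (C.e_pair k y (hw.supp k h)).alt v).smul _
  · simp [Cfg.Ew, image_eq_zero_of_notMem_tsupport h, isAlt_zero]

lemma Cfg.piece_spec {w : C.ι → R4 → ℝ} (hw : C.Wt w) (g : Test C.V) (k : C.ι) :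
    C.piece w g k ∈ fieldsE G ∧ ∀ y ∈ (G.c (C.idx k)).target,
      view2 (G.c (C.idx k)) (C.piece w g k) y = C.Ew w k y (C.prj k ((g : R4 → C.V) y)) := by
  set θ := fun y => C.Ew w k y (C.prj k ((g : R4 → C.V) y)) with hθ
  have hs : ContDiff ℝ ∞ θ :=
    (C.Ew_smooth hw k).clm_apply ((C.prj k).contDiff.comp (Test.smooth g))
  have hsub : Function.support θ ⊆ tsupport (w k) := fun y hy => by
    by_contra h
    exact hy (by simp [θ, Cfg.Ew, image_eq_zero_of_notMem_tsupport h])
  have hc : HasCompactSupport θ := HasCompactSupport.of_support_subset_isCompact (hw.compact C k) hsub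
  have hts : tsupport θ ⊆ (G.c (C.idx k)).target :=
    (closure_minimal hsub (isClosed_tsupport _)).trans (hw.target C k)
  obtain ⟨h1, h2⟩ := Base.push2_smooth (G.c_mem _) (fun y => C.Ew_alt hw k y _) hs hc hts
  refine ⟨⟨h1, fun x u v => ?_⟩, h2⟩
  show C.piece w g k x (G.J x u) (G.J x v) = _
  by_cases hx : x ∈ (G.c (C.idx k)).source
  · set y := G.c (C.idx k) x with hy
    have hJ : ∀ v, Base.dchart (G.c (C.idx k)) x (G.J x v) =
        Base.viewJ G.J (G.c (C.idx k)) y (Base.dchart (G.c (C.idx k)) x v) := fun v => by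
      have h := congrArg (fun f : Endo => f v) (Base.dsymm_comp_dchart (G.c_mem (C.idx k)) hx)
      simp only [Base.viewJ, hy, (G.c (C.idx k)).left_inv hx, ContinuousLinearMap.comp_apply]
      rw [show dsymm (G.c (C.idx k)) (G.c (C.idx k) x) (Base.dchart (G.c (C.idx k)) x v) = v from h]
    simp only [Cfg.piece, Base.push2_pos _ hx, pullBil_apply, hJ]
    show C.Ew w k y _ _ _ = -(C.Ew w k y _ _ _)
    by_cases h : y ∈ tsupport (w k)
    · have h3 := congrArg (fun b : Bil => b (Base.dchart (G.c (C.idx k)) x u)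
        (Base.dchart (G.c (C.idx k)) x v))
        (pull_frame (C.e_pair k y (hw.supp k h)) (C.prj k ((g : R4 → C.V) y)))
      simp only [pullBil_apply, neg_apply] at h3
      simp only [Cfg.Ew, smul_apply, smul_eq_mul]
      rw [← hy, h3, mul_neg]
    · simp [Cfg.Ew, image_eq_zero_of_notMem_tsupport h]
  · simp [Cfg.piece, push2, hx]

lemma Cfg.piece_add (w : C.ι → R4 → ℝ) (f g : R4 → C.V) (k : C.ι) :
    C.piece w (f + g) k = C.piece w f k + C.piece w g k := funext fun x => by
  simp only [Cfg.piece, push2, Pi.add_apply, map_add]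
  split
  · exact pullBil_add _ _ _
  · exact (add_zero (0 : Bil)).symm

lemma Cfg.piece_smul (w : C.ι → R4 → ℝ) (r : ℝ) (g : R4 → C.V) (k : C.ι) :
    C.piece w (r • g) k = r • C.piece w g k := funext fun x => by
  simp only [Cfg.piece, push2, Pi.smul_apply, map_smul]
  split
  · exact pullBil_smul _ _ _
  · exact (smul_zero r).symm

/-- One piece of the projection, as a field. -/
def Cfg.pieceL {w : C.ι → R4 → ℝ} (hw : C.Wt w) (k : C.ι) : Test C.V →ₗ[ℝ] fieldsE G where
  toFun g := ⟨C.piece w g k, (C.piece_spec hw g k).1⟩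
  map_add' f g := Subtype.ext (C.piece_add w f g k)
  map_smul' r g := Subtype.ext (C.piece_smul w r g k)

/-- The projection, adjoint to the lift. -/
def Cfg.proj {w : C.ι → R4 → ℝ} (hw : C.Wt w) : Test C.V →ₗ[ℝ] fieldsE G :=
  ∑ k, C.pieceL hw k

lemma Cfg.proj_coe {w : C.ι → R4 → ℝ} (hw : C.Wt w) (g : Test C.V) :
    (C.proj hw g).1 = ∑ k, C.piece w g k := by
  simp [Cfg.proj, Cfg.pieceL]

variable [MeasurableSpace X] [BorelSpace X]

lemma Cfg.pair_piece (hB : BaseFacts G) {w : C.ι → R4 → ℝ} (hw : C.Wt w) (u : fieldsE G)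
    (g : Test C.V) (k : C.ι) :
    Integrable (fun y => ⟪C.prj k ((C.lift hw u : R4 → C.V) y), C.prj k ((g : R4 → C.V) y)⟫) ∧
      G.pair u.1 (C.piece w g k) =
        ∫ y, ⟪C.prj k ((C.lift hw u : R4 → C.V) y), C.prj k ((g : R4 → C.V) y)⟫ := by
  refine ⟨?_, ?_⟩
  · refine (((C.prj k).continuous.comp (Test.smooth _).continuous).inner
      ((C.prj k).continuous.comp (Test.smooth g).continuous)).integrable_of_hasCompactSupport ?_
    refine (Test.compact g).mono fun y hy h => hy ?_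
    simp [h]
  obtain ⟨hmem, hview⟩ := C.piece_spec hw g k
  set c := G.c (C.idx k)
  rw [Geo.pair, hB.vol_chart (C.idx k) _ (hB.pair_integrable _ _ (hB.smooth_cont _ u.2.1)
    (hB.smooth_cont _ hmem.1)) fun x hx => by
      by_contra h
      exact hx (by simp [Cfg.piece, push2, h, Geo.W, top22])]
  have h : ∀ y, y ∈ c.target →
      G.W (c.symm y) (u.1 (c.symm y)) (C.piece w g k (c.symm y)) *
        top22 (view2 c G.omega y) (view2 c G.omega y) =
      ⟪C.prj k ((C.lift hw u : R4 → C.V) y), C.prj k ((g : R4 → C.V) y)⟫ := fun y hy => by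
    obtain ⟨hne, hW⟩ := hB.W_view c (G.c_mem _) u.1 (C.piece w g k) u.2.1.1 hmem.1.1 y hy
    rw [hW, div_mul_cancel₀ _ hne, hview y hy, C.prj_lift, Cfg.Ew, Cfg.Cw]
    simp only [smul_apply]
    rw [top22_comm, top22_smul_left, top22_comm, top22_frame, real_inner_smul_left]
  rw [setIntegral_congr_fun c.open_target.measurableSet h,
    setIntegral_eq_integral_of_forall_compl_eq_zero fun y hy => ?_]
  have hk : w k y = 0 := image_eq_zero_of_notMem_tsupport fun h => hy (hw.target C k h)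
  rw [C.prj_lift, Cfg.Cw, hk]
  simp

/-- The lift is adjoint to the projection. -/
theorem Cfg.adjoint (hB : BaseFacts G) {w : C.ι → R4 → ℝ} (hw : C.Wt w) (u : fieldsE G)
    (g : Test C.V) :
    G.pair u.1 (C.proj hw g).1 = ⟪toL2 C.V (C.lift hw u), toL2 C.V g⟫ := by
  have hp := fun k => C.pair_piece hB hw u g k
  rw [inner_toL2, C.proj_coe]
  simp only [C.inner_eq]
  rw [integral_finsetSum _ fun k _ => (hp k).1]
  simp only [← (hp _).2, Geo.pair]
  have hint : ∀ k, Integrable (fun x => G.W x (u.1 x) (C.piece w g k x)) G.vol := fun k =>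
    hB.pair_integrable _ _ (hB.smooth_cont _ u.2.1) (hB.smooth_cont _ (C.piece_spec hw g k).1.1)
  rw [← integral_finsetSum _ fun k _ => hint k]
  refine integral_congr_ae (.of_forall fun x => ?_)
  simp only [Finset.sum_apply]
  have h0 : G.W x (u.1 x) 0 = 0 := by simp [Geo.W, top22]
  exact map_sum (⟨⟨G.W x (u.1 x), h0⟩, fun a b => G.W_add_right x _ a b⟩ : Bil →+ ℝ) _ _

omit [MeasurableSpace X] [BorelSpace X] in
/-- Lifting and projecting with the same weight multiplies by the sum of the squared weights. -/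
theorem Cfg.proj_lift_eq (hspan : AntiSpanStatement) {w : C.ι → R4 → ℝ} (hw : C.Wt w)
    (u : fieldsE G) (x : X) :
    (C.proj hw (C.lift hw u)).1 x = (∑ k, ext0 (G.c (C.idx k)) (w k) x ^ 2) • u.1 x := by
  rw [C.proj_coe, Finset.sum_apply, Finset.sum_smul]
  refine Finset.sum_congr rfl fun k _ => ?_
  by_cases hx : x ∈ (G.c (C.idx k)).source
  · set c := G.c (C.idx k) with hc
    simp only [Cfg.piece, Base.push2_pos _ hx, ext0, indicator_of_mem hx, C.prj_lift, ← hc]
    by_cases h : c x ∈ tsupport (w k)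
    · set b := view2 c u.1 (c x) with hb
      have he := C.e_pair k _ (hw.supp k h)
      have hanti : pullBil (Base.viewJ G.J c (c x)) b = -b := by
        rw [hb, ← Base.view2_pullJ G.J u.1 (G.c_mem _) (c.map_source hx)]
        show pullBil (dsymm c (c x)) (pullBil (G.J (c.symm (c x))) (u.1 (c.symm (c x)))) =
          -pullBil (dsymm c (c x)) (u.1 (c.symm (c x)))
        rw [c.left_inv hx, G.anti_pull u.2.2 x]
        rfl
      have hexp := hspan (view2 c G.omega (c x)) (Base.viewJ G.J c (c x)) (C.e k (c x))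
        (herm_view G _ (c.map_source hx)) he b (Base.isAlt_view2 u.2.1.1 _ _) hanti
      have h1 : C.Ew w k (c x) (C.Cw w k (c x) b) = w k (c x) ^ 2 • b := by
        conv_rhs => rw [hexp]
        simp only [Cfg.Ew, Cfg.Cw, smul_apply, map_smul, smul_smul, ← pow_two]
        rw [frameL_apply]
        simp only [coordL_apply]
      rw [h1, pullBil_smul, hb, view2, c.left_inv hx, ← Base.pullBil_comp,
        Base.dsymm_comp_dchart (G.c_mem _) hx, Base.pullBil_id]
    · simp [Cfg.Ew, image_eq_zero_of_notMem_tsupport h, Base.pullBil_zero]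
  · simp [Cfg.piece, push2, hx, ext0]

end Vale.Agent.P204.Full.Elliptic
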