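import Vale.Agent.P204.Full.Elliptic.System
import Vale.Agent.P204.Full.Elliptic.Alg
import Vale.Agent.P204.Full.Point.Frame
import Vale.Agent.P204.Full.Interfaces

/-!
P204 elliptic module: `T b = P b + d A d (U b)` is a bounded right inverse of `θ ↦ θ^{20}` on closed forms.
-/

open scoped Manifold ContDiff Topology RealInnerProductSpace
open MeasureTheory Set Filter

noncomputable section

namespace Vale.Agent.P204.Full.Elliptic

universe u

section Pointwise

lemma norm_d1At_le (α : R4 → Cov) (y : R4) : ‖d1At α y‖ ≤ 2 * ‖fderiv ℝ α y‖ := by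
  refine (fderiv ℝ α y - (fderiv ℝ α y).flip).opNorm_le_bound₂ (by positivity) fun u v => ?_
  have h1 := (fderiv ℝ α y).le_opNorm₂ u v
  have h2 := (fderiv ℝ α y).le_opNorm₂ v u
  simp only [sub_apply, ContinuousLinearMap.flip_apply]
  refine (norm_sub_le _ _).trans ?_
  calc _ ≤ ‖fderiv ℝ α y‖ * ‖u‖ * ‖v‖ + ‖fderiv ℝ α y‖ * ‖v‖ * ‖u‖ := add_le_add h1 h2
    _ = _ := by ring

/-- The size of `d (A D(κ F))` is governed by two derivatives of `F`. -/
lemma dA_bound {M : R4 → D3 →L[ℝ] Cov} (hM : ContDiff ℝ ∞ M) (hMc : HasCompactSupport M) :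
    ∃ C, 0 ≤ C ∧ ∀ (F : R4 → Bil) (b : ℝ), ContDiff ℝ ∞ F → Bd 2 b F →
      ∀ y, ‖d1At (fun z => M z (fderiv ℝ F z)) y‖ ≤ C * b := by
  obtain ⟨c, hc, h⟩ := bd_apply hM hMc 1
  refine ⟨2 * c, by positivity, fun F b hF hb y => ?_⟩
  have h1 : Bd 1 b (fderiv ℝ F) := fun m hm x => by
    rw [norm_iteratedFDeriv_fderiv]
    exact hb (m + 1) (by omega) x
  have h2 := h (fderiv ℝ F) b (hF.fderiv_right (by simp)) h1 1 le_rfl y
  rw [norm_iteratedFDeriv_one] at h2
  refine (norm_d1At_le _ y).trans ?_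
  rw [mul_assoc]
  exact mul_le_mul_of_nonneg_left h2 (by norm_num)

end Pointwise

variable {X : Type u} [TopologicalSpace X] [T2Space X] [CompactSpace X] [ChartedSpace R4 X]
  [IsManifold 𝓘(ℝ, R4) ∞ X] {G : Geo X} (C : Cfg G)

/-- A cut-off equal to one well inside a chart and vanishing outside it. -/
def outerBump : ContDiffBump (0 : R4) := ⟨3, 7 / 2, by norm_num, by norm_num⟩

/-- The cut map `aloc` of a chart. -/
def aCut (G : Geo X) (i : Fin G.n) (z : R4) : D3 →L[ℝ] Cov :=
  kappaBump z • alocL (view2 (G.c i) G.omega z) (Base.viewJ G.J (G.c i) z)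

lemma aCut_props (G : Geo X) (i : Fin G.n) :
    ContDiff ℝ ∞ (aCut G i) ∧ HasCompactSupport (aCut G i) := by
  refine ⟨?_, cut_compact (F := D3 →L[ℝ] Cov) kappaBump.hasCompactSupport _⟩
  refine cut_smooth (F := D3 →L[ℝ] Cov) kappaBump.contDiff (kappa_subset G i) (G.c i).open_target ?_
  rw [contDiffOn_clm_apply]
  intro D
  exact cdOn_aloc (Base.smooth_view2 G.omega_smooth (G.c_mem i))
    (Base.smooth_viewJ G.J_acs (G.c_mem i)) contDiffOn_const
    fun y hy => view2_omega_ne G (G.c_mem i) hy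

lemma cutView_smooth (G : Geo X) (i : Fin G.n) {θ : X → Bil} (hθ : Smooth2 θ) :
    ContDiff ℝ ∞ fun z => kappaBump z • view2 (G.c i) θ z :=
  cut_smooth (F := Bil) kappaBump.contDiff (kappa_subset G i) (G.c i).open_target
    (Base.smooth_view2 hθ (G.c_mem i))

/-- The reading of a projected field in a chart. -/
lemma Cfg.proj_view_bd (i : Fin G.n) (j : ℕ) :
    ∃ a, 0 ≤ a ∧ ∀ (g : Test C.V) b, Bd j b (g : R4 → C.V) →
      Bd j (a * b) fun y => kappaBump y • view2 (G.c i) (C.proj C.wt_chi g).1 y := by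
  have hM : ∀ l, ContDiff ℝ ∞ (fun y => (C.Ew C.chi l y).comp (C.prj l)) ∧
      HasCompactSupport (fun y => (C.Ew C.chi l y).comp (C.prj l)) ∧
      tsupport (fun y => (C.Ew C.chi l y).comp (C.prj l)) ⊆ (C.ch l).target := fun l => by
    have hs : Function.support (fun y => (C.Ew C.chi l y).comp (C.prj l)) ⊆ tsupport (C.chi l) :=
      fun y hy => by
        by_contra h
        exact hy (ContinuousLinearMap.ext fun a => by
          simp [Cfg.Ew, image_eq_zero_of_notMem_tsupport h])
    exact ⟨(C.Ew_smooth C.wt_chi l).clm_comp contDiff_const,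
      HasCompactSupport.of_support_subset_isCompact (C.wt_chi.compact C l) hs,
      (closure_minimal hs (isClosed_tsupport _)).trans (C.wt_chi.target C l)⟩
  set N : R4 → Bil →L[ℝ] Bil := fun y => kappaBump y • ContinuousLinearMap.id ℝ Bil
  have hN : ContDiff ℝ ∞ N :=
    cut_smooth (F := Bil →L[ℝ] Bil) kappaBump.contDiff (kappa_subset G i) (G.c i).open_target
      contDiffOn_const
  have hNc : HasCompactSupport N := cut_compact (F := Bil →L[ℝ] Bil) kappaBump.hasCompactSupport _
  have hNs : tsupport N ⊆ (G.c i).target := by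
    refine (closure_minimal (fun y hy => ?_) (isClosed_tsupport _)).trans (kappa_subset G i)
    by_contra h
    refine hy (ContinuousLinearMap.ext fun b => ?_)
    simp [N, image_eq_zero_of_notMem_tsupport (f := fun y : R4 => kappaBump y) h]
  choose c hc0 hc using fun l => mix_bound (G.c_mem i) (G.c_mem (C.idx l)) hN hNc hNs
    (hM l).1 (hM l).2.1 (hM l).2.2 j
  refine ⟨∑ l, c l, Finset.sum_nonneg fun l _ => hc0 l, fun g b hb => ?_⟩
  have e : (fun y => kappaBump y • view2 (G.c i) (C.proj C.wt_chi g).1 y) =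
      ∑ l, fun y => N y (view2 (G.c i) (C.piece C.chi g l) y) := by
    funext y
    rw [C.proj_coe, Finset.sum_apply, ← map_sum]
    simp only [N, smul_apply, ContinuousLinearMap.id_apply]
    refine congrArg _ ?_
    show pullBil _ ((∑ l, C.piece C.chi g l) ((G.c i).symm y)) = _
    rw [Finset.sum_apply]
    exact map_sum (pullBilL (dsymm (G.c i) y)) _ _
  rw [e, Finset.sum_mul]
  refine bd_sum _ (fun l _ => ?_) fun l _ => hc l _ b (Test.smooth g) hb
  exact cutView_smooth G i (C.piece_spec C.wt_chi g l).1.1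

variable [MeasurableSpace X] [BorelSpace X]

/-- The lift of a field is bounded by its Sobolev norms. -/
lemma Cfg.lift_bd (hB : BaseFacts G) (j : ℕ) :
    ∃ a, 0 ≤ a ∧ ∀ u : fieldsE G,
      Bd j (a * G.hsum (j + 4) u.1) (C.lift C.wt_chi u : R4 → C.V) := by
  choose s hs using fun m => hB.sobolev m
  set S := ∑ m ∈ Finset.range (j + 1), |s m|
  have hS : 0 ≤ S := Finset.sum_nonneg fun m _ => abs_nonneg _
  have hM : ∀ l, ∃ c, 0 ≤ c ∧ ∀ (g : R4 → Bil) (b : ℝ), ContDiff ℝ ∞ g → Bd j b g →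
      Bd j (c * b) fun y => (C.inj l).comp (C.Cw C.chi l y) (g y) := fun l => by
    refine bd_apply (contDiff_const.clm_comp (C.Cw_smooth C.wt_chi l)) ?_ j
    refine HasCompactSupport.of_support_subset_isCompact (C.wt_chi.compact C l) fun y hy => ?_
    by_contra h
    exact hy (ContinuousLinearMap.ext fun a => by simp [Cfg.Cw, image_eq_zero_of_notMem_tsupport h])
  choose c hc0 hc using hM
  have hpos : ∀ m (u : fieldsE G), 0 ≤ G.hsum m u.1 := fun m u =>
    Finset.sum_nonneg fun l _ => Finset.sum_nonneg fun i _ => Real.sqrt_nonneg _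
  have hmono : ∀ m n (u : fieldsE G), m ≤ n → G.hsum m u.1 ≤ G.hsum n u.1 := fun m n u h =>
    Finset.sum_le_sum_of_subset_of_nonneg (Finset.range_mono (by omega))
      fun l _ _ => Finset.sum_nonneg fun i _ => Real.sqrt_nonneg _
  refine ⟨(∑ l, c l) * S, mul_nonneg (Finset.sum_nonneg fun l _ => hc0 l) hS, fun u => ?_⟩
  have e : (C.lift C.wt_chi u : R4 → C.V) =
      ∑ l, fun y => (C.inj l).comp (C.Cw C.chi l y) (kappaBump y • view2 (C.ch l) u.1 y) := by
    funext y
    show C.liftFun C.chi u.1 y = _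
    rw [Finset.sum_apply]
    refine Finset.sum_congr rfl fun l _ => ?_
    rw [ContinuousLinearMap.comp_apply]
    by_cases h : C.chi l y = 0
    · simp [Cfg.Cw, h]
    · rw [kappaBump.one_of_mem_closedBall (mem_closedBall_zero_iff.2 (C.chi_two l y h)), one_smul]
  rw [e, mul_assoc, Finset.sum_mul]
  refine bd_sum _ (fun l _ => ?_) fun l _ => hc l _ _ (cutView_smooth G (C.idx l) u.2.1) ?_
  · exact (contDiff_const.clm_comp (C.Cw_smooth C.wt_chi l)).clm_apply
      (cutView_smooth G (C.idx l) u.2.1)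
  · intro m hm y
    refine (hs m u.1 u.2.1 (C.idx l) y).trans ?_
    refine mul_le_mul ((le_abs_self _).trans
      (Finset.single_le_sum (fun m _ => abs_nonneg (s m)) (Finset.mem_range.2 (by omega))))
      (hmono _ _ u (by omega)) (hpos _ u) hS

/-- Fibre norms of a field and of `d A d` of a field are bounded by its lift. -/
lemma Cfg.sup_bd (hB : BaseFacts G) (hnat : AlocNaturalStatement) (hspan : AntiSpanStatement) :
    ∃ a, 0 ≤ a ∧ ∀ (u : fieldsE G) b, Bd 2 b (C.lift C.wt_chi u : R4 → C.V) → ∀ x,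
      G.nrm2 u.1 x ≤ a * b ∧ G.nrm2 (extD1 (Af G u.1)) x ≤ a * b := by
  choose a ha hab using fun i => C.proj_view_bd i 2
  choose d hd hdb using fun i => dA_bound (aCut_props G i).1 (aCut_props G i).2
  refine ⟨∑ i, (a i + d i * a i), Finset.sum_nonneg fun i _ => add_nonneg (ha i) (mul_nonneg (hd i) (ha i)),
    fun u b hb x => ?_⟩
  have hb0 := hb.nonneg
  have hF : ∀ i, Bd 2 (a i * b) fun y => kappaBump y • view2 (G.c i) u.1 y := fun i => by
    have h := hab i _ b hb
    rwa [C.proj_lift_chi hspan u] at h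
  have hrle : ∀ i, G.rho i x ≤ 1 := fun i => by
    rw [← hB.rho_sum x]
    exact Finset.single_le_sum (fun i _ => hB.rho_nonneg i x) (Finset.mem_univ i)
  constructor
  · rw [Finset.sum_mul]
    refine Finset.sum_le_sum fun i _ => ?_
    refine le_trans ?_ (mul_le_mul_of_nonneg_right
      (le_add_of_nonneg_right (mul_nonneg (hd i) (ha i))) hb0)
    by_cases h : G.rho i x = 0
    · rw [h, zero_mul]
      exact mul_nonneg (ha i) hb0
    · obtain ⟨hx, hn⟩ := hB.rho_supp i x h
      have h1 := (hF i).norm_le (G.c i x)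
      simp only [kappaBump.one_of_mem_closedBall (mem_closedBall_zero_iff.2 hn.le), one_smul] at h1
      exact (mul_le_of_le_one_left (norm_nonneg _) (hrle i)).trans h1
  · rw [Finset.sum_mul]
    refine Finset.sum_le_sum fun i _ => ?_
    refine le_trans ?_ (mul_le_mul_of_nonneg_right (le_add_of_nonneg_left (ha i)) hb0)
    by_cases h : G.rho i x = 0
    · rw [h, zero_mul]
      exact mul_nonneg (mul_nonneg (hd i) (ha i)) hb0
    · obtain ⟨hx, hn⟩ := hB.rho_supp i x h
      set y := G.c i x with hy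
      have hyt : y ∈ (G.c i).target := (G.c i).map_source hx
      have hone : ∀ z : R4, ‖z‖ < 2 → kappaBump z = 1 := fun z hz =>
        kappaBump.one_of_mem_closedBall (mem_closedBall_zero_iff.2 hz.le)
      have hev : view1 (G.c i) (Af G u.1) =ᶠ[𝓝 y] fun z =>
          aCut G i z (fderiv ℝ (fun w => kappaBump w • view2 (G.c i) u.1 w) z) := by
        filter_upwards [(G.c i).open_target.mem_nhds hyt,
          (isOpen_lt continuous_norm continuous_const).mem_nhds hn] with z hz hz2
        have h2 : (fun w => kappaBump w • view2 (G.c i) u.1 w) =ᶠ[𝓝 z] view2 (G.c i) u.1 := by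
          filter_upwards [(isOpen_lt continuous_norm continuous_const).mem_nhds hz2] with w hw
          rw [hone w hw, one_smul]
        rw [view1_Af G hnat u.2.1 (G.c_mem i) hz, h2.fderiv_eq]
        simp only [aCut, hone z hz2, one_smul, alocL_apply]
      rw [Base.d_view (Af_smooth G hnat u.2.1) (G.c_mem i) hyt, Base.d1At_congr hev]
      refine (mul_le_of_le_one_left (norm_nonneg _) (hrle i)).trans ?_
      refine (hdb i _ _ (cutView_smooth G i u.2.1) (hF i) y).trans (le_of_eq ?_)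
      ring

lemma closed_p20_T0 (hB : BaseFacts G) (hP : PointFacts G) (hnat : AlocNaturalStatement)
    (f p w : fieldsE G) (h1 : opL G hnat p = 0) (h2 : opL G hnat w = f - p) :
    Closed2 (p.1 + extD1 (Af G w.1)) ∧ G.p20 (p.1 + extD1 (Af G w.1)) = f.1 := by
  have hc1 : Closed2 p.1 := closed_of_opL G hB hP hnat _ h1
  have hc2 : Closed2 (extD1 (Af G w.1)) := Base.exact_closed (Af_smooth G hnat w.2.1)
  refine ⟨⟨hc1.1.add hc2.1, fun x₀ y hy u v z => ?_⟩, ?_⟩
  · have d1 := view2_diff hc1.1 (Base.atl_chartAt x₀) hy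
    have d2 := view2_diff hc2.1 (Base.atl_chartAt x₀) hy
    have k1 := hc1.2 x₀ y hy u v z
    have k2 := hc2.2 x₀ y hy u v z
    simp only [d2At, Full.view2_add, fderiv_add d1 d2, add_apply] at k1 k2 ⊢
    linarith
  · have h3 : G.p20 (extD1 (Af G w.1)) = f.1 - p.1 := congrArg Subtype.val h2
    rw [G.p20_add, G.p20_of_anti p.2.2, h3]
    abel

lemma nrm2_add_le (hB : BaseFacts G) (θ η : X → Bil) (x : X) :
    G.nrm2 (θ + η) x ≤ G.nrm2 θ x + G.nrm2 η x := by
  simp only [Geo.nrm2, ← Finset.sum_add_distrib]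
  refine Finset.sum_le_sum fun i _ => ?_
  rw [← mul_add, Full.view2_add, Pi.add_apply]
  exact mul_le_mul_of_nonneg_left (norm_add_le (E := Bil) _ _) (hB.rho_nonneg i x)

lemma Cfg.T0_bd (hB : BaseFacts G) (hnat : AlocNaturalStatement) (hspan : AntiSpanStatement)
    (P U : fieldsE G →ₗ[ℝ] fieldsE G) {c2 : ℝ}
    (hc2 : ∀ f b, Bd 2 b (C.lift C.wt_chi f : R4 → C.V) →
      Bd 2 (c2 * b) (C.lift C.wt_chi (P f) : R4 → C.V) ∧
        Bd 2 (c2 * b) (C.lift C.wt_chi (U f) : R4 → C.V)) :
    ∃ K, ∀ (f : fieldsE G) (x : X),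
      G.nrm2 ((P f).1 + extD1 (Af G (U f).1)) x ≤ K * G.hsum 6 f.1 := by
  obtain ⟨cs, -, hsup⟩ := C.sup_bd hB hnat hspan
  obtain ⟨cl, -, hlift⟩ := C.lift_bd hB 2
  refine ⟨2 * cs * c2 * cl, fun f x => (nrm2_add_le hB _ _ x).trans ?_⟩
  obtain ⟨hp, hu⟩ := hc2 f _ (hlift f)
  refine (add_le_add (hsup (P f) _ hp x).1 (hsup (U f) _ hu x).2).trans (le_of_eq ?_)
  show _ = 2 * cs * c2 * cl * G.hsum (2 + 4) f.1
  ring

theorem hasRightInverse (G : Geo X) (hB : BaseFacts G) (hP : PointFacts G)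
    (hnat : AlocNaturalStatement) (hspan : AntiSpanStatement) (hsym : SymbolStatement)
    (hff : FrameFieldStatement) (hloc : ParametrixStatement) : HasRightInverse G := by
  obtain ⟨C⟩ := exists_cfg G hB hff
  obtain ⟨S, hSL, hSop⟩ := C.exists_sys hB hP hnat hspan hsym hloc
  obtain ⟨P, U, hPU⟩ := S.solve
  rw [hSop] at hPU
  let T0 : fieldsE G →ₗ[ℝ] (X → Bil) :=
    { toFun := fun b => (P b).1 + extD1 (Af G (U b).1)
      map_add' := fun a b => by
        rw [map_add, map_add, Submodule.coe_add, Submodule.coe_add, Af_add G (U a).2.1 (U b).2.1,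
          extD1_add (Af_smooth G hnat (U a).2.1) (Af_smooth G hnat (U b).2.1)]
        abel
      map_smul' := fun r a => by
        rw [map_smul, map_smul, Submodule.coe_smul, Submodule.coe_smul, Af_smul G r (U a).2.1,
          extD1_smul r (Af_smooth G hnat (U a).2.1), RingHom.id_apply, smul_add] }
  obtain ⟨T, hT⟩ := LinearMap.exists_extend T0
  have he : ∀ b' : fieldsE G, T b'.1 = (P b').1 + extD1 (Af G (U b').1) := fun b' =>
    LinearMap.congr_fun hT b'
  refine ⟨T, fun b hb hba => ?_, ?_⟩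
  · rw [he ⟨b, hb, hba⟩]
    obtain ⟨h1, h2, -⟩ := hPU ⟨b, hb, hba⟩
    exact closed_p20_T0 hB hP hnat ⟨b, hb, hba⟩ _ _ h1 h2
  · obtain ⟨c2, -, hc2⟩ := (hPU 0).2.2 2
    rw [hSL] at hc2
    obtain ⟨K, hK⟩ := C.T0_bd hB hnat hspan P U hc2
    exact ⟨6, K, fun b hb hba x => by rw [he ⟨b, hb, hba⟩]; exact hK ⟨b, hb, hba⟩ x⟩

theorem rightInverseStatement : RightInverseStatement.{u} :=
  fun _ _ _ _ _ _ _ _ G => hasRightInverse G (base_facts G) (Point.pointFacts G)
    alocNatural_statement antiSpan_statement symbol_statement frameField_statement parametrixStatement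

end Vale.Agent.P204.Full.Elliptic
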