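import Vale.Agent.P204.Full.Elliptic.Lift

/-!
P204 elliptic module: the operator on a frame-supported field is a second order system in a chart.
-/

open scoped Manifold ContDiff Topology
open MeasureTheory Set Filter

noncomputable section

namespace Vale.Agent.P204.Full.Elliptic

universe u

/-- Values of operators from first derivatives of pairs. -/
abbrev T1 : Type := J1 →L[ℝ] Cov

/-- Values of operators from pairs. -/
abbrev T0 : Type := R2 →L[ℝ] Cov

instance t1NormedGroup : NormedAddCommGroup T1 := ContinuousLinearMap.toNormedAddCommGroup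
instance t1NormedSpace : NormedSpace ℝ T1 := ContinuousLinearMap.toNormedSpace
instance t0NormedGroup : NormedAddCommGroup T0 := ContinuousLinearMap.toNormedAddCommGroup
instance t0NormedSpace : NormedSpace ℝ T0 := ContinuousLinearMap.toNormedSpace

section Expand

variable (E : R4 → R2 →L[ℝ] Bil) (A : R4 → D3 →L[ℝ] Cov)

/-- The coefficient of first derivatives in `A d(E h)`. -/
def cf1 (z : R4) : T1 := (A z).comp (ContinuousLinearMap.compL ℝ R4 R2 Bil (E z))

/-- The coefficient of values in `A d(E h)`. -/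
def cf0 (z : R4) : T0 := (A z).comp (fderiv ℝ E z).flip

/-- The coefficient of second derivatives in `d (A d(E h))`. -/
def cg2 (z : R4) : J2 →L[ℝ] Bil := ContinuousLinearMap.compL ℝ R4 J1 Cov (cf1 E A z)

/-- The coefficient of first derivatives in `d (A d(E h))`. -/
def cg1 (z : R4) : J1 →L[ℝ] Bil :=
  (fderiv ℝ (cf1 E A) z).flip + ContinuousLinearMap.compL ℝ R4 R2 Cov (cf0 E A z)

/-- The coefficient of values in `d (A d(E h))`. -/
def cg0 (z : R4) : R2 →L[ℝ] Bil := (fderiv ℝ (cf0 E A) z).flip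

variable {E A} {s : Set R4} (hs : IsOpen s) (hE : ContDiffOn ℝ ∞ E s) (hA : ContDiffOn ℝ ∞ A s)
include hs hE hA

lemma cdOn_cf1 : ContDiffOn ℝ ∞ (cf1 E A) s := by
  have h : ContDiffOn ℝ ∞ (fun z => ContinuousLinearMap.compL ℝ R4 R2 Bil (E z)) s :=
    (ContinuousLinearMap.contDiff (𝕜 := ℝ) (n := ∞) (F := J1 →L[ℝ] D3)
      (ContinuousLinearMap.compL ℝ R4 R2 Bil)).comp_contDiffOn hE
  exact ContDiffOn.clm_comp (𝕜 := ℝ) (F := D3) hA h

lemma cdOn_cf0 : ContDiffOn ℝ ∞ (cf0 E A) s := by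
  have h : ContDiffOn ℝ ∞ (fun z => (fderiv ℝ E z).flip) s := by
    rw [contDiffOn_clm_apply]
    intro v
    rw [contDiffOn_clm_apply]
    intro w
    exact ((hE.fderiv_of_isOpen hs (by simp)).clm_apply contDiffOn_const).clm_apply contDiffOn_const
  exact ContDiffOn.clm_comp (𝕜 := ℝ) (F := D3) hA h

lemma cdOn_cg2 : ContDiffOn ℝ ∞ (cg2 E A) s :=
  (ContinuousLinearMap.contDiff (𝕜 := ℝ) (n := ∞) (F := J2 →L[ℝ] Bil)
    (ContinuousLinearMap.compL ℝ R4 J1 Cov)).comp_contDiffOn (cdOn_cf1 hs hE hA)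

lemma cdOn_cg1 : ContDiffOn ℝ ∞ (cg1 E A) s := by
  refine ContDiffOn.add (F := J1 →L[ℝ] Bil) ?_ ?_
  · exact (LinearIsometryEquiv.contDiff (𝕜 := ℝ) (n := ∞) (F := J1 →L[ℝ] Bil)
      (ContinuousLinearMap.flipₗᵢ ℝ R4 J1 Cov)).comp_contDiffOn
      ((cdOn_cf1 hs hE hA).fderiv_of_isOpen hs (by simp))
  · exact (ContinuousLinearMap.contDiff (𝕜 := ℝ) (n := ∞) (F := J1 →L[ℝ] Bil)
      (ContinuousLinearMap.compL ℝ R4 R2 Cov)).comp_contDiffOn (cdOn_cf0 hs hE hA)

lemma cdOn_cg0 : ContDiffOn ℝ ∞ (cg0 E A) s :=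
  (LinearIsometryEquiv.contDiff (𝕜 := ℝ) (n := ∞) (F := R2 →L[ℝ] Bil)
    (ContinuousLinearMap.flipₗᵢ ℝ R4 R2 Cov)).comp_contDiffOn
    ((cdOn_cf0 hs hE hA).fderiv_of_isOpen hs (by simp))

lemma expand_eq {h : R4 → R2} (hh : ContDiff ℝ ∞ h) {y : R4} (hy : y ∈ s) :
    fderiv ℝ (fun z => A z (fderiv ℝ (fun z => E z (h z)) z)) y =
      cg2 E A y (fderiv ℝ (fderiv ℝ h) y) + cg1 E A y (fderiv ℝ h y) + cg0 E A y (h y) := by
  have hh' : ContDiff ℝ ∞ (fderiv ℝ h) := hh.fderiv_right (by simp)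
  have hev : (fun z => A z (fderiv ℝ (fun z => E z (h z)) z)) =ᶠ[𝓝 y]
      fun z => cf1 E A z (fderiv ℝ h z) + cf0 E A z (h z) := by
    filter_upwards [hs.mem_nhds hy] with z hz
    rw [fderiv_clm_apply ((hE.contDiffAt (hs.mem_nhds hz)).differentiableAt (by simp))
      (hh.differentiable (by simp) z), map_add]
    rfl
  have d1 := ((cdOn_cf1 hs hE hA).contDiffAt (hs.mem_nhds hy)).differentiableAt (by simp)
  have d0 := ((cdOn_cf0 hs hE hA).contDiffAt (hs.mem_nhds hy)).differentiableAt (by simp)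
  rw [hev.fderiv_eq, fderiv_fun_add (d1.clm_apply (hh'.differentiable (by simp) y))
    (d0.clm_apply (hh.differentiable (by simp) y)),
    fderiv_clm_apply d1 (hh'.differentiable (by simp) y),
    fderiv_clm_apply d0 (hh.differentiable (by simp) y)]
  simp only [cg2, cg1, cg0, add_apply, ContinuousLinearMap.compL_apply]
  abel

end Expand

/-- The antisymmetrisation of a derivative of one-forms. -/
def altL : Bil →L[ℝ] Bil :=
  ContinuousLinearMap.id ℝ Bil -
    (ContinuousLinearMap.flipₗᵢ ℝ R4 R4 ℝ).toContinuousLinearEquiv.toContinuousLinearMap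

lemma altL_apply (K : Bil) : altL K = K - K.flip := rfl

/-- The Euclidean inner product as a bilinear form. -/
def stdInner : Bil :=
  ∑ i : Fin 4, (EuclideanSpace.proj i : R4 →L[ℝ] ℝ).smulRight (EuclideanSpace.proj i : R4 →L[ℝ] ℝ)

lemma stdInner_apply (u v : R4) : stdInner u v = ∑ i, u i * v i := by
  simp [stdInner]

lemma stdInner_pos {v : R4} (hv : v ≠ 0) : 0 < stdInner v v := by
  rw [stdInner_apply]
  have h : ‖v‖ ^ 2 = ∑ i, v i * v i := by
    rw [EuclideanSpace.real_norm_sq_eq]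
    exact Finset.sum_congr rfl fun i _ => pow_two _
  rw [← h]
  positivity

variable {X : Type u} [TopologicalSpace X] [T2Space X] [CompactSpace X] [ChartedSpace R4 X]
  [IsManifold 𝓘(ℝ, R4) ∞ X] {G : Geo X} (C : Cfg G)

/-- The cut-off around a chart ball. -/
def Cfg.wideBump (k : C.ι) : ContDiffBump (C.p k) :=
  ⟨5 / 2 * C.r k, 11 / 4 * C.r k, by linarith [C.r_pos k], by linarith [C.r_pos k]⟩

/-- The wide weights. -/
def Cfg.wide (k : C.ι) (y : R4) : ℝ := C.wideBump k y

lemma Cfg.wide_one (k : C.ι) {y : R4} (hy : y ∈ Metric.closedBall (C.p k) (5 / 2 * C.r k)) :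
    C.wide k y = 1 := (C.wideBump k).one_of_mem_closedBall hy

lemma Cfg.wt_wide : C.Wt C.wide :=
  ⟨fun k => (C.wideBump k).contDiff, fun k => by
    show tsupport (fun y => C.wideBump k y) ⊆ _
    rw [(C.wideBump k).tsupport_eq]
    exact Metric.closedBall_subset_ball (by
      show 11 / 4 * C.r k < 3 * C.r k
      linarith [C.r_pos k])⟩

/-- The chart of an index. -/
abbrev Cfg.ch (k : C.ι) : OpenPartialHomeomorph X R4 := G.c (C.idx k)

/-- The metric in a chart. -/
def Cfg.metric (k : C.ι) (y : R4) : Bil :=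
  (view2 (C.ch k) G.omega y).bilinearComp (ContinuousLinearMap.id ℝ R4) (Base.viewJ G.J (C.ch k) y)

/-- The map `aloc` in a chart. -/
def Cfg.amap (k : C.ι) (y : R4) : D3 →L[ℝ] Cov :=
  alocL (view2 (C.ch k) G.omega y) (Base.viewJ G.J (C.ch k) y)

/-- The frame map in a chart. -/
def Cfg.emap (k : C.ι) (y : R4) : R2 →L[ℝ] Bil := frameL (C.e k y)

/-- The coordinates of the antisymmetrisation. -/
def Cfg.omap (k : C.ι) (y : R4) : Bil →L[ℝ] R2 := (coordL (C.e k y)).comp altL

lemma Cfg.amap_smooth (k : C.ι) :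
    ContDiffOn ℝ ∞ (C.amap k) (Metric.ball (C.p k) (3 * C.r k)) := by
  rw [contDiffOn_clm_apply]
  intro D
  exact (cdOn_aloc (Base.smooth_view2 G.omega_smooth (G.c_mem _))
    (Base.smooth_viewJ G.J_acs (G.c_mem _)) contDiffOn_const
    fun y hy => view2_omega_ne G (G.c_mem _) hy).mono (C.ball_sub k)

lemma Cfg.omap_smooth (k : C.ι) :
    ContDiffOn ℝ ∞ (C.omap k) (Metric.ball (C.p k) (3 * C.r k)) :=
  ContDiffOn.clm_comp (𝕜 := ℝ) (F := Bil) (cdOn_coordL (C.e_smooth k)) contDiffOn_const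

/-- A cut-off of the metric, positive everywhere. -/
def Cfg.gmet (k : C.ι) (y : R4) : Bil :=
  C.wide k y • C.metric k y + (1 - C.wide k y) • stdInner

lemma Cfg.metric_smooth (k : C.ι) :
    ContDiffOn ℝ ∞ (C.metric k) (Metric.ball (C.p k) (3 * C.r k)) := by
  rw [contDiffOn_clm_apply]
  intro u
  rw [contDiffOn_clm_apply]
  intro v
  have h1 : ContDiffOn ℝ ∞ (fun y => view2 (C.ch k) G.omega y u) (C.ch k).target :=
    (Base.smooth_view2 G.omega_smooth (G.c_mem _)).clm_apply contDiffOn_const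
  have h2 : ContDiffOn ℝ ∞ (fun y => Base.viewJ G.J (C.ch k) y v) (C.ch k).target :=
    (Base.smooth_viewJ G.J_acs (G.c_mem _)).clm_apply contDiffOn_const
  exact (h1.clm_apply h2).mono (C.ball_sub k)

lemma Cfg.gmet_smooth (k : C.ι) : ContDiff ℝ ∞ (C.gmet k) := by
  have h1 : ContDiff ℝ ∞ fun y => C.wide k y • C.metric k y :=
    cut_smooth (F := Bil) (C.wt_wide.smooth k) (C.wt_wide.supp k) Metric.isOpen_ball (C.metric_smooth k)
  have hw : ContDiff ℝ ∞ fun y => 1 - C.wide k y := contDiff_const.sub (C.wt_wide.smooth k)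
  have h2 : ContDiff ℝ ∞ fun y => (1 - C.wide k y) • stdInner :=
    ContDiff.smul (F := Bil) hw contDiff_const
  exact ContDiff.add (F := Bil) h1 h2

lemma Cfg.gmet_props (k : C.ι) :
    (∀ y u v, C.gmet k y u v = C.gmet k y v u) ∧ ∀ y v, v ≠ 0 → 0 < C.gmet k y v v := by
  have hs : ∀ u v, stdInner u v = stdInner v u := fun u v => by
    simp only [stdInner_apply]
    exact Finset.sum_congr rfl fun i _ => mul_comm _ _
  refine ⟨fun y u v => ?_, fun y v hv => ?_⟩
  · simp only [Cfg.gmet, add_apply, smul_apply, smul_eq_mul, hs u v]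
    by_cases hy : y ∈ (C.ch k).target
    · have h := (herm_view G (C.idx k) hy).symm u v
      show _ * view2 (C.ch k) G.omega y u (Base.viewJ G.J (C.ch k) y v) + _ =
        _ * view2 (C.ch k) G.omega y v (Base.viewJ G.J (C.ch k) y u) + _
      rw [h]
    · have h0 : C.wide k y = 0 :=
        image_eq_zero_of_notMem_tsupport fun h => hy (C.wt_wide.target C k h)
      simp [h0]
  · simp only [Cfg.gmet, add_apply, smul_apply, smul_eq_mul]
    have h01 : 0 ≤ C.wide k y ∧ C.wide k y ≤ 1 := ⟨(C.wideBump k).nonneg, (C.wideBump k).le_one⟩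
    have h1 := stdInner_pos hv
    by_cases h0 : C.wide k y = 0
    · simp [h0, h1]
    · have hy : y ∈ (C.ch k).target := C.wt_wide.target C k (subset_tsupport _ h0)
      have h2 : 0 < C.metric k y v v := (herm_view G (C.idx k) hy).pos v hv
      nlinarith [mul_pos (lt_of_le_of_ne h01.1 (Ne.symm h0)) h2,
        mul_nonneg (sub_nonneg.2 h01.2) h1.le]

/-- The coefficient functions of the system. -/
def Cfg.coef {S : Type} [NormedAddCommGroup S] [NormedSpace ℝ S]
    (k : C.ι) (q : R4 → S →L[ℝ] Bil) (y : R4) : S →L[ℝ] R2 :=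
  C.wide k y • (C.omap k y).comp (q y)

lemma Cfg.coef_smooth {S : Type} [NormedAddCommGroup S] [NormedSpace ℝ S] (k : C.ι)
    {q : R4 → S →L[ℝ] Bil} (hq : ContDiffOn ℝ ∞ q (Metric.ball (C.p k) (3 * C.r k))) :
    ContDiff ℝ ∞ (C.coef k q) ∧ HasCompactSupport (C.coef k q) := by
  refine ⟨?_, cut_compact (F := S →L[ℝ] R2) (C.wideBump k).hasCompactSupport _⟩
  exact cut_smooth (F := S →L[ℝ] R2) (C.wt_wide.smooth k) (C.wt_wide.supp k) Metric.isOpen_ball
    (ContDiffOn.clm_comp (𝕜 := ℝ) (F := Bil) (C.omap_smooth k) hq)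

lemma Cfg.emap_smooth (k : C.ι) :
    ContDiffOn ℝ ∞ (C.emap k) (Metric.ball (C.p k) (3 * C.r k)) :=
  cdOn_frameL (C.e_smooth k)

/-- The local system of an index. -/
def Cfg.sys (hsym : SymbolStatement) (k : C.ι) : LocalSys where
  U := Metric.ball (C.p k) (5 / 2 * C.r k)
  U_open := Metric.isOpen_ball
  phi := C.wide k
  phi_smooth := C.wt_wide.smooth k
  phi_compact := (C.wideBump k).hasCompactSupport
  phi_one x hx := C.wide_one k (Metric.ball_subset_closedBall hx)
  g := C.gmet k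
  g_smooth := C.gmet_smooth k
  g_symm := (C.gmet_props k).1
  g_pos := (C.gmet_props k).2
  c0 := -(1 / 4)
  c0_ne := by norm_num
  P2 := C.coef k (cg2 (C.emap k) (C.amap k))
  P1 := C.coef k (cg1 (C.emap k) (C.amap k))
  P0 := C.coef k (cg0 (C.emap k) (C.amap k))
  P2_smooth := (C.coef_smooth k
    (cdOn_cg2 Metric.isOpen_ball (C.emap_smooth k) (C.amap_smooth k))).1
  P1_smooth := (C.coef_smooth k
    (cdOn_cg1 Metric.isOpen_ball (C.emap_smooth k) (C.amap_smooth k))).1
  P0_smooth := (C.coef_smooth k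
    (cdOn_cg0 Metric.isOpen_ball (C.emap_smooth k) (C.amap_smooth k))).1
  P2_compact := (C.coef_smooth k
    (cdOn_cg2 Metric.isOpen_ball (C.emap_smooth k) (C.amap_smooth k))).2
  P1_compact := (C.coef_smooth k
    (cdOn_cg1 Metric.isOpen_ball (C.emap_smooth k) (C.amap_smooth k))).2
  P0_compact := (C.coef_smooth k
    (cdOn_cg0 Metric.isOpen_ball (C.emap_smooth k) (C.amap_smooth k))).2
  principal x hx P hP S hS := by
    have h1 : C.wide k x = 1 := C.wide_one k (Metric.ball_subset_closedBall hx)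
    have hx3 : x ∈ Metric.ball (C.p k) (3 * C.r k) :=
      Metric.ball_subset_ball (by linarith [C.r_pos k]) hx
    simp only [Cfg.gmet, h1, one_smul, sub_self, zero_smul, add_zero] at hP
    ext a
    simp only [Cfg.coef, h1, one_smul, ContinuousLinearMap.comp_apply, Cfg.omap, coordL_apply,
      altL_apply, PiLp.smul_apply, smul_eq_mul]
    rw [hsym (view2 (C.ch k) G.omega x) (Base.viewJ G.J (C.ch k) x) (C.e k x)
      (herm_view G _ (C.ball_sub k hx3)) (C.e_pair k x hx3) P hP S hS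
      (cg2 (C.emap k) (C.amap k) x S) (fun h => rfl) a]
    simp

lemma top22_self_pull {om : Bil} {J : Endo} (h : Herm om J) {a b : Bil} (ha : IsAlt a)
    (hb : IsAlt b) : top22 (pullBil J a) (pullBil J b) = top22 a b := by
  have e : pullBil J om = om := by
    refine ContinuousLinearMap.ext fun u => ContinuousLinearMap.ext fun v => ?_
    exact h.inv u v
  have h1 := Base.top22_pullBil J h.alt h.alt
  rw [e] at h1
  have hdet : J.det = 1 := (mul_eq_right₀ h.top_pos.ne').1 h1.symm
  rw [Base.top22_pullBil J ha hb, hdet, one_mul]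

lemma coord_anti20 {om : Bil} {J : Endo} (h : Herm om J) {e : Fin 2 → Bil} (he : AntiPair J e)
    {η : Bil} (hη : IsAlt η) : coordL e (anti20 J η) = coordL e η := by
  ext a
  have h1 := top22_self_pull h hη (he.alt a)
  rw [he.anti, ← neg_one_smul ℝ (e a), top22_comm (pullBil J η), top22_smul_left, neg_one_mul,
    top22_comm] at h1
  rw [coordL_apply, coordL_apply, anti20, sub_eq_add_neg, top22_smul_left, top22_add_left,
    ← neg_one_smul ℝ (pullBil J η), top22_smul_left]
  linarith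

lemma anti20_anti {J : Endo} (hJ : ∀ v, J (J v) = -v) {η : Bil} :
    pullBil J (anti20 J η) = -anti20 J η := by
  refine ContinuousLinearMap.ext fun u => ContinuousLinearMap.ext fun v => ?_
  simp [anti20, pullBil_apply, hJ]
  ring

/-- The operator on a field given by coefficients in a chart ball. -/
lemma Cfg.view_opL (hnat : AlocNaturalStatement) (hspan : AntiSpanStatement)
    (hsym : SymbolStatement) (k : C.ι) (u : fieldsE G) {h : R4 → R2} (hh : ContDiff ℝ ∞ h)
    (hu : ∀ z ∈ Metric.ball (C.p k) (5 / 2 * C.r k), view2 (C.ch k) u.1 z = C.emap k z (h z))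
    {y : R4} (hy : y ∈ Metric.ball (C.p k) (5 / 2 * C.r k)) :
    view2 (C.ch k) (opL G hnat u).1 y = C.emap k y ((C.sys hsym k).app h y) := by
  have hy3 : y ∈ Metric.ball (C.p k) (3 * C.r k) :=
    Metric.ball_subset_ball (by linarith [C.r_pos k]) hy
  have hyt := C.ball_sub k hy3
  have hat : Base.Atl (C.ch k) := G.c_mem _
  have hherm := herm_view G (C.idx k) hyt
  show view2 (C.ch k) (G.p20 _) y = _
  rw [Base.view2_p20 G _ hat hyt, Base.d_view (Af_smooth G hnat u.2.1) hat hyt]
  have hev : view1 (C.ch k) (Af G u.1) =ᶠ[𝓝 y]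
      fun z => C.amap k z (fderiv ℝ (fun z => C.emap k z (h z)) z) := by
    filter_upwards [Metric.isOpen_ball.mem_nhds hy] with z hz
    rw [view1_Af G hnat u.2.1 hat
      (C.ball_sub k (Metric.ball_subset_ball (by linarith [C.r_pos k]) hz))]
    have h' : view2 (C.ch k) u.1 =ᶠ[𝓝 z] fun z => C.emap k z (h z) :=
      Filter.eventually_of_mem (Metric.isOpen_ball.mem_nhds hz) hu
    rw [h'.fderiv_eq]
    rfl
  set η := d1At (view1 (C.ch k) (Af G u.1)) y with hη
  set K := fderiv ℝ (fun z => C.amap k z (fderiv ℝ (fun z => C.emap k z (h z)) z)) y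
  have hK : η = altL K := by
    rw [hη, Base.d1At_congr hev]
    rfl
  have happ : (C.sys hsym k).app h y = coordL (C.e k y) η := by
    have e := expand_eq Metric.isOpen_ball (C.emap_smooth k) (C.amap_smooth k) hh hy3
    simp only [LocalSys.app, Cfg.sys, Cfg.coef, C.wide_one k (Metric.ball_subset_closedBall hy),
      one_smul, ContinuousLinearMap.comp_apply, ← map_add, ← e]
    rw [hK]
    rfl
  have hanti := anti20_anti (η := η) hherm.sq
  have halt : IsAlt (anti20 (Base.viewJ G.J (C.ch k) y) η) :=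
    Base.isAlt_anti20 _ (Base.isAlt_d1At _ _)
  rw [happ, ← coord_anti20 hherm (C.e_pair k y hy3) (Base.isAlt_d1At _ _), Cfg.emap, frameL_apply]
  simp only [coordL_apply]
  exact hspan _ _ _ hherm (C.e_pair k y hy3) _ halt hanti

/-- Locality of the operator. -/
lemma opL_eventually_zero (hnat : AlocNaturalStatement) (u : fieldsE G) {x : X}
    (h : ∀ᶠ z in 𝓝 x, u.1 z = 0) : (opL G hnat u).1 x = 0 := by
  have key : ∀ᶠ z in 𝓝 x, Af G u.1 z = 0 := by
    filter_upwards [eventually_eventually_nhds.2 h] with z hz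
    have hz0 := mem_chart_source R4 z
    have ht := (chartAt R4 z).map_source hz0
    have h1 : ∀ᶠ w in 𝓝 (chartAt R4 z z), view2 (chartAt R4 z) u.1 w = 0 := by
      have hc := (chartAt R4 z).symm.continuousAt ht
      rw [ContinuousAt, (chartAt R4 z).left_inv hz0] at hc
      filter_upwards [hc.eventually hz] with w hw
      simp [view2, hw, Base.pullBil_zero]
    rw [Af, Filter.EventuallyEq.fderiv_eq (f := fun _ => (0 : Bil)) h1]
    simp [← alocL_apply]
  have hx := mem_chart_source R4 x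
  have ht := (chartAt R4 x).map_source hx
  have h2 : view1 (chartAt R4 x) (Af G u.1) =ᶠ[𝓝 (chartAt R4 x x)] fun _ => 0 := by
    have hc := (chartAt R4 x).symm.continuousAt ht
    rw [ContinuousAt, (chartAt R4 x).left_inv hx] at hc
    filter_upwards [hc.eventually key] with w hw
    simp [view1, hw, pullCov]
  show anti20 (G.J x) (extD1 (Af G u.1) x) = 0
  rw [extD1, Base.d1At_congr h2]
  simp [d1At, anti20, Base.pullBil_zero]

end Vale.Agent.P204.Full.Elliptic
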