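import Vale.Agent.P204.Full.Elliptic.LocalSpec

/-!
P204 elliptic module: integration by parts across the origin and the Newton kernel `1 / g(z,z)` of a
constant inner product on `ℝ⁴`, through the regularisation `1 / (g(z,z) + ε)`.
-/

open scoped ContDiff Topology
open MeasureTheory Set Filter

noncomputable section

namespace Vale.Agent.P204.Full.Elliptic

variable {W : Type} [NormedAddCommGroup W] [NormedSpace ℝ W]

/-- Integration by parts for a smooth compactly supported multiplier. -/
lemma byParts_smooth {a : R4 → ℝ} (ha : ContDiff ℝ ∞ a) (hc : HasCompactSupport a) {f : R4 → W}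
    (hf : ContDiff ℝ ∞ f) (x v : R4) :
    ∫ z, a z • fderiv ℝ f (x - z) v = ∫ z, fderiv ℝ a z v • f (x - z) := by
  have hg : ContDiff ℝ ∞ fun z => f (x - z) := hf.comp (contDiff_const.sub contDiff_id)
  have hd : ∀ z, fderiv ℝ (fun z => f (x - z)) z v = -(fderiv ℝ f (x - z) v) := fun z => by
    have h := ((hf.differentiable (by simp) (x - z)).hasFDerivAt.comp z
      ((hasFDerivAt_id z).const_sub x)).fderiv
    exact (congrArg (fun T : R4 →L[ℝ] W => T v) h).trans (by simp)
  have cg : Continuous fun z => fderiv ℝ (fun z => f (x - z)) z v :=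
    (hg.continuous_fderiv (by simp)).clm_apply continuous_const
  have cda : Continuous fun z => fderiv ℝ a z v :=
    (ha.continuous_fderiv (by simp)).clm_apply continuous_const
  have hdc : HasCompactSupport fun z => fderiv ℝ a z v := hc.fderiv_apply ℝ v
  have h := integral_smul_fderiv_eq_neg_fderiv_smul_of_integrable (μ := (volume : Measure R4))
    (f := a) (g := fun z => f (x - z)) (v := v)
    ((cda.smul hg.continuous).integrable_of_hasCompactSupport hdc.smul_right)
    ((ha.continuous.smul cg).integrable_of_hasCompactSupport hc.smul_right)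
    ((ha.continuous.smul hg.continuous).integrable_of_hasCompactSupport hc.smul_right)
    (fun z _ => ha.differentiable (by simp) z) (fun z _ => hg.differentiable (by simp) z)
  simp only [hd, smul_neg, integral_neg, neg_inj] at h
  exact h

/-- The cut-off removed from the origin at scale `1 / (n + 1)`. -/
def originBump : ContDiffBump (0 : R4) := ⟨1 / 2, 1, by norm_num, by norm_num⟩

/-- One outside the ball of radius `1 / (n + 1)`, zero near the origin. -/
def away (n : ℕ) (z : R4) : ℝ := 1 - originBump (((n : ℝ) + 1) • z)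

lemma away_smooth (n : ℕ) : ContDiff ℝ ∞ (away n) :=
  contDiff_const.sub (originBump.contDiff.comp (contDiff_const_smul _))

lemma away_abs (n : ℕ) (z : R4) : |away n z| ≤ 1 := by
  rw [away, abs_le]
  constructor <;> linarith [originBump.nonneg (x := ((n : ℝ) + 1) • z),
    originBump.le_one (x := ((n : ℝ) + 1) • z)]

lemma away_eventually (n : ℕ) {z : R4} (hz : 1 < ((n : ℝ) + 1) * ‖z‖) :
    away n =ᶠ[𝓝 z] fun _ => 1 := by
  have ho : IsOpen {y : R4 | 1 < ((n : ℝ) + 1) * ‖y‖} :=
    isOpen_lt continuous_const (continuous_const.mul continuous_norm)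
  filter_upwards [ho.mem_nhds hz] with y hy
  have h : originBump (((n : ℝ) + 1) • y) = 0 := by
    refine originBump.zero_of_le_dist ?_
    rw [dist_zero_right, norm_smul, Real.norm_of_nonneg (by positivity)]
    exact hy.le
  rw [away, h, sub_zero]

lemma away_zero (n : ℕ) : away n =ᶠ[𝓝 (0 : R4)] fun _ => 0 := by
  have hc : Tendsto (fun y : R4 => ((n : ℝ) + 1) • y) (𝓝 0) (𝓝 0) := by
    simpa using (continuous_const_smul ((n : ℝ) + 1)).tendsto (0 : R4)
  filter_upwards [hc.eventually originBump.eventuallyEq_one] with y hy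
  rw [away, hy]
  simp

lemma away_deriv : ∃ L : ℝ, 0 ≤ L ∧ ∀ n z v, z ≠ 0 →
    |fderiv ℝ (away n) z v| ≤ L * ‖v‖ / ‖z‖ := by
  obtain ⟨L, hL⟩ := (originBump.hasCompactSupport.fderiv (𝕜 := ℝ)).exists_bound_of_continuous
    (originBump.contDiff.continuous_fderiv (n := 1) one_ne_zero)
  refine ⟨L, (norm_nonneg _).trans (hL 0), fun n z v hz => ?_⟩
  have hz0 : 0 < ‖z‖ := norm_pos_iff.2 hz
  by_cases hn : 1 < ((n : ℝ) + 1) * ‖z‖
  · rw [(away_eventually n hn).fderiv_eq]
    have : 0 ≤ L := (norm_nonneg _).trans (hL 0)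
    simp only [fderiv_fun_const, Pi.zero_apply, zero_apply, abs_zero]
    positivity
  · rw [not_lt] at hn
    have hd : DifferentiableAt ℝ (fun y => originBump y) (((n : ℝ) + 1) • z) :=
      (originBump.contDiff (n := 1)).differentiable one_ne_zero _
    have he := ((hd.hasFDerivAt.comp z ((hasFDerivAt_id z).const_smul ((n : ℝ) + 1))).const_sub
      1).fderiv
    have he' : fderiv ℝ (away n) z v =
        -(((n : ℝ) + 1) * fderiv ℝ originBump (((n : ℝ) + 1) • z) v) := by
      show fderiv ℝ (fun y => 1 - originBump (((n : ℝ) + 1) • y)) z v = _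
      exact (congrArg (fun T : R4 →L[ℝ] ℝ => T v) he).trans (by simp)
    rw [he', abs_neg, abs_mul, abs_of_nonneg (by positivity : (0 : ℝ) ≤ (n : ℝ) + 1),
      le_div_iff₀ hz0]
    have h1 : |fderiv ℝ originBump (((n : ℝ) + 1) • z) v| ≤ L * ‖v‖ := by
      rw [← Real.norm_eq_abs]
      exact ((fderiv ℝ originBump _).le_opNorm v).trans
        (mul_le_mul_of_nonneg_right (hL _) (norm_nonneg v))
    calc ((n : ℝ) + 1) * |fderiv ℝ originBump (((n : ℝ) + 1) • z) v| * ‖z‖
        = (((n : ℝ) + 1) * ‖z‖) * |fderiv ℝ originBump (((n : ℝ) + 1) • z) v| := by ring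
      _ ≤ 1 * (L * ‖v‖) := mul_le_mul hn h1 (abs_nonneg _) zero_le_one
      _ = L * ‖v‖ := one_mul _

/-- Integration by parts across the origin. -/
lemma byParts {r C : ℝ} {a : R4 → ℝ} {v : R4} (ha : ContDiffOn ℝ ∞ a {z | z ≠ 0})
    (hsupp : ∀ z, r ≤ ‖z‖ → a z = 0) (hb : ∀ z, z ≠ 0 → |a z| ≤ C * wt r z * ‖z‖)
    (hb' : ∀ z, z ≠ 0 → |fderiv ℝ a z v| ≤ C * wt r z) {f : R4 → W} (hf : ContDiff ℝ ∞ f)
    {B B' : ℝ} (hfB : ∀ y, ‖f y‖ ≤ B) (hfB' : ∀ y, ‖fderiv ℝ f y‖ ≤ B') (x : R4) :
    ∫ z, a z • fderiv ℝ f (x - z) v = ∫ z, fderiv ℝ a z v • f (x - z) := by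
  obtain ⟨L, hL0, hL⟩ := away_deriv
  set an : ℕ → R4 → ℝ := fun n z => away n z * a z with han
  have hsm : ∀ n, ContDiff ℝ ∞ (an n) := by
    intro n
    refine contDiff_iff_contDiffAt.2 fun z => ?_
    by_cases hz : z = 0
    · subst hz
      refine (contDiffAt_const (c := (0 : ℝ))).congr_of_eventuallyEq ?_
      filter_upwards [away_zero n] with y hy
      simp [han, hy]
    · exact (away_smooth n).contDiffAt.mul (ha.contDiffAt (isOpen_ne.mem_nhds hz))
  have hcs : ∀ n, HasCompactSupport (an n) := fun n =>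
    HasCompactSupport.of_support_subset_isCompact (isCompact_closedBall (0 : R4) r) fun z hz => by
      by_contra hn
      rw [mem_closedBall_zero_iff, not_le] at hn
      exact hz (by simp [han, hsupp z hn.le])
  have key : ∀ n, ∫ z, an n z • fderiv ℝ f (x - z) v = ∫ z, fderiv ℝ (an n) z v • f (x - z) :=
    fun n => byParts_smooth (hsm n) (hcs n) hf x v
  have hev : ∀ z : R4, z ≠ 0 → ∀ᶠ n : ℕ in atTop, away n =ᶠ[𝓝 z] fun _ => 1 := by
    intro z hz
    have hz0 : 0 < ‖z‖ := norm_pos_iff.2 hz
    filter_upwards [tendsto_natCast_atTop_atTop.eventually (eventually_gt_atTop (1 / ‖z‖))] with n hn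
    refine away_eventually n ?_
    rw [div_lt_iff₀ hz0] at hn
    linarith
  have t1 : Tendsto (fun n => ∫ z, an n z • fderiv ℝ f (x - z) v) atTop
      (𝓝 (∫ z, a z • fderiv ℝ f (x - z) v)) := by
    refine tendsto_integral_of_dominated_convergence (fun z => |C| * |r| * (B' * ‖v‖) * wt r z)
      (fun n => ((hsm n).continuous.smul (((hf.continuous_fderiv (by simp)).comp
        (continuous_const.sub continuous_id)).clm_apply continuous_const)).aestronglyMeasurable)
      ((wt_integrable r).const_mul _) (fun n => ?_) ?_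
    · filter_upwards [ae_ne_zero] with z hz
      have hw := wt_nonneg r z
      have h1 : |an n z| ≤ |C| * |r| * wt r z := by
        rw [han, abs_mul]
        by_cases hr : r ≤ ‖z‖
        · rw [hsupp z hr, abs_zero, mul_zero]; positivity
        · calc |away n z| * |a z| ≤ 1 * (C * wt r z * ‖z‖) :=
                mul_le_mul (away_abs n z) (hb z hz) (abs_nonneg _) zero_le_one
            _ ≤ |C| * wt r z * |r| := by
              rw [one_mul]
              exact mul_le_mul (mul_le_mul_of_nonneg_right (le_abs_self C) hw)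
                ((not_le.1 hr).le.trans (le_abs_self r)) (norm_nonneg _) (by positivity)
            _ = |C| * |r| * wt r z := by ring
      rw [norm_smul, Real.norm_eq_abs]
      calc |an n z| * ‖fderiv ℝ f (x - z) v‖ ≤ (|C| * |r| * wt r z) * (B' * ‖v‖) :=
            mul_le_mul h1 (((fderiv ℝ f _).le_opNorm v).trans
              (mul_le_mul_of_nonneg_right (hfB' _) (norm_nonneg _))) (norm_nonneg _) (by positivity)
        _ = _ := by ring
    · filter_upwards [ae_ne_zero] with z hz
      refine tendsto_const_nhds.congr' ?_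
      filter_upwards [hev z hz] with n hn
      simp [han, hn.eq_of_nhds]
  have t2 : Tendsto (fun n => ∫ z, fderiv ℝ (an n) z v • f (x - z)) atTop
      (𝓝 (∫ z, fderiv ℝ a z v • f (x - z))) := by
    refine tendsto_integral_of_dominated_convergence
      (fun z => |C| * (1 + L * ‖v‖) * B * wt r z)
      (fun n => ((((hsm n).continuous_fderiv (by simp)).clm_apply continuous_const).smul
        (hf.continuous.comp (continuous_const.sub continuous_id))).aestronglyMeasurable)
      ((wt_integrable r).const_mul _) (fun n => ?_) ?_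
    · filter_upwards [ae_ne_zero] with z hz
      have hw := wt_nonneg r z
      have hz0 : 0 < ‖z‖ := norm_pos_iff.2 hz
      have hda := (ha.contDiffAt (isOpen_ne.mem_nhds hz)).differentiableAt (by simp)
      have he : fderiv ℝ (an n) z v =
          away n z * fderiv ℝ a z v + a z * fderiv ℝ (away n) z v := by
        have h := (((away_smooth n).differentiable (by simp) z).hasFDerivAt.mul hda.hasFDerivAt).fderiv
        exact (congrArg (fun T : R4 →L[ℝ] ℝ => T v) h).trans (by simp)
      have h1 : |fderiv ℝ (an n) z v| ≤ |C| * (1 + L * ‖v‖) * wt r z := by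
        rw [he]
        refine (abs_add_le _ _).trans ?_
        rw [abs_mul, abs_mul]
        have e1 : |away n z| * |fderiv ℝ a z v| ≤ 1 * (|C| * wt r z) :=
          mul_le_mul (away_abs n z)
            ((hb' z hz).trans (mul_le_mul_of_nonneg_right (le_abs_self C) hw)) (abs_nonneg _)
            zero_le_one
        have e2 : |a z| * |fderiv ℝ (away n) z v| ≤ |C| * wt r z * ‖z‖ * (L * ‖v‖ / ‖z‖) :=
          mul_le_mul ((hb z hz).trans (by gcongr; exact le_abs_self C)) (hL n z v hz)
            (abs_nonneg _) (by positivity)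
        have e3 : |C| * wt r z * ‖z‖ * (L * ‖v‖ / ‖z‖) = |C| * wt r z * (L * ‖v‖) := by field_simp
        linarith
      rw [norm_smul, Real.norm_eq_abs]
      calc |fderiv ℝ (an n) z v| * ‖f (x - z)‖ ≤ (|C| * (1 + L * ‖v‖) * wt r z) * B :=
            mul_le_mul h1 (hfB _) (norm_nonneg _) ((abs_nonneg _).trans h1)
        _ = _ := by ring
    · filter_upwards [ae_ne_zero] with z hz
      refine tendsto_const_nhds.congr' ?_
      filter_upwards [hev z hz] with n hn
      have : an n =ᶠ[𝓝 z] a := by filter_upwards [hn] with y hy; simp [han, hy]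
      rw [this.fderiv_eq]
  exact tendsto_nhds_unique (t1.congr key) t2

/-! ### Inner products -/

/-- The quadratic form. -/
def qf (g : Bil) (z : R4) : ℝ := g z z

/-- The Gram determinant. -/
def gdet (g : Bil) : ℝ := Matrix.det (Matrix.of fun i j => g (bvec i) (bvec j))

/-- The mass of the regularised Laplacian, before the change of variables. -/
def stdMass : ℝ := ∫ t : R4, ((‖t‖ ^ 2 + 1) ^ 3)⁻¹

lemma integrable_stdMass : Integrable fun t : R4 => ((‖t‖ ^ 2 + 1) ^ 3)⁻¹ := by
  have h := integrable_rpow_neg_one_add_norm_sq (E := R4) (μ := volume) (r := 6)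
    (by rw [finrank_euclideanSpace_fin]; norm_num)
  refine h.congr (.of_forall fun t => ?_)
  simp only
  rw [show (-(6 : ℝ) / 2) = -((3 : ℕ) : ℝ) by norm_num, Real.rpow_neg (by positivity),
    Real.rpow_natCast, add_comm]

lemma stdMass_pos : 0 < stdMass :=
  (integral_pos_iff_support_of_nonneg (fun t : R4 => by positivity) integrable_stdMass).2 <| by
    have : Function.support (fun t : R4 => ((‖t‖ ^ 2 + 1) ^ 3)⁻¹) = univ :=
      eq_univ_of_forall fun t => by
        simp only [Function.mem_support]; positivity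
    rw [this]
    exact isOpen_univ.measure_pos volume univ_nonempty

/-- An orthonormal frame. -/
lemma exists_orthoFrame (g : Bil) (hs : ∀ u v, g u v = g v u) (hp : ∀ v, v ≠ 0 → 0 < g v v) :
    ∃ L : R4 ≃L[ℝ] R4, ∀ u v, g (L u) (L v) = ∑ i, u i * v i := by
  set B : LinearMap.BilinForm ℝ R4 := g.toLinearMap₁₂ with hB
  have hBa : ∀ u v, B u v = g u v := fun u v => rfl
  obtain ⟨e, he⟩ := LinearMap.BilinForm.exists_orthogonal_basis (B := B)
    ⟨fun u v => by simpa [hBa] using hs u v⟩
  set e' : Module.Basis (Fin 4) ℝ R4 := e.reindex (finCongr finrank_euclideanSpace_fin)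
  have ho : ∀ i j, i ≠ j → g (e' i) (e' j) = 0 := fun i j hij => by
    simp only [e', Module.Basis.reindex_apply]
    exact he fun h => hij ((finCongr finrank_euclideanSpace_fin).symm.injective h)
  set P : Fin 4 → R4 := fun i => (Real.sqrt (g (e' i) (e' i)))⁻¹ • e' i
  have hP : ∀ i j, g (P i) (P j) = if i = j then 1 else 0 := by
    intro i j
    simp only [P, map_smul, smul_apply, smul_eq_mul]
    split_ifs with h
    · subst h
      have := hp _ (e'.ne_zero i)
      rw [← mul_assoc, ← mul_inv, Real.mul_self_sqrt this.le, inv_mul_cancel₀ this.ne']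
    · rw [ho i j h, mul_zero, mul_zero]
  set T : R4 →ₗ[ℝ] R4 :=
    ∑ i : Fin 4, (EuclideanSpace.proj i : R4 →L[ℝ] ℝ).toLinearMap.smulRight (P i)
  have hT : ∀ u, T u = ∑ i, u i • P i := fun u => by simp [T]
  have key : ∀ u v, g (T u) (T v) = ∑ i, u i * v i := fun u v => by
    simp [hT, map_sum, hP]
    exact Finset.sum_congr rfl fun i _ => mul_comm _ _
  have hinj : Function.Injective T := by
    refine (injective_iff_map_eq_zero T).2 fun u hu => ?_
    have h := key u u
    rw [hu, map_zero] at h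
    ext i
    have := (Finset.sum_eq_zero_iff_of_nonneg fun i _ => mul_self_nonneg (u i)).1 h.symm i
      (Finset.mem_univ i)
    simpa using mul_self_eq_zero.1 this
  exact ⟨(LinearEquiv.ofInjectiveEndo T hinj).toContinuousLinearEquiv, key⟩

section Frame

variable {g : Bil} {L : R4 ≃L[ℝ] R4} (hL : ∀ u v, g (L u) (L v) = ∑ i, u i * v i)

include hL

lemma frame_orth (k l : Fin 4) :
    g (L (bvec k)) (L (bvec l)) = if k = l then 1 else 0 := by
  rw [hL]; simp [bvec, EuclideanSpace.single, PiLp.single_apply, eq_comm]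

lemma frame_sum_sq (z : R4) : ∑ m, g z (L (bvec m)) ^ 2 = qf g z := by
  obtain ⟨y, rfl⟩ : ∃ y, z = L y := ⟨L.symm z, (L.apply_symm_apply z).symm⟩
  rw [qf]
  simp only [hL]
  refine Finset.sum_congr rfl fun m _ => ?_
  simp [bvec, EuclideanSpace.single, PiLp.single_apply, pow_two]

lemma frame_qf (y : R4) : qf g (L y) = ‖y‖ ^ 2 := by
  rw [qf, hL, EuclideanSpace.real_norm_sq_eq]
  exact Finset.sum_congr rfl fun i _ => (sq _).symm

lemma frame_lower (z : R4) : ‖z‖ ^ 2 ≤ ‖(L : R4 →L[ℝ] R4)‖ ^ 2 * qf g z := by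
  obtain ⟨y, rfl⟩ : ∃ y, z = L y := ⟨L.symm z, (L.apply_symm_apply z).symm⟩
  rw [frame_qf hL, ← mul_pow]
  exact pow_le_pow_left₀ (norm_nonneg _) ((L : R4 →L[ℝ] R4).le_opNorm y) 2

lemma frame_gdet : LinearMap.det ((L : R4 →L[ℝ] R4) : R4 →ₗ[ℝ] R4) ^ 2 * gdet g = 1 := by
  set M : Matrix (Fin 4) (Fin 4) ℝ := Matrix.of fun i j => L (bvec j) i
  have hM : LinearMap.det ((L : R4 →L[ℝ] R4) : R4 →ₗ[ℝ] R4) = M.det := by
    rw [← LinearMap.det_toMatrix (EuclideanSpace.basisFun (Fin 4) ℝ).toBasis]
    congr 1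
  have hex : ∀ v : R4, v = ∑ i, v i • bvec i := fun v => by
    ext j; simp [bvec, Pi.single_apply]
  have h1 : M.transpose * (Matrix.of fun i j => g (bvec i) (bvec j)) * M = 1 := by
    ext k l
    have h := frame_orth hL k l
    rw [hex (L (bvec k)), hex (L (bvec l))] at h
    rw [Matrix.one_apply, ← h]
    simp only [map_sum, map_smul, sum_apply, smul_apply, smul_eq_mul,
      Matrix.mul_apply, Matrix.transpose_apply, M, Matrix.of_apply, Finset.mul_sum, Finset.sum_mul]
    refine Finset.sum_congr rfl fun i _ => Finset.sum_congr rfl fun j _ => ?_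
    ring
  have h2 := congrArg Matrix.det h1
  rw [Matrix.det_mul, Matrix.det_mul, Matrix.det_transpose, Matrix.det_one] at h2
  rw [hM]
  simp only [gdet]
  linear_combination h2

lemma gdet_pos : 0 < gdet g := by
  have h := frame_gdet hL
  by_contra hn
  rw [not_lt] at hn
  have := mul_nonpos_of_nonneg_of_nonpos
    (sq_nonneg (LinearMap.det ((L : R4 →L[ℝ] R4) : R4 →ₗ[ℝ] R4))) hn
  linarith

lemma integrable_mass : Integrable fun t : R4 => ((qf g t + 1) ^ 3)⁻¹ := by
  set c := 1 + ‖(L : R4 →L[ℝ] R4)‖ ^ 2 with hc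
  have hc0 : 0 < c := by positivity
  refine (integrable_stdMass.const_mul (c ^ 3)).mono'
    (Continuous.aestronglyMeasurable ?_) (.of_forall fun t => ?_)
  · refine Continuous.inv₀ (((g.continuous.clm_apply continuous_id).add continuous_const).pow 3)
      fun t => ?_
    have : 0 ≤ qf g t := by rw [← frame_sum_sq hL]; positivity
    exact pow_ne_zero 3 (by simp only [qf] at this ⊢; linarith)
  · have h0 : 0 ≤ qf g t := by rw [← frame_sum_sq hL]; positivity
    have h1 : ‖t‖ ^ 2 + 1 ≤ c * (qf g t + 1) := by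
      have := frame_lower hL t
      rw [hc]
      nlinarith
    rw [Real.norm_of_nonneg (by positivity), ← div_eq_mul_inv, le_div_iff₀ (by positivity),
      inv_mul_le_iff₀ (by positivity)]
    calc (‖t‖ ^ 2 + 1) ^ 3 ≤ (c * (qf g t + 1)) ^ 3 := pow_le_pow_left₀ (by positivity) h1 3
      _ = (qf g t + 1) ^ 3 * c ^ 3 := by ring

/-- The mass in any inner product. -/
lemma mass_eq : ∫ t : R4, ((qf g t + 1) ^ 3)⁻¹ = stdMass / Real.sqrt (gdet g) := by
  set d := LinearMap.det ((L : R4 →L[ℝ] R4) : R4 →ₗ[ℝ] R4) with hd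
  have hd0 : d ≠ 0 := fun h => by
    have := frame_gdet hL; rw [← hd, h] at this; simp at this
  set F : R4 → ℝ := fun t => ((qf g t + 1) ^ 3)⁻¹
  have h1 : ∫ t, F t ∂(Measure.map L (volume : Measure R4)) = ∫ t, F (L t) :=
    L.toHomeomorph.measurableEmbedding.integral_map F
  have hmap : Measure.map L (volume : Measure R4) = ENNReal.ofReal |d⁻¹| • volume :=
    Measure.map_linearMap_addHaar_eq_smul_addHaar volume hd0
  rw [hmap, integral_smul_measure, ENNReal.toReal_ofReal (abs_nonneg _), smul_eq_mul] at h1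
  have h2 : ∫ t, F (L t) = stdMass := by
    simp only [F, frame_qf hL]; rfl
  rw [h2] at h1
  have h3 : Real.sqrt (gdet g) = |d⁻¹| := by
    rw [← Real.sqrt_sq_eq_abs]
    congr 1
    have := frame_gdet hL
    rw [← hd] at this
    field_simp
    linarith
  rw [h3, eq_div_iff (abs_ne_zero.2 (inv_ne_zero hd0)), mul_comm]
  exact h1

end Frame

/-! ### The Newton kernel -/

/-- The regularised kernel. -/
def newtonKer (g : Bil) (ε : ℝ) (z : R4) : ℝ := (qf g z + ε)⁻¹

/-- Its derivative. -/
def newtonD (g : Bil) (ε : ℝ) (v z : R4) : ℝ := -(2 * g z v) / (qf g z + ε) ^ 2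

lemma hasFDerivAt_qf (g : Bil) (hs : ∀ u v, g u v = g v u) (z : R4) :
    HasFDerivAt (qf g) ((2 : ℝ) • g z) z := by
  refine ((g.hasFDerivAt (x := z)).clm_apply (hasFDerivAt_id z)).congr_fderiv ?_
  ext v
  simp [hs v z]; ring

lemma contDiff_qf (g : Bil) : ContDiff ℝ ∞ (qf g) := g.contDiff.clm_apply contDiff_id

lemma newtonKer_fderiv {g : Bil} (hs : ∀ u v, g u v = g v u) {ε : ℝ} {z : R4}
    (hz : qf g z + ε ≠ 0) (v : R4) : fderiv ℝ (newtonKer g ε) z v = newtonD g ε v z := by
  have h := (hasDerivAt_inv hz).comp_hasFDerivAt z ((hasFDerivAt_qf g hs z).add_const ε)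
  rw [show fderiv ℝ (newtonKer g ε) z = _ from h.fderiv]
  simp [newtonD, div_eq_mul_inv]
  ring

lemma newtonD_fderiv {g : Bil} (hs : ∀ u v, g u v = g v u) {ε : ℝ} {z : R4}
    (hz : qf g z + ε ≠ 0) (v : R4) : fderiv ℝ (newtonD g ε v) z v =
      8 * g z v ^ 2 / (qf g z + ε) ^ 3 - 2 * g v v / (qf g z + ε) ^ 2 := by
  have h1 : HasFDerivAt (fun y => -(2 * g y v)) (-((2 : ℝ) • g.flip v)) z :=
    (((g.flip v).hasFDerivAt (x := z)).const_mul 2).neg
  have h2 := (((hasFDerivAt_qf g hs z).add_const ε).pow 2)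
  have h3 := (hasDerivAt_inv (pow_ne_zero 2 hz)).comp_hasFDerivAt z h2
  have h := h1.mul h3
  rw [show fderiv ℝ (newtonD g ε v) z = _ from h.fderiv]
  simp
  field_simp
  ring

lemma qf_nonneg {g : Bil} (hp : ∀ v, v ≠ 0 → 0 < g v v) (z : R4) : 0 ≤ qf g z := by
  rcases eq_or_ne z 0 with rfl | h
  · simp [qf]
  · exact (hp z h).le

lemma tendsto_sq_one_div :
    Tendsto (fun n : ℕ => (1 / ((n : ℝ) + 1)) ^ 2) atTop (𝓝 0) := by
  simpa using (tendsto_one_div_add_atTop_nhds_zero_nat (𝕜 := ℝ)).pow 2

variable [CompleteSpace W]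

/-- Concentration of the regularised Laplacian. -/
lemma newton_peak {g : Bil} {L : R4 ≃L[ℝ] R4} (hL : ∀ u v, g (L u) (L v) = ∑ i, u i * v i)
    {θ : R4 → ℝ} (hθ : Continuous θ) {Bθ : ℝ} (hBθ : ∀ z, |θ z| ≤ Bθ) {h : R4 → W}
    (hh : Continuous h) {B : ℝ} (hB : ∀ z, ‖h z‖ ≤ B) :
    Tendsto (fun n : ℕ => ∫ z, (θ z * ((1 / ((n : ℝ) + 1)) ^ 2 /
      (qf g z + (1 / ((n : ℝ) + 1)) ^ 2) ^ 3)) • h z) atTop
      (𝓝 ((θ 0 * (stdMass / Real.sqrt (gdet g))) • h 0)) := by
  set s : ℕ → ℝ := fun n => 1 / ((n : ℝ) + 1) with hs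
  have hspos : ∀ n, 0 < s n := fun n => by simp only [hs]; positivity
  have hq : ∀ t, 0 ≤ qf g t := fun t => by rw [← frame_sum_sq hL]; positivity
  have e : ∀ n, ∫ z, (θ z * (s n ^ 2 / (qf g z + s n ^ 2) ^ 3)) • h z =
      ∫ t, (θ (s n • t) * ((qf g t + 1) ^ 3)⁻¹) • h (s n • t) := by
    intro n
    have hc := Measure.integral_comp_smul (volume : Measure R4)
      (fun z => (θ z * (s n ^ 2 / (qf g z + s n ^ 2) ^ 3)) • h z) (s n)
    rw [finrank_euclideanSpace_fin, abs_of_pos (by have := hspos n; positivity)] at hc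
    have h4 : (s n ^ 4) ≠ 0 := pow_ne_zero 4 (hspos n).ne'
    have hc' := congrArg (fun w => s n ^ 4 • w) hc
    simp only [smul_smul, mul_inv_cancel₀ h4, one_smul] at hc'
    rw [← hc', ← integral_smul]
    refine integral_congr_ae (.of_forall fun t => ?_)
    simp only [smul_smul]
    congr 1
    have hqs : qf g (s n • t) = s n ^ 2 * qf g t := by
      simp only [qf, map_smul, smul_apply, smul_eq_mul]; ring
    rw [hqs]
    have := hspos n
    have := hq t
    field_simp
  change Tendsto (fun n : ℕ => ∫ z, (θ z * (s n ^ 2 / (qf g z + s n ^ 2) ^ 3)) • h z) atTop _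
  simp only [e]
  have ht : ∫ t, (θ 0 * ((qf g t + 1) ^ 3)⁻¹) • h 0 =
      (θ 0 * (stdMass / Real.sqrt (gdet g))) • h 0 := by
    rw [integral_smul_const, integral_const_mul, mass_eq hL]
  rw [← ht]
  have hq1 : Continuous fun t : R4 => qf g t + 1 :=
    (contDiff_qf g).continuous.add continuous_const
  have hqc : Continuous fun t => ((qf g t + 1) ^ 3)⁻¹ :=
    (hq1.pow 3).inv₀ fun t => pow_ne_zero 3 (by have := hq t; linarith)
  refine tendsto_integral_of_dominated_convergence
    (fun t => (Bθ * B) * ((qf g t + 1) ^ 3)⁻¹)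
    (fun n => (((hθ.comp (continuous_const_smul _)).mul hqc).smul
      (hh.comp (continuous_const_smul _))).aestronglyMeasurable)
    ((integrable_mass hL).const_mul _) (fun n => .of_forall fun t => ?_) (.of_forall fun t => ?_)
  · have := hq t
    rw [norm_smul, norm_mul, Real.norm_eq_abs, Real.norm_of_nonneg (by positivity)]
    calc |θ (s n • t)| * ((qf g t + 1) ^ 3)⁻¹ * ‖h (s n • t)‖
        ≤ Bθ * ((qf g t + 1) ^ 3)⁻¹ * B :=
          mul_le_mul (mul_le_mul_of_nonneg_right (hBθ _) (by positivity)) (hB _) (norm_nonneg _)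
            (mul_nonneg ((abs_nonneg _).trans (hBθ 0)) (by positivity))
      _ = _ := by ring
  · have hst : Tendsto (fun n => s n • t) atTop (𝓝 (0 : R4)) := by
      have h1 : Tendsto s atTop (𝓝 0) := tendsto_one_div_add_atTop_nhds_zero_nat
      simpa using h1.smul_const t
    exact (((hθ.tendsto 0).comp hst).mul_const _).smul ((hh.tendsto 0).comp hst)

/-- The remainder of the Newton identity. -/
def newtonRest (g : Bil) (ε : ℝ) (θ : R4 → ℝ) (P : Fin 4 → R4) (z : R4) : ℝ :=
  ∑ m, (fderiv ℝ (fun y => fderiv ℝ θ y (P m)) z (P m) * newtonKer g ε z +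
    2 * (fderiv ℝ θ z (P m) * newtonD g ε (P m) z))

/-- The Newton identity: `1 / g(z,z)` inverts the Laplacian of `g`. -/
theorem newton {g : Bil} (hs : ∀ u v, g u v = g v u) (hp : ∀ v, v ≠ 0 → 0 < g v v)
    {L : R4 ≃L[ℝ] R4} (hL : ∀ u v, g (L u) (L v) = ∑ i, u i * v i)
    {θ : R4 → ℝ} (hθ : ContDiff ℝ ∞ θ) {r : ℝ} (hr : r ≤ 1) (hsupp : ∀ z, r ≤ ‖z‖ → θ z = 0)
    (hsupp' : ∀ z, r ≤ ‖z‖ → fderiv ℝ θ z = 0) (hsupp'' : ∀ z, r ≤ ‖z‖ → ∀ v,
      fderiv ℝ (fun y => fderiv ℝ θ y v) z v = 0)
    {f : R4 → W} (hf : ContDiff ℝ ∞ f) {B : ℕ → ℝ}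
    (hB : ∀ m x, ‖iteratedFDeriv ℝ m f x‖ ≤ B m) (x : R4) :
    ∫ z, (θ z * newtonKer g 0 z) •
        ∑ m, fderiv ℝ (fderiv ℝ f) (x - z) (L (bvec m)) (L (bvec m)) =
      (-8 * (θ 0 * (stdMass / Real.sqrt (gdet g)))) • f x +
        ∫ z, newtonRest g 0 θ (fun m => L (bvec m)) z • f (x - z) := by
  set P : Fin 4 → R4 := fun m => L (bvec m) with hP
  set ε : ℕ → ℝ := fun n => (1 / ((n : ℝ) + 1)) ^ 2 with hεdef
  have hε : ∀ n, 0 < ε n := fun n => by simp only [hεdef]; positivity
  have hε0 : Tendsto ε atTop (𝓝 0) := tendsto_sq_one_div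
  have hq : ∀ z, 0 ≤ qf g z := qf_nonneg hp
  have hne : ∀ n z, qf g z + ε n ≠ 0 := fun n z => by have := hq z; have := hε n; linarith
  have hqc : Continuous (qf g) := (contDiff_qf g).continuous
  obtain ⟨Bθ, hBθ⟩ := (HasCompactSupport.of_support_subset_isCompact (isCompact_closedBall (0 : R4) r)
    (fun z hz => by
      by_contra h
      rw [mem_closedBall_zero_iff, not_le] at h
      exact hz (hsupp z h.le))).exists_bound_of_continuous hθ.continuous
  have hθc : HasCompactSupport θ :=
    HasCompactSupport.of_support_subset_isCompact (isCompact_closedBall (0 : R4) r) fun z hz => by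
      by_contra h
      rw [mem_closedBall_zero_iff, not_le] at h
      exact hz (hsupp z h.le)
  have hθ1 : ∀ m, ContDiff ℝ ∞ fun y => fderiv ℝ θ y (P m) := fun m =>
    (hθ.fderiv_right (by simp)).clm_apply contDiff_const
  obtain ⟨D1, hD1⟩ := (hθc.fderiv (𝕜 := ℝ)).exists_bound_of_continuous
    (hθ.continuous_fderiv (by simp))
  have hD2' : ∀ m, ∃ D, ∀ z, ‖fderiv ℝ (fun y => fderiv ℝ θ y (P m)) z (P m)‖ ≤ D := fun m =>
    ((hθc.fderiv_apply ℝ (P m)).fderiv_apply ℝ (P m)).exists_bound_of_continuous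
      (((hθ1 m).continuous_fderiv (by simp)).clm_apply continuous_const)
  choose D2 hD2 using hD2'
  set l := ‖(L : R4 →L[ℝ] R4)‖ with hl
  have hlow : ∀ z : R4, z ≠ 0 → ∀ e : ℝ, 0 ≤ e → (qf g z + e)⁻¹ ≤ l ^ 2 * (‖z‖ ^ 2)⁻¹ ∧
      0 ≤ (qf g z + e)⁻¹ := by
    intro z hz e he
    have hq0 : 0 < qf g z := hp z hz
    have hz0 : 0 < ‖z‖ := norm_pos_iff.2 hz
    refine ⟨?_, inv_nonneg.2 (by linarith)⟩
    calc (qf g z + e)⁻¹ ≤ (qf g z)⁻¹ := inv_anti₀ hq0 (by linarith)
      _ ≤ _ := by
        rw [← div_eq_mul_inv, le_div_iff₀ (by positivity), inv_mul_le_iff₀ hq0, mul_comm]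
        exact frame_lower hL z
  have hwt : ∀ z : R4, z ≠ 0 → ‖z‖ < r → (‖z‖ ^ 2)⁻¹ ≤ wt r z ∧ wt r z = (‖z‖ ^ 3)⁻¹ := by
    intro z hz hzr
    have hz0 : 0 < ‖z‖ := norm_pos_iff.2 hz
    have e : wt r z = (‖z‖ ^ 3)⁻¹ := Set.indicator_of_mem (by simpa using hzr) _
    refine ⟨?_, e⟩
    rw [e]
    exact inv_anti₀ (by positivity) (pow_le_pow_of_le_one hz0.le (hzr.le.trans hr) (by norm_num))
  have hf0 : ∀ y, ‖f y‖ ≤ B 0 := fun y => by simpa using hB 0 y
  have hf1 : ContDiff ℝ ∞ (fderiv ℝ f) := hf.fderiv_right (by simp)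
  have hf2 : ∀ y, ‖fderiv ℝ (fderiv ℝ f) y‖ ≤ B 2 := fun y => by
    have h := hB 2 y
    rw [← norm_iteratedFDeriv_fderiv, norm_iteratedFDeriv_one] at h
    exact h
  set Lap : R4 → W := fun z => ∑ m, fderiv ℝ (fderiv ℝ f) (x - z) (P m) (P m) with hLap
  have hLc : Continuous Lap := continuous_finsetSum _ fun m _ =>
    ((((hf1.continuous_fderiv (by simp)).comp (continuous_const.sub continuous_id)).clm_apply
      continuous_const).clm_apply continuous_const)
  have hLb : ∀ z, ‖Lap z‖ ≤ ∑ m, B 2 * ‖P m‖ * ‖P m‖ := fun z =>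
    (norm_sum_le _ _).trans (Finset.sum_le_sum fun m _ =>
      ((fderiv ℝ (fderiv ℝ f) (x - z)).le_opNorm₂ _ _).trans
        (mul_le_mul_of_nonneg_right (mul_le_mul_of_nonneg_right (hf2 _) (norm_nonneg _))
          (norm_nonneg _)))
  set A : ℝ := ∑ m, B 2 * ‖P m‖ * ‖P m‖ with hA
  have hcE : ∀ n, Continuous fun z => newtonKer g (ε n) z := fun n =>
    (hqc.add continuous_const).inv₀ (hne n)
  have t1 : Tendsto (fun n => ∫ z, (θ z * newtonKer g (ε n) z) • Lap z) atTop
      (𝓝 (∫ z, (θ z * newtonKer g 0 z) • Lap z)) := by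
    refine tendsto_integral_of_dominated_convergence (fun z => Bθ * l ^ 2 * A * wt r z)
      (fun n => ((hθ.continuous.mul (hcE n)).smul hLc).aestronglyMeasurable)
      ((wt_integrable r).const_mul _) (fun n => ?_) ?_
    · filter_upwards [ae_ne_zero] with z hz
      have hw := wt_nonneg r z
      have hA0 : 0 ≤ A := (norm_nonneg _).trans (hLb 0)
      have hB0 : 0 ≤ Bθ := (norm_nonneg _).trans (hBθ 0)
      by_cases hzr : r ≤ ‖z‖
      · rw [hsupp z hzr, zero_mul, zero_smul, norm_zero]; positivity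
      · obtain ⟨h2, -⟩ := hwt z hz (not_le.1 hzr)
        obtain ⟨h3, h4⟩ := hlow z hz (ε n) (hε n).le
        rw [norm_smul, norm_mul, Real.norm_of_nonneg (r := newtonKer g (ε n) z) h4]
        calc ‖θ z‖ * newtonKer g (ε n) z * ‖Lap z‖ ≤ Bθ * (l ^ 2 * wt r z) * A := by
              refine mul_le_mul (mul_le_mul (hBθ z) (h3.trans ?_) h4 hB0) (hLb z)
                (norm_nonneg _) (by positivity)
              exact mul_le_mul_of_nonneg_left h2 (sq_nonneg _)
          _ = _ := by ring
    · filter_upwards [ae_ne_zero] with z hz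
      have hne0 : qf g z ≠ 0 := (hp z hz).ne'
      refine ((tendsto_const_nhds (x := θ z)).mul ?_).smul_const (Lap z)
      have := (hε0.const_add (qf g z)).inv₀ (by simpa using hne0)
      exact this
  have key : ∀ n, ∫ z, (θ z * newtonKer g (ε n) z) • Lap z =
      (∫ z, newtonRest g (ε n) θ P z • f (x - z)) +
        (-8 : ℝ) • ∫ z, (θ z * (ε n / (qf g z + ε n) ^ 3)) • f (x - z) := by
    intro n
    have hK : ContDiff ℝ ∞ (newtonKer g (ε n)) :=
      ((contDiff_qf g).add contDiff_const).inv (hne n)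
    have ha : ContDiff ℝ ∞ fun z => θ z * newtonKer g (ε n) z := hθ.mul hK
    have hac : HasCompactSupport fun z => θ z * newtonKer g (ε n) z := hθc.mul_right
    have ha1 : ∀ v, ContDiff ℝ ∞ fun y => fderiv ℝ (fun z => θ z * newtonKer g (ε n) z) y v :=
      fun v => (ha.fderiv_right (by simp)).clm_apply contDiff_const
    have hac1 : ∀ v, HasCompactSupport
        fun y => fderiv ℝ (fun z => θ z * newtonKer g (ε n) z) y v := fun v => hac.fderiv_apply ℝ v
    have hac2 : ∀ v, HasCompactSupport fun y =>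
        fderiv ℝ (fun y => fderiv ℝ (fun z => θ z * newtonKer g (ε n) z) y v) y v := fun v =>
      (hac1 v).fderiv_apply ℝ v
    have hg2 : ∀ v y, fderiv ℝ (fderiv ℝ f) y v v = fderiv ℝ (fun y => fderiv ℝ f y v) y v := by
      intro v y
      have h := ((hf1.differentiable (by simp) y).hasFDerivAt.clm_apply
        (hasFDerivAt_const v y)).fderiv
      exact ((congrArg (fun T : R4 →L[ℝ] W => T v) h).trans (by simp)).symm
    have step : ∀ m, ∫ z, (θ z * newtonKer g (ε n) z) •
        fderiv ℝ (fderiv ℝ f) (x - z) (P m) (P m) =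
          ∫ z, fderiv ℝ (fun y => fderiv ℝ (fun z => θ z * newtonKer g (ε n) z) y (P m)) z (P m) •
            f (x - z) := by
      intro m
      simp only [hg2]
      rw [byParts_smooth ha hac (hf1.clm_apply contDiff_const) x (P m),
        byParts_smooth (ha1 (P m)) (hac1 (P m)) hf x (P m)]
    have i1 : ∀ m ∈ (Finset.univ : Finset (Fin 4)), Integrable fun z =>
        (θ z * newtonKer g (ε n) z) • fderiv ℝ (fderiv ℝ f) (x - z) (P m) (P m) := fun m _ =>
      (ha.continuous.smul ((((hf1.continuous_fderiv (by simp)).comp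
        (continuous_const.sub continuous_id)).clm_apply continuous_const).clm_apply
          continuous_const)).integrable_of_hasCompactSupport hac.smul_right
    have i2 : ∀ m ∈ (Finset.univ : Finset (Fin 4)), Integrable fun z =>
        fderiv ℝ (fun y => fderiv ℝ (fun z => θ z * newtonKer g (ε n) z) y (P m)) z (P m) •
          f (x - z) := fun m _ =>
      ((((ha1 (P m)).continuous_fderiv (by simp)).clm_apply continuous_const).smul
        (hf.continuous.comp (continuous_const.sub continuous_id))).integrable_of_hasCompactSupport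
          (hac2 (P m)).smul_right
    have e2 : ∀ z, ∑ m, fderiv ℝ (fun y => fderiv ℝ (fun z => θ z * newtonKer g (ε n) z) y (P m)) z (P m)
        = newtonRest g (ε n) θ P z + -8 * (θ z * (ε n / (qf g z + ε n) ^ 3)) := by
      intro z
      have e1 : ∀ v, (fun y => fderiv ℝ (fun z => θ z * newtonKer g (ε n) z) y v) =
          fun y => θ y * newtonD g (ε n) v y + newtonKer g (ε n) y * fderiv ℝ θ y v := fun v => by
        funext y
        have h := ((hθ.differentiable (by simp) y).hasFDerivAt.mul
          (hK.differentiable (by simp) y).hasFDerivAt).fderiv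
        rw [← newtonKer_fderiv hs (hne n y) v]
        exact (congrArg (fun T : R4 →L[ℝ] ℝ => T v) h).trans (by simp)
      have hD : ∀ v, DifferentiableAt ℝ (newtonD g (ε n) v) z := fun v => by
        show DifferentiableAt ℝ (fun y => -(2 * g y v) * ((qf g y + ε n) ^ 2)⁻¹) z
        have hn : DifferentiableAt ℝ (fun y => g y v) z := (g.flip v).differentiableAt
        have hd : DifferentiableAt ℝ (fun y => (qf g y + ε n) ^ 2) z :=
          (((contDiff_qf g).differentiable (by simp) z).add_const (ε n)).fun_pow 2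
        exact (hn.const_mul 2).fun_neg.fun_mul (hd.fun_inv (pow_ne_zero 2 (hne n z)))
      have e3 : ∀ m, fderiv ℝ (fun y => fderiv ℝ (fun z => θ z * newtonKer g (ε n) z) y (P m)) z (P m)
          = fderiv ℝ (fun y => fderiv ℝ θ y (P m)) z (P m) * newtonKer g (ε n) z +
            2 * (fderiv ℝ θ z (P m) * newtonD g (ε n) (P m) z) +
            θ z * (8 * g z (P m) ^ 2 / (qf g z + ε n) ^ 3 -
              2 * g (P m) (P m) / (qf g z + ε n) ^ 2) := by
        intro m
        rw [e1 (P m)]
        have h := (((hθ.differentiable (by simp) z).hasFDerivAt.mul (hD (P m)).hasFDerivAt).add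
          ((hK.differentiable (by simp) z).hasFDerivAt.mul
            ((hθ1 m).differentiable (by simp) z).hasFDerivAt)).fderiv
        refine (congrArg (fun T : R4 →L[ℝ] ℝ => T (P m)) h).trans ?_
        simp only [add_apply, smul_apply, smul_eq_mul, newtonKer_fderiv hs (hne n z),
          newtonD_fderiv hs (hne n z)]
        ring
      have hone : ∀ m, g (P m) (P m) = 1 := fun m => by simpa [hP] using frame_orth hL m m
      have hsum : ∑ m, g z (P m) ^ 2 = qf g z := frame_sum_sq hL z
      rw [Finset.sum_congr rfl fun m _ => e3 m, Finset.sum_add_distrib]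
      congr 1
      simp only [hone, ← Finset.mul_sum, Finset.sum_sub_distrib, ← Finset.sum_div, hsum,
        Finset.sum_const, Finset.card_univ, Fintype.card_fin, nsmul_eq_mul]
      have := hne n z
      field_simp
      ring
    have irest : Integrable fun z => newtonRest g (ε n) θ P z • f (x - z) := by
      refine ((continuous_finsetSum _ fun m _ => ?_).smul (hf.continuous.comp
        (continuous_const.sub continuous_id))).integrable_of_hasCompactSupport ?_
      · exact ((((hθ1 m).continuous_fderiv (by simp)).clm_apply continuous_const).mul (hcE n)).add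
          (continuous_const.mul (((hθ.continuous_fderiv (by simp)).clm_apply continuous_const).mul
            (((continuous_const.mul (g.flip (P m)).continuous).neg).div
              ((hqc.add continuous_const).pow 2) fun z => pow_ne_zero 2 (hne n z))))
      · refine HasCompactSupport.of_support_subset_isCompact (isCompact_closedBall (0 : R4) r)
          fun z hz => ?_
        by_contra h
        rw [mem_closedBall_zero_iff, not_le] at h
        exact hz (by simp [hsupp' z h.le, hsupp'' z h.le])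
    have ipk : Integrable fun z => (θ z * (ε n / (qf g z + ε n) ^ 3)) • f (x - z) :=
      ((hθ.continuous.mul (continuous_const.div ((hqc.add continuous_const).pow 3)
        fun z => pow_ne_zero 3 (hne n z))).smul (hf.continuous.comp
          (continuous_const.sub continuous_id))).integrable_of_hasCompactSupport
            hθc.mul_right.smul_right
    calc ∫ z, (θ z * newtonKer g (ε n) z) • Lap z
        = ∑ m, ∫ z, (θ z * newtonKer g (ε n) z) •
            fderiv ℝ (fderiv ℝ f) (x - z) (P m) (P m) := by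
          simp only [hLap, Finset.smul_sum]
          exact integral_finsetSum _ i1
      _ = ∫ z, (newtonRest g (ε n) θ P z + -8 * (θ z * (ε n / (qf g z + ε n) ^ 3))) • f (x - z) := by
          rw [Finset.sum_congr rfl fun m _ => step m, ← integral_finsetSum _ i2]
          refine integral_congr_ae (.of_forall fun z => ?_)
          simp only
          rw [← Finset.sum_smul, e2]
      _ = _ := by
          simp only [add_smul, mul_smul (-8 : ℝ)]
          have ipk8 : Integrable fun z =>
              (-8 : ℝ) • ((θ z * (ε n / (qf g z + ε n) ^ 3)) • f (x - z)) := ipk.smul (-8 : ℝ)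
          rw [integral_add irest ipk8, integral_smul]
  have t2 : Tendsto (fun n => ∫ z, newtonRest g (ε n) θ P z • f (x - z)) atTop
      (𝓝 (∫ z, newtonRest g 0 θ P z • f (x - z))) := by
    refine tendsto_integral_of_dominated_convergence
      (fun z => (∑ m, (D2 m * l ^ 2 + 2 * (D1 * ‖P m‖ * (2 * ‖g‖ * ‖P m‖ * l ^ 4)))) * B 0 * wt r z)
      (fun n => ?_) ((wt_integrable r).const_mul _) (fun n => ?_) ?_
    · refine ((continuous_finsetSum _ fun m _ => ?_).smul (hf.continuous.comp
        (continuous_const.sub continuous_id))).aestronglyMeasurable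
      exact ((((hθ1 m).continuous_fderiv (by simp)).clm_apply continuous_const).mul (hcE n)).add
        (continuous_const.mul (((hθ.continuous_fderiv (by simp)).clm_apply continuous_const).mul
          (((continuous_const.mul (g.flip (P m)).continuous).neg).div
            ((hqc.add continuous_const).pow 2) fun z => pow_ne_zero 2 (hne n z))))
    · filter_upwards [ae_ne_zero] with z hz
      have hw := wt_nonneg r z
      have hB0 : 0 ≤ B 0 := (norm_nonneg _).trans (hf0 0)
      have hD10 : 0 ≤ D1 := (norm_nonneg _).trans (hD1 0)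
      have hD20 : ∀ m, 0 ≤ D2 m := fun m => (norm_nonneg _).trans (hD2 m 0)
      have hC0 : 0 ≤ ∑ m, (D2 m * l ^ 2 + 2 * (D1 * ‖P m‖ * (2 * ‖g‖ * ‖P m‖ * l ^ 4))) :=
        Finset.sum_nonneg fun m _ => by have := hD20 m; positivity
      by_cases hzr : r ≤ ‖z‖
      · have h0 : newtonRest g (ε n) θ P z = 0 := by
          simp [newtonRest, hsupp' z hzr, hsupp'' z hzr]
        rw [h0, zero_smul, norm_zero]
        positivity
      · obtain ⟨h2, hwe⟩ := hwt z hz (not_le.1 hzr)
        obtain ⟨h3, h4⟩ := hlow z hz (ε n) (hε n).le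
        have hz0 : 0 < ‖z‖ := norm_pos_iff.2 hz
        rw [norm_smul]
        calc ‖newtonRest g (ε n) θ P z‖ * ‖f (x - z)‖
            ≤ (∑ m, (D2 m * l ^ 2 + 2 * (D1 * ‖P m‖ * (2 * ‖g‖ * ‖P m‖ * l ^ 4)))) * wt r z * B 0 := by
              refine mul_le_mul ?_ (hf0 _) (norm_nonneg _) (by positivity)
              rw [Finset.sum_mul]
              refine (norm_sum_le _ _).trans (Finset.sum_le_sum fun m _ => ?_)
              refine (norm_add_le _ _).trans ?_
              rw [add_mul]
              refine add_le_add ?_ ?_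
              · rw [norm_mul, Real.norm_of_nonneg (r := newtonKer g (ε n) z) h4]
                calc _ ≤ D2 m * (l ^ 2 * wt r z) := mul_le_mul (hD2 m z)
                      (h3.trans (mul_le_mul_of_nonneg_left h2 (sq_nonneg _))) h4 (hD20 m)
                  _ = _ := by ring
              · rw [norm_mul, norm_mul, Real.norm_ofNat]
                have hN : ‖newtonD g (ε n) (P m) z‖ ≤ 2 * ‖g‖ * ‖P m‖ * l ^ 4 * wt r z := by
                  rw [newtonD, norm_div, norm_neg, norm_mul, Real.norm_ofNat, norm_pow,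
                    Real.norm_of_nonneg (by have := hq z; have := hε n; linarith : 0 ≤ qf g z + ε n),
                    div_eq_mul_inv, ← inv_pow, hwe]
                  calc 2 * ‖g z (P m)‖ * (qf g z + ε n)⁻¹ ^ 2
                      ≤ 2 * (‖g‖ * ‖z‖ * ‖P m‖) * (l ^ 2 * (‖z‖ ^ 2)⁻¹) ^ 2 :=
                        mul_le_mul (mul_le_mul_of_nonneg_left (g.le_opNorm₂ z (P m)) (by norm_num))
                          (pow_le_pow_left₀ h4 h3 2) (by positivity) (by positivity)
                    _ = _ := by field_simp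
                calc 2 * (‖fderiv ℝ θ z (P m)‖ * ‖newtonD g (ε n) (P m) z‖)
                    ≤ 2 * ((D1 * ‖P m‖) * (2 * ‖g‖ * ‖P m‖ * l ^ 4 * wt r z)) := by
                      refine mul_le_mul_of_nonneg_left (mul_le_mul ?_ hN (norm_nonneg _)
                        (by positivity)) (by norm_num)
                      exact ((fderiv ℝ θ z).le_opNorm _).trans
                        (mul_le_mul_of_nonneg_right (hD1 z) (norm_nonneg _))
                  _ = _ := by ring
          _ = _ := by ring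
    · filter_upwards [ae_ne_zero] with z hz
      have hne0 : qf g z ≠ 0 := (hp z hz).ne'
      refine (tendsto_finsetSum _ fun m _ => ?_).smul_const _
      have h1 := hε0.const_add (qf g z)
      rw [add_zero] at h1
      refine (Tendsto.const_mul _ ?_).add (((?_ : Tendsto (fun n => newtonD g (ε n) (P m) z) atTop
        (𝓝 (newtonD g 0 (P m) z))).const_mul _).const_mul 2)
      · simpa [newtonKer] using h1.inv₀ hne0
      · simpa [newtonD, Pi.div_def] using (tendsto_const_nhds (x := -(2 * g z (P m)))).div (h1.pow 2)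
          (pow_ne_zero 2 hne0)
  have t3 := newton_peak hL hθ.continuous (fun z => by simpa using hBθ z)
    (h := fun z => f (x - z)) (hf.continuous.comp (continuous_const.sub continuous_id))
    (fun z => hf0 _)
  simp only [sub_zero] at t3
  have t4 := t2.add (t3.const_smul (-8 : ℝ))
  have hfin := tendsto_nhds_unique t1 (t4.congr fun n => (key n).symm)
  rw [show (∫ z, (θ z * newtonKer g 0 z) • Lap z) = _ from hfin, smul_smul, add_comm]

end Vale.Agent.P204.Full.Elliptic
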