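import Vale.Agent.P204.Full.Elliptic.Abstract

/-!
P204 elliptic module, part 7: coercivity away from the kernel, and the linear solution operators.
-/

open scoped ContDiff RealInnerProductSpace Topology
open MeasureTheory Set Filter

noncomputable section

namespace Vale.Agent.P204.Full.Elliptic

universe u

variable {E : Type u} [AddCommGroup E] [Module ℝ E] {V : Type} [NormedAddCommGroup V]
  [InnerProductSpace ℝ V] [FiniteDimensional ℝ V] (S : Sys E V)

/-- Weak solutions of `L v = 0`. -/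
def Sys.N : Submodule ℝ (L2 V) := S.H ⊓ (LinearMap.range (S.emb.comp S.L))ᗮ

lemma Sys.N_closed : IsClosed (S.N : Set (L2 V)) :=
  (Submodule.isClosed_topologicalClosure _).inter (Submodule.isClosed_orthogonal _)

instance : CompleteSpace S.N := S.N_closed.completeSpace_coe

lemma Sys.mem_N {v : L2 V} : v ∈ S.N ↔ v ∈ S.H ∧ ∀ φ, ⟪S.emb (S.L φ), v⟫ = 0 := by
  simp only [Sys.N, Submodule.mem_inf, Submodule.mem_orthogonal, LinearMap.mem_range,
    LinearMap.comp_apply, forall_exists_index, forall_apply_eq_imp_iff]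

lemma Sys.weak_of_mem_N {v : L2 V} (hv : v ∈ S.N) : S.Weak v 0 := fun φ => by
  rw [map_zero, inner_zero_left, real_inner_comm]
  exact (S.mem_N.1 hv).2 φ

lemma lipschitz_of_bd {g : R4 → V} {b : ℝ} (hg : ContDiff ℝ ∞ g) (h : Bd 1 b g) (x y : R4) :
    ‖g x - g y‖ ≤ b * ‖x - y‖ := by
  refine Convex.norm_image_sub_le_of_norm_fderiv_le (s := univ)
    (fun z _ => hg.differentiable (by simp) z) (fun z _ => ?_) convex_univ (mem_univ y) (mem_univ x)
  rw [← norm_iteratedFDeriv_one]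
  exact h 1 le_rfl z

/-- Uniformly bounded, uniformly Lipschitz tests on a compact set are Cauchy along an ultrafilter. -/
lemma cauchy_tests {B : Set R4} (hB : IsCompact B) {C : ℝ} {g : ℕ → Test V}
    (hg : ∀ n, Bd 1 C (g n : R4 → V)) (hs : ∀ n, ∀ x ∉ B, (g n : R4 → V) x = 0)
    (U : Ultrafilter ℕ) {ε : ℝ} (hε : 0 < ε) :
    ∃ t ∈ U, ∀ n ∈ t, ∀ m ∈ t, ‖toL2 V (g n - g m)‖ ≤ ε := by
  have hC : 0 ≤ C := (hg 0).nonneg
  have hlim : ∀ x, ∃ G : V, Tendsto (fun n => (g n : R4 → V) x) U (𝓝 G) := fun x => by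
    obtain ⟨G, -, hG⟩ := (isCompact_closedBall (0 : V) C).ultrafilter_le_nhds
      (U.map fun n => (g n : R4 → V) x)
      (Filter.le_principal_iff.2 (Filter.mem_map.2 (Filter.univ_mem' fun n => by
        simpa [Metric.mem_closedBall] using (hg n).norm_le x)))
    exact ⟨G, hG⟩
  choose G hG using hlim
  set η := ε / ((2 * C + 2) * (Real.sqrt (volume.real B) + 1)) with hη
  have η0 : 0 < η := by rw [hη]; positivity
  obtain ⟨F, -, hFfin, hcov⟩ := finite_cover_balls_of_compact hB η0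
  have ht : ∀ᶠ n in (U : Filter ℕ), ∀ p ∈ F, ‖(g n : R4 → V) p - G p‖ < η := by
    rw [hFfin.eventually_all]
    intro p _
    exact (tendsto_iff_norm_sub_tendsto_zero.1 (hG p)).eventually_lt_const η0
  refine ⟨_, ht, fun n hn m hm => ?_⟩
  refine (norm_toL2_le hB (g n - g m) (b := (2 * C + 2) * η) (fun x hx => ?_) fun x => ?_).trans ?_
  · simp [hs n x hx, hs m x hx]
  · by_cases hx : x ∈ B
    · obtain ⟨p, hp, hxp⟩ := mem_iUnion₂.1 (hcov hx)
      rw [Metric.mem_ball, dist_eq_norm] at hxp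
      have a1 := (lipschitz_of_bd (Test.smooth (g n)) (hg n) x p).trans
        (mul_le_mul_of_nonneg_left hxp.le hC)
      have a2 := (lipschitz_of_bd (Test.smooth (g m)) (hg m) x p).trans
        (mul_le_mul_of_nonneg_left hxp.le hC)
      have a3 := hn p hp
      have a4 := hm p hp
      have e : (g n : R4 → V) x - (g m : R4 → V) x = ((g n : R4 → V) x - (g n : R4 → V) p) +
          ((g n : R4 → V) p - G p) - ((g m : R4 → V) p - G p) -
          ((g m : R4 → V) x - (g m : R4 → V) p) := by abel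
      simp only [Submodule.coe_sub, Pi.sub_apply]
      rw [e]
      refine (norm_sub_le _ _).trans ((add_le_add ((norm_sub_le _ _).trans (add_le_add
        (norm_add_le _ _) le_rfl)) le_rfl).trans ?_)
      linarith
    · simp [hs n x hx, hs m x hx]
      positivity
  · calc Real.sqrt (volume.real B) * ((2 * C + 2) * η)
        ≤ (Real.sqrt (volume.real B) + 1) * ((2 * C + 2) * η) := by gcongr; linarith
      _ = ε := by rw [hη]; field_simp

lemma Sys.bound_below {j : ℕ} (P : Par E V S.Lift S.Proj S.L S.B j) (u : E) :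
    ‖S.emb u‖ ≤ 2 * (P.C * ‖S.emb (S.L u)‖ + ‖toL2 V (P.S' (S.Lift u))‖) := by
  have h := S.weak_id P (S.emb_mem u) (S.weak_emb u)
  rw [Sys.emb_apply, extOp_apply P.K_l2, extOp_apply P.S_l2] at h
  have e : toL2 V (S.Lift u) = toL2 V (P.R' (S.Lift (S.L u))) - toL2 V (P.S' (S.Lift u))
      - toL2 V (P.K' (S.Lift u)) := by rw [← h]; abel
  have h1 := (norm_sub_le _ _).trans (add_le_add (norm_sub_le (toL2 V (P.R' (S.Lift (S.L u))))
    (toL2 V (P.S' (S.Lift u)))) (P.K_l2 (S.Lift u)))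
  rw [← e, ← Sys.emb_apply] at h1
  have h2 := P.R_l2 (S.Lift (S.L u))
  rw [← Sys.emb_apply] at h2
  linarith

/-- `L` is bounded below away from its kernel. -/
theorem Sys.coercive : ∃ C, 0 ≤ C ∧ ∀ u, S.emb u ∈ S.Nᗮ → ‖S.emb u‖ ≤ C * ‖S.emb (S.L u)‖ := by
  by_contra hne
  push Not at hne
  choose us hus using fun n : ℕ => hne (n + 1) (by positivity)
  set w : ℕ → E := fun n => ‖S.emb (us n)‖⁻¹ • us n with hwdef
  have hpos : ∀ n, 0 < ‖S.emb (us n)‖ := fun n =>
    (mul_nonneg (by positivity) (norm_nonneg _)).trans_lt (hus n).2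
  have hw1 : ∀ n, ‖S.emb (w n)‖ = 1 := fun n => by
    rw [hwdef, map_smul, norm_smul, norm_inv, norm_norm]
    field_simp [(hpos n).ne']
  have hwL : ∀ n, ‖S.emb (S.L (w n))‖ ≤ 1 / (n + 1) := fun n => by
    rw [hwdef, map_smul, map_smul, norm_smul, norm_inv, norm_norm, le_div_iff₀ (by positivity),
      inv_mul_eq_div, div_mul_eq_mul_div, div_le_one (hpos n)]
    linarith [(hus n).2]
  obtain ⟨P⟩ := S.par 1
  set g : ℕ → Test V := fun n => P.S' (S.Lift (w n)) with hgdef
  have hg : ∀ n, Bd 1 P.C (g n : R4 → V) := fun n => by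
    refine (P.S_cj _).mono (le_of_eq ?_)
    rw [← Sys.emb_apply, hw1, mul_one]
  set U : Ultrafilter ℕ := Ultrafilter.of atTop
  have hU : (U : Filter ℕ) ≤ atTop := Ultrafilter.of_le _
  have hsmall : ∀ δ : ℝ, 0 < δ → ∀ᶠ n : ℕ in (U : Filter ℕ), 1 / ((n : ℝ) + 1) < δ := fun δ hδ =>
    hU (tendsto_one_div_add_atTop_nhds_zero_nat.eventually_lt_const hδ)
  have hcau : Cauchy ((U : Filter ℕ).map fun n => S.emb (w n)) := by
    refine Metric.cauchy_iff.2 ⟨Filter.map_neBot, fun ε hε => ?_⟩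
    obtain ⟨t, ht, htt⟩ := cauchy_tests S.B_compact hg (fun n x hx => (P.supp _ x hx).2.2) U
      (show 0 < ε / 8 by positivity)
    have hC := P.C_nonneg
    have hs := hsmall (ε / (8 * (P.C + 1))) (by positivity)
    refine ⟨_, image_mem_map (inter_mem ht hs), ?_⟩
    rintro _ ⟨n, ⟨hn, hn'⟩, rfl⟩ _ ⟨m, ⟨hm, hm'⟩, rfl⟩
    rw [dist_eq_norm, ← map_sub]
    refine lt_of_le_of_lt (S.bound_below P _) ?_
    have e : ‖toL2 V (P.S' (S.Lift (w n - w m)))‖ ≤ ε / 8 := by
      rw [map_sub, map_sub]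
      exact htt n hn m hm
    have e2 : ‖S.emb (S.L (w n - w m))‖ ≤ 2 * (ε / (8 * (P.C + 1))) := by
      rw [map_sub, map_sub]
      exact (norm_sub_le _ _).trans ((add_le_add ((hwL n).trans hn'.le)
        ((hwL m).trans hm'.le)).trans (by linarith))
    have e3 : P.C * (2 * (ε / (8 * (P.C + 1)))) ≤ ε / 4 := by
      rw [show (2 : ℝ) * (ε / (8 * (P.C + 1))) = ε / 4 / (P.C + 1) by field_simp; ring,
        ← mul_div_assoc, div_le_iff₀ (by positivity)]
      nlinarith
    nlinarith [mul_le_mul_of_nonneg_left e2 hC]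
  obtain ⟨v, hv⟩ := CompleteSpace.complete hcau
  have hvH : v ∈ S.H := (Submodule.isClosed_topologicalClosure _).mem_of_tendsto (b := (U : Filter ℕ))
    hv (.of_forall fun n => S.emb_mem _)
  have hvN : v ∈ S.N := by
    refine S.mem_N.2 ⟨hvH, fun φ => tendsto_nhds_unique (l := (U : Filter ℕ))
      ((continuous_const.inner continuous_id).tendsto v |>.comp hv) ?_⟩
    refine squeeze_zero_norm (fun n => ?_)
      (((tendsto_one_div_add_atTop_nhds_zero_nat).mono_left hU).mul_const ‖S.emb φ‖ |>.trans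
        (by rw [zero_mul]))
    simp only [Function.comp_apply, id_eq, Sys.emb_apply, S.L_symm]
    rw [← Sys.emb_apply, ← Sys.emb_apply, real_inner_comm, Real.norm_eq_abs]
    exact (abs_real_inner_le_norm _ _).trans
      (mul_le_mul_of_nonneg_right (hwL n) (norm_nonneg _))
  have hvO : v ∈ S.Nᗮ := (Submodule.isClosed_orthogonal _).mem_of_tendsto (b := (U : Filter ℕ)) hv
    (.of_forall fun n => by
      change S.emb (w n) ∈ S.Nᗮ
      rw [hwdef, map_smul]
      exact Submodule.smul_mem _ _ (hus n).1)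
  have h0 : v = 0 := inner_self_eq_zero (𝕜 := ℝ).1 (Submodule.inner_right_of_mem_orthogonal hvN hvO)
  have h1 : ‖v‖ = 1 := tendsto_nhds_unique (l := (U : Filter ℕ)) ((continuous_norm.tendsto v).comp hv)
    (by simp only [Function.comp_def, hw1]; exact tendsto_const_nhds)
  rw [h0, norm_zero] at h1
  exact zero_ne_one h1

lemma Sys.exists_ker (f : E) : ∃ p, S.emb p = S.N.starProjection (S.emb f) ∧ S.L p = 0 ∧
    ∀ j, ∀ P : Par E V S.Lift S.Proj S.L S.B j,
      Bd j (4 * P.C * ‖S.emb f‖) (S.Lift p : R4 → V) := by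
  have hm : S.N.starProjection (S.emb f) ∈ S.N := Submodule.starProjection_apply_mem _ _
  obtain ⟨p, h1, h2, h3⟩ := S.regular (S.mem_N.1 hm).1 (S.weak_of_mem_N hm)
  refine ⟨p, h1, h2, fun j P => (h3 j P 0 ?_).mono ?_⟩
  · rw [map_zero]
    exact bd_zero le_rfl
  · rw [zero_add]
    refine mul_le_mul_of_nonneg_left ?_ (mul_nonneg (by norm_num) P.C_nonneg)
    exact S.N.norm_starProjection_apply_le _

/-- Solvability with bounds: `f = P f + L (U f)`, `P f` in the kernel, both linear and bounded. -/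
theorem Sys.solve : ∃ P U : E →ₗ[ℝ] E, ∀ f, S.L (P f) = 0 ∧ S.L (U f) = f - P f ∧
    ∀ j, ∃ C, 0 ≤ C ∧ ∀ f b, Bd j b (S.Lift f : R4 → V) →
      Bd j (C * b) (S.Lift (P f) : R4 → V) ∧ Bd j (C * b) (S.Lift (U f) : R4 → V) := by
  choose p hp1 hp2 hp3 using S.exists_ker
  obtain ⟨c, hc0, hc⟩ := S.coercive
  have horth : ∀ f, S.emb (f - p f) ∈ S.Nᗮ := fun f => by
    rw [map_sub, hp1]
    exact Submodule.sub_starProjection_mem_orthogonal _
  have hex : ∀ f, ∃ u, S.L u = f - p f ∧ S.emb u ∈ S.Nᗮ ∧ ‖S.emb u‖ ≤ c * ‖S.emb (f - p f)‖ ∧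
      ∀ j, ∀ P : Par E V S.Lift S.Proj S.L S.B j, ∀ b, Bd j b (S.Lift (f - p f) : R4 → V) →
        Bd j (4 * P.C * (b + c * ‖S.emb (f - p f)‖)) (S.Lift u : R4 → V) := by
    intro f
    obtain ⟨v, hv, hvn, hva⟩ := exists_riesz (S.emb.comp S.L)
      ((innerSL ℝ (S.emb (f - p f))).toLinearMap.comp S.emb)
      (c := c * ‖S.emb (f - p f)‖) (mul_nonneg hc0 (norm_nonneg _)) fun φ => by
        have e : ⟪S.emb (f - p f), S.emb φ⟫ = ⟪S.emb (f - p f), S.emb (φ - p φ)⟫ := by
          rw [map_sub S.emb φ, inner_sub_right, hp1 φ,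
            Submodule.inner_left_of_mem_orthogonal (Submodule.starProjection_apply_mem _ _) (horth f),
            sub_zero]
        show |⟪S.emb (f - p f), S.emb φ⟫| ≤ _
        rw [e]
        refine (abs_real_inner_le_norm _ _).trans ?_
        have h := hc _ (horth φ)
        rw [map_sub S.L, hp2, sub_zero] at h
        refine (mul_le_mul_of_nonneg_left h (norm_nonneg _)).trans (le_of_eq ?_)
        rw [LinearMap.comp_apply]
        ring
    have hH : v ∈ S.H := by
      refine Submodule.topologicalClosure_mono ?_ hv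
      rintro _ ⟨φ, rfl⟩
      exact LinearMap.mem_range_self S.emb (S.L φ)
    have hN : v ∈ S.Nᗮ := by
      refine Submodule.topologicalClosure_minimal _ ?_ (Submodule.isClosed_orthogonal _) hv
      rintro _ ⟨φ, rfl⟩
      exact (Submodule.mem_orthogonal _ _).2 fun n hn => by
        rw [real_inner_comm]
        exact (S.mem_N.1 hn).2 φ
    obtain ⟨u, h1, h2, h3⟩ := S.regular hH (f := f - p f) hva
    refine ⟨u, h2, h1 ▸ hN, h1 ▸ hvn, fun j P b hb => (h3 j P b hb).mono ?_⟩
    exact mul_le_mul_of_nonneg_left (add_le_add le_rfl hvn) (mul_nonneg (by norm_num) P.C_nonneg)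
  choose u hu1 hu2 hu3 hu4 using hex
  have uniq : ∀ a b, S.L a = S.L b → S.emb a ∈ S.Nᗮ → S.emb b ∈ S.Nᗮ → a = b := by
    intro a b h ha hb
    refine S.emb_injective (sub_eq_zero.1 ?_)
    rw [← map_sub]
    refine inner_self_eq_zero (𝕜 := ℝ).1 (Submodule.inner_right_of_mem_orthogonal (K := S.N) ?_
      (by rw [map_sub]; exact Submodule.sub_mem _ ha hb))
    refine S.mem_N.2 ⟨S.emb_mem _, fun φ => ?_⟩
    rw [Sys.emb_apply, Sys.emb_apply, S.L_symm, map_sub S.L, h, sub_self]
    simp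
  let P : E →ₗ[ℝ] E :=
    { toFun := p
      map_add' := fun a b => S.emb_injective (by simp only [map_add, hp1])
      map_smul' := fun r a => S.emb_injective (by simp only [map_smul, hp1, RingHom.id_apply]) }
  let U : E →ₗ[ℝ] E :=
    { toFun := u
      map_add' := fun a b => uniq _ _ (by
        rw [hu1, map_add, hu1, hu1, show p (a + b) = p a + p b from map_add P a b]; abel) (hu2 _)
        (by rw [map_add]; exact Submodule.add_mem _ (hu2 a) (hu2 b))
      map_smul' := fun r a => uniq _ _ (by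
        rw [RingHom.id_apply, hu1, map_smul, hu1, show p (r • a) = r • p a from map_smul P r a,
          smul_sub]) (hu2 _) (by rw [RingHom.id_apply, map_smul]; exact Submodule.smul_mem _ _ (hu2 a)) }
  refine ⟨P, U, fun f => ⟨hp2 f, hu1 f, fun j => ?_⟩⟩
  obtain ⟨Q⟩ := S.par j
  have hQ := Q.C_nonneg
  set s := Real.sqrt (volume.real S.B)
  refine ⟨4 * Q.C * s + 4 * Q.C * ((1 + 4 * Q.C * s) + c * (2 * s)), by positivity,
    fun f b hb => ?_⟩
  have hb0 := hb.nonneg
  have hn : ‖S.emb f‖ ≤ s * b := norm_toL2_le S.B_compact _ (S.lift_supp f) hb.norm_le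
  have hnq : ‖S.emb (f - p f)‖ ≤ 2 * s * b := by
    rw [map_sub, hp1]
    refine (norm_sub_le _ _).trans ?_
    have := (S.N.norm_starProjection_apply_le (S.emb f)).trans hn
    linarith
  have hP : Bd j (4 * Q.C * (s * b)) (S.Lift (p f) : R4 → V) :=
    (hp3 f j Q).mono (mul_le_mul_of_nonneg_left hn (by positivity))
  refine ⟨hP.mono ?_, ?_⟩
  · nlinarith [show 0 ≤ 4 * Q.C * ((1 + 4 * Q.C * s) + c * (2 * s)) * b by positivity]
  · have hd := hb.sub hP (Test.smooth _) (Test.smooth _)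
    rw [← Submodule.coe_sub, ← map_sub] at hd
    refine (hu4 f j Q _ hd).mono ?_
    have h5 := mul_le_mul_of_nonneg_left hnq hc0
    nlinarith [mul_le_mul_of_nonneg_left h5 hQ, show 0 ≤ 4 * Q.C * s * b by positivity]

end Vale.Agent.P204.Full.Elliptic
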