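import Vale.Agent.P204.Full.Elliptic.Block
import Vale.Agent.P204.Full.Elliptic.Solve

/-!
P204 elliptic module: parametrices of the operator on the manifold, hence the abstract system.
-/

open scoped Manifold ContDiff Topology RealInnerProductSpace
open MeasureTheory Set Filter

noncomputable section

namespace Vale.Agent.P204.Full.Elliptic

universe u

variable {X : Type u} [TopologicalSpace X] [T2Space X] [CompactSpace X] [ChartedSpace R4 X]
  [IsManifold 𝓘(ℝ, R4) ∞ X] {G : Geo X} (C : Cfg G)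

/-- Acting on the `l`-th pair of coefficients. -/
def Cfg.sand (l : C.ι) : (R2 →L[ℝ] R2) →L[ℝ] (C.V →L[ℝ] C.V) :=
  LinearMap.toContinuousLinearMap
    { toFun := fun A => (C.inj l).comp (A.comp (C.prj l))
      map_add' := fun A B => ContinuousLinearMap.ext fun x => by simp
      map_smul' := fun r A => ContinuousLinearMap.ext fun x => by simp }

lemma Cfg.sand_apply (l : C.ι) (A : R2 →L[ℝ] R2) (x : C.V) :
    C.sand l A x = C.inj l (A (C.prj l x)) := by
  simp [Cfg.sand]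

/-- Kernels acting on all coefficients at once. -/
def Cfg.big (k : C.ι → R4 → R4 → R2 →L[ℝ] R2) : R4 → R4 → C.V →L[ℝ] C.V :=
  fun x z => ∑ l, C.sand l (k l x z)

/-- The constants of a big kernel. -/
def Cfg.bigC (c : C.ι → ℕ → ℝ) (m : ℕ) : ℝ := ∑ l, ‖C.sand l‖ * c l m

lemma kernel_sum_explicit {V W : Type} [NormedAddCommGroup V] [NormedSpace ℝ V] [NormedAddCommGroup W]
    [NormedSpace ℝ W] {ι : Type} (s : Finset ι) {r : ℝ} {c : ι → ℕ → ℝ}
    {k : ι → R4 → R4 → V →L[ℝ] W} (h : ∀ i ∈ s, IsKernel r (c i) (k i)) :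
    IsKernel r (fun m => ∑ i ∈ s, c i m) (fun x z => ∑ i ∈ s, k i x z) := by
  classical
  induction s using Finset.induction_on with
  | empty => simpa using IsKernel.zero (V := V) (W := W) r
  | insert a t ha ih =>
    simp only [Finset.sum_insert ha]
    exact (h a (Finset.mem_insert_self _ _)).add (ih fun i hi => h i (Finset.mem_insert_of_mem hi))

lemma Cfg.big_kernel {r : ℝ} {c : C.ι → ℕ → ℝ} {k : C.ι → R4 → R4 → R2 →L[ℝ] R2}
    (h : ∀ l, IsKernel r (c l) (k l)) : IsKernel r (C.bigC c) (C.big k) :=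
  kernel_sum_explicit Finset.univ fun l _ => (h l).map (C.sand l)

lemma Cfg.prj_intOp_big {r : ℝ} {c : C.ι → ℕ → ℝ} {k : C.ι → R4 → R4 → R2 →L[ℝ] R2}
    (h : ∀ l, IsKernel r (c l) (k l)) (g : Test C.V) (x : R4) (l : C.ι) :
    C.prj l (intOp (C.big k) (g : R4 → C.V) x) =
      intOp (k l) (fun y => C.prj l ((g : R4 → C.V) y)) x := by
  obtain ⟨B, hB⟩ := Test.exists_bound g
  rw [intOp, ← (C.prj l).integral_comp_comm
    ((C.big_kernel h).integrable (Test.smooth g).continuous (fun y => by simpa using hB 0 y) x)]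
  refine integral_congr_ae (.of_forall fun z => ?_)
  simp only [Cfg.big, sum_apply, C.sand_apply]
  exact C.prj_sum _ l

lemma Cfg.big_raw {k : C.ι → R4 → R4 → R2 →L[ℝ] R2}
    (hs : ∀ l, ContDiff ℝ ∞ fun p : R4 × R4 => k l p.1 p.2)
    (hc : ∀ l, HasCompactSupport fun p : R4 × R4 => k l p.1 p.2) :
    (ContDiff ℝ ∞ fun p : R4 × R4 => C.big k p.1 p.2) ∧
      ∃ K : Set (R4 × R4), IsCompact K ∧ ∀ p, p ∉ K → C.big k p.1 p.2 = 0 := by
  refine ⟨ContDiff.sum fun l _ => (C.sand l).contDiff.comp (hs l),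
    ⋃ l, tsupport (fun p : R4 × R4 => k l p.1 p.2), isCompact_iUnion fun l => (hc l).isCompact,
    fun p hp => Finset.sum_eq_zero fun l _ => ?_⟩
  have h2 : k l p.1 p.2 = 0 := image_eq_zero_of_notMem_tsupport
    (f := fun p : R4 × R4 => k l p.1 p.2) (x := p) fun h => hp (mem_iUnion.2 ⟨l, h⟩)
  rw [h2, map_zero]

lemma transKer_smooth {V W : Type} [NormedAddCommGroup V] [InnerProductSpace ℝ V]
    [NormedAddCommGroup W] [InnerProductSpace ℝ W] [FiniteDimensional ℝ V] [FiniteDimensional ℝ W]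
    {k : R4 → R4 → V →L[ℝ] W} (hs : ContDiff ℝ ∞ fun p : R4 × R4 => k p.1 p.2) :
    ContDiff ℝ ∞ fun p : R4 × R4 => transKer k p.1 p.2 := by
  have h : ContDiff ℝ ∞ fun p : R4 × R4 => k (p.1 - p.2) (-p.2) :=
    hs.comp ((contDiff_fst.sub contDiff_snd).prodMk contDiff_snd.neg)
  exact (LinearIsometryEquiv.contDiff (F := W →L[ℝ] V) (n := ∞)
    (adjI (V := V) (W := W))).comp h

lemma transKer_compact {V W : Type} [NormedAddCommGroup V] [InnerProductSpace ℝ V]
    [NormedAddCommGroup W] [InnerProductSpace ℝ W] [FiniteDimensional ℝ V] [FiniteDimensional ℝ W]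
    {k : R4 → R4 → V →L[ℝ] W} {K : Set (R4 × R4)} (hK : IsCompact K)
    (h0 : ∀ p, p ∉ K → k p.1 p.2 = 0) :
    HasCompactSupport fun p : R4 × R4 => transKer k p.1 p.2 := by
  refine HasCompactSupport.of_support_subset_isCompact
    (hK.image ((continuous_fst.sub continuous_snd).prodMk continuous_snd.neg)) fun p hp => ?_
  refine ⟨(p.1 - p.2, -p.2), ?_, by simp⟩
  by_contra hn
  refine hp ?_
  show ContinuousLinearMap.adjoint (k (p.1 - p.2) (-p.2)) = 0
  rw [h0 (p.1 - p.2, -p.2) hn, map_zero]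

/-- A kernel between lifts. -/
def Cfg.conj {r : ℝ} {c : ℕ → ℝ} {k : R4 → R4 → C.V →L[ℝ] C.V} (hk : IsKernel r c k) (hr : 0 ≤ r) :
    Test C.V →ₗ[ℝ] Test C.V :=
  (C.blk C.wt_chi C.wt_wide).comp ((hk.op hr).comp (C.wmul C.wt_chi))

/-- Its transpose. -/
def Cfg.conjT {r : ℝ} {c : ℕ → ℝ} {k : R4 → R4 → C.V →L[ℝ] C.V} (hk : IsKernel r c k) (hr : 0 ≤ r) :
    Test C.V →ₗ[ℝ] Test C.V :=
  (C.wmul C.wt_chi).comp ((hk.transKer.op hr).comp (C.blk C.wt_wide C.wt_chi))

lemma Cfg.conjT_supp {r : ℝ} {c : ℕ → ℝ} {k : R4 → R4 → C.V →L[ℝ] C.V} (hk : IsKernel r c k)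
    (hr : 0 ≤ r) (h : Test C.V) {x : R4} (hx : x ∉ ⋃ l, tsupport (C.chi l)) :
    (C.conjT hk hr h : R4 → C.V) x = 0 := by
  simp only [Cfg.conjT, LinearMap.comp_apply, C.wmul_apply, C.wmap_apply]
  refine Finset.sum_eq_zero fun l _ => ?_
  rw [image_eq_zero_of_notMem_tsupport fun h => hx (mem_iUnion.2 ⟨l, h⟩)]
  simp

/-- The wide projection of cut data is the narrow projection. -/
lemma Cfg.proj_wide_chi (g : Test C.V) :
    C.proj C.wt_wide (C.wmul C.wt_chi g) = C.proj C.wt_chi g := by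
  refine Subtype.ext ?_
  rw [C.proj_coe, C.proj_coe]
  refine Finset.sum_congr rfl fun l _ => ?_
  refine congrArg (push2 (C.ch l)) (funext fun y => ?_)
  simp only [C.prj_wmul, map_smul, Cfg.Ew, smul_apply, smul_smul]
  by_cases h : y ∈ tsupport (C.chi l)
  · rw [C.wide_one l (Metric.closedBall_subset_closedBall (by linarith [C.r_pos l])
      (C.chi_small l h)), mul_one]
  · simp [image_eq_zero_of_notMem_tsupport h]

omit [IsManifold 𝓘(ℝ, R4) ∞ X] in
lemma push2_outside {c : OpenPartialHomeomorph X R4} {θ : R4 → Bil} {K : Set R4} {x : X}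
    (hx : x ∉ c.symm '' K) (h : ∀ y, y ∉ K → θ y = 0) : push2 c θ x = 0 := by
  by_cases hs : x ∈ c.source
  · simp only [push2, if_pos hs, h (c x) fun hK => hx ⟨_, hK, c.left_inv hs⟩]
    rfl
  · simp [push2, hs]

lemma Cfg.piece_outside (w : C.ι → R4 → ℝ) (g : R4 → C.V) (l : C.ι) {a : ℝ} {x : X}
    (hx : x ∉ (C.ch l).symm '' Metric.closedBall (C.p l) a)
    (hg : ∀ y, a ≤ ‖y - C.p l‖ → C.prj l (g y) = 0) : C.piece w g l x = 0 := by
  refine push2_outside hx fun y hy => ?_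
  rw [hg y (le_of_lt (not_le.1 fun h => hy (mem_closedBall_iff_norm.2 h))), map_zero]

lemma Cfg.param_piece (hnat : AlocNaturalStatement) (hspan : AntiSpanStatement)
    (hsym : SymbolStatement) {δ : ℝ} (hδ : 0 < δ) (hδr : ∀ l, δ ≤ C.r l / 4)
    {cR cK cS : C.ι → ℕ → ℝ} {kR kK kS : C.ι → R4 → R4 → R2 →L[ℝ] R2}
    (hR : ∀ l, IsKernel δ (cR l) (kR l)) (hK : ∀ l, IsKernel δ (cK l) (kK l))
    (hS : ∀ l, IsKernel δ (cS l) (kS l))
    (hid : ∀ l, ∀ f : Test R2, ∀ x ∈ (C.sys hsym l).U,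
      (C.sys hsym l).app (intOp (kR l) (f : R4 → R2)) x =
        (f : R4 → R2) x + intOp (kK l) (f : R4 → R2) x + intOp (kS l) (f : R4 → R2) x)
    (g : Test C.V) (l : C.ι) (x : X) :
    (opL G hnat (C.pieceL C.wt_wide l ((C.big_kernel hR).op hδ.le (C.wmul C.wt_chi g)))).1 x =
      (C.pieceL C.wt_wide l (C.wmul C.wt_chi g + (C.big_kernel hK).op hδ.le (C.wmul C.wt_chi g) +
        (C.big_kernel hS).op hδ.le (C.wmul C.wt_chi g))).1 x := by
  set h := C.wmul C.wt_chi g with hh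
  let f : Test R2 := ⟨fun y => C.prj l ((h : R4 → C.V) y), (C.prj l).contDiff.comp (Test.smooth h),
    (Test.compact h).mono fun y hy h0 => hy (by simp [h0])⟩
  have hfsupp : ∀ y, 2 * C.r l < ‖y - C.p l‖ → (f : R4 → R2) y = 0 := fun y hy => by
    show C.prj l ((h : R4 → C.V) y) = 0
    have hn : y ∉ tsupport (C.chi l) := fun hm => by
      have := C.chi_small l hm
      rw [Metric.mem_closedBall, dist_eq_norm] at this
      linarith
    rw [hh, C.prj_wmul, image_eq_zero_of_notMem_tsupport hn, zero_smul]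
  have hr4 := C.r_pos l
  have hdl := hδr l
  set tot := h + (C.big_kernel hK).op hδ.le h + (C.big_kernel hS).op hδ.le h
  have htot : ∀ y, C.prj l ((tot : R4 → C.V) y) =
      (f : R4 → R2) y + intOp (kK l) (f : R4 → R2) y + intOp (kS l) (f : R4 → R2) y := fun y => by
    simp only [tot, Submodule.coe_add, Pi.add_apply, map_add, IsKernel.op_apply]
    rw [C.prj_intOp_big hK, C.prj_intOp_big hS]
  set u := C.pieceL C.wt_wide l ((C.big_kernel hR).op hδ.le h) with hu
  obtain ⟨-, hview⟩ := C.piece_spec C.wt_wide ((C.big_kernel hR).op hδ.le h) l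
  have hfun : ∀ y, C.prj l (((C.big_kernel hR).op hδ.le h : R4 → C.V) y) =
      intOp (kR l) (f : R4 → R2) y := fun y => C.prj_intOp_big hR h y l
  set D : Set X := (C.ch l).symm '' Metric.closedBall (C.p l) (2 * C.r l + δ) with hD
  have hsubt : Metric.closedBall (C.p l) (2 * C.r l + δ) ⊆ (C.ch l).target :=
    (Metric.closedBall_subset_ball (by linarith)).trans (C.ball_sub l)
  have hDc : IsClosed D := ((isCompact_closedBall _ _).image_of_continuousOn
    ((C.ch l).continuousOn_symm.mono hsubt)).isClosed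
  show (opL G hnat u).1 x = C.piece C.wide (tot : R4 → C.V) l x
  by_cases hx : x ∈ D
  · obtain ⟨y, hy, rfl⟩ := hx
    have hys : (C.ch l).symm y ∈ (C.ch l).source := (C.ch l).map_target (hsubt hy)
    have hyU : y ∈ Metric.ball (C.p l) (5 / 2 * C.r l) :=
      Metric.closedBall_subset_ball (by linarith) hy
    have hsm : ContDiff ℝ ∞ (intOp (kR l) (f : R4 → R2)) := by
      obtain ⟨B, hB⟩ := Test.exists_bound f
      exact intOp_contDiff (hR l) hδ.le (Test.smooth f) hB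
    have e := C.view_opL hnat hspan hsym l u hsm (fun z hz => by
      show view2 (C.ch l) (C.piece C.wide _ l) z = _
      rw [hview z (C.ball_sub l (Metric.ball_subset_ball (by linarith) hz)), hfun, Cfg.Ew,
        C.wide_one l (Metric.ball_subset_closedBall hz), one_smul]
      rfl) hyU
    rw [hid l f y hyU, ← htot] at e
    have hval : ∀ θ : X → Bil, θ ((C.ch l).symm y) =
        pullBil (Base.dchart (C.ch l) ((C.ch l).symm y)) (view2 (C.ch l) θ y) := fun θ => by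
      rw [view2, ← Base.pullBil_comp]
      conv_rhs => arg 1; rw [← (C.ch l).right_inv (hsubt hy)]
      rw [(C.ch l).left_inv hys, Base.dsymm_comp_dchart (G.c_mem _) hys, Base.pullBil_id]
    rw [hval (opL G hnat u).1, e]
    simp only [Cfg.piece, Base.push2_pos _ hys, (C.ch l).right_inv (hsubt hy), Cfg.Ew,
      C.wide_one l (Metric.ball_subset_closedBall hyU), one_smul]
    rfl
  · have hu0 : ∀ᶠ z in 𝓝 x, u.1 z = 0 := by
      refine Filter.eventually_of_mem (hDc.isOpen_compl.mem_nhds hx) fun z hz => ?_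
      exact C.piece_outside C.wide _ l hz fun y hy =>
        (hfun y).trans (intOp_supp (hR l) hfsupp hy)
    rw [opL_eventually_zero hnat u hu0]
    refine (C.piece_outside C.wide _ l hx fun y hy => ?_).symm
    rw [htot, intOp_supp (hK l) hfsupp hy, intOp_supp (hS l) hfsupp hy,
      hfsupp _ (lt_of_lt_of_le (by linarith) hy), add_zero, add_zero]

/-- The parametrix identity on the manifold. -/
theorem Cfg.param_ident (hnat : AlocNaturalStatement) (hspan : AntiSpanStatement)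
    (hsym : SymbolStatement) {δ : ℝ} (hδ : 0 < δ) (hδr : ∀ l, δ ≤ C.r l / 4)
    {cR cK cS : C.ι → ℕ → ℝ} {kR kK kS : C.ι → R4 → R4 → R2 →L[ℝ] R2}
    (hR : ∀ l, IsKernel δ (cR l) (kR l)) (hK : ∀ l, IsKernel δ (cK l) (kK l))
    (hS : ∀ l, IsKernel δ (cS l) (kS l))
    (hid : ∀ l, ∀ f : Test R2, ∀ x ∈ (C.sys hsym l).U,
      (C.sys hsym l).app (intOp (kR l) (f : R4 → R2)) x =
        (f : R4 → R2) x + intOp (kK l) (f : R4 → R2) x + intOp (kS l) (f : R4 → R2) x)
    (g : Test C.V) :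
    opL G hnat (C.proj C.wt_wide ((C.big_kernel hR).op hδ.le (C.wmul C.wt_chi g))) =
      C.proj C.wt_wide (C.wmul C.wt_chi g) +
        C.proj C.wt_wide ((C.big_kernel hK).op hδ.le (C.wmul C.wt_chi g)) +
        C.proj C.wt_wide ((C.big_kernel hS).op hδ.le (C.wmul C.wt_chi g)) := by
  rw [← map_add, ← map_add]
  simp only [Cfg.proj, LinearMap.sum_apply, map_sum]
  exact Finset.sum_congr rfl fun l _ => Subtype.ext (funext fun x =>
    C.param_piece hnat hspan hsym hδ hδr hR hK hS hid g l x)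

variable [MeasurableSpace X] [BorelSpace X]

lemma Cfg.conj_adj (hB : BaseFacts G) {r : ℝ} {c : ℕ → ℝ} {k : R4 → R4 → C.V →L[ℝ] C.V}
    (hk : IsKernel r c k) (hr : 0 ≤ r) (g h : Test C.V) :
    ⟪toL2 C.V (C.conj hk hr g), toL2 C.V h⟫ = ⟪toL2 C.V g, toL2 C.V (C.conjT hk hr h)⟫ := by
  simp only [Cfg.conj, Cfg.conjT, LinearMap.comp_apply]
  rw [C.blk_adj hB, hk.inner_op hr, C.wmul_adj]

lemma Cfg.conjT_l2 (hB : BaseFacts G) (hspan : AntiSpanStatement) :
    ∃ a, 0 ≤ a ∧ ∀ {r : ℝ} {c : ℕ → ℝ} {k : R4 → R4 → C.V →L[ℝ] C.V} (hk : IsKernel r c k)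
      (hr : 0 ≤ r) (h : Test C.V),
        ‖toL2 C.V (C.conjT hk hr h)‖ ≤ a * (wMass * c 0 * r) * ‖toL2 C.V h‖ := by
  obtain ⟨a, ha, hab⟩ := C.blk_l2 hB hspan C.wt_wide C.wt_chi
  refine ⟨a, ha, fun {r} {c} {k} hk hr h => (C.wmul_chi_l2 _).trans ((hk.transKer.norm_op_le hr _).trans ?_)⟩
  refine (mul_le_mul_of_nonneg_left (hab h)
    (mul_nonneg (mul_nonneg wMass_nonneg (hk.nonneg 0)) hr)).trans (le_of_eq ?_)
  ring

omit [MeasurableSpace X] [BorelSpace X] in
lemma Cfg.conjT_bd (j : ℕ) :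
    ∃ a, 0 ≤ a ∧ ∀ {r : ℝ} {c : ℕ → ℝ} {k : R4 → R4 → C.V →L[ℝ] C.V} (hk : IsKernel r c k)
      (hr : 0 ≤ r) {D : ℝ}, 0 ≤ D → (∀ m ≤ j, ∀ B : ℕ → ℝ, ∀ b : ℝ,
        (∀ i ≤ m, 0 ≤ B i ∧ B i ≤ b) → opBound m c B ≤ D * b) →
      ∀ (h : Test C.V) b, Bd j b (h : R4 → C.V) →
        Bd j (a * (r * D) * b) (C.conjT hk hr h : R4 → C.V) := by
  obtain ⟨a1, ha1, h1⟩ := C.blk_bd C.wt_wide C.wt_chi j
  obtain ⟨a2, ha2, h2⟩ := C.wmul_bd C.wt_chi j
  refine ⟨a2 * a1, mul_nonneg ha2 ha1, fun {r} {c} {k} hk hr {D} hD0 hD h b hb => ?_⟩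
  refine (h2 _ _ (hk.transKer.op_bd hr hD _ (h1 h b hb))).mono (le_of_eq ?_)
  ring

lemma Cfg.conjT_smoothing (hB : BaseFacts G) (hspan : AntiSpanStatement) {r : ℝ} {c : ℕ → ℝ}
    {k : R4 → R4 → C.V →L[ℝ] C.V} (hk : IsKernel r c k) (hr : 0 ≤ r)
    (hs : ContDiff ℝ ∞ fun p : R4 × R4 => k p.1 p.2) {K : Set (R4 × R4)} (hKc : IsCompact K)
    (h0 : ∀ p, p ∉ K → k p.1 p.2 = 0) (j : ℕ) :
    ∃ a, ∀ h : Test C.V, Bd j (a * ‖toL2 C.V h‖) (C.conjT hk hr h : R4 → C.V) := by
  obtain ⟨aw, haw, hw⟩ := C.wmul_bd C.wt_chi j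
  obtain ⟨ab, -, hbl⟩ := C.blk_l2 hB hspan C.wt_wide C.wt_chi
  obtain ⟨sS, hsS, hsm⟩ := intOp_smoothing (transKer_smooth hs) (transKer_compact hKc h0) j
  refine ⟨aw * (sS * ab), fun h => ?_⟩
  have h1 : Bd j (sS * ‖toL2 C.V (C.blk C.wt_wide C.wt_chi h)‖)
      (hk.transKer.op hr (C.blk C.wt_wide C.wt_chi h) : R4 → C.V) :=
    hsm (C.blk C.wt_wide C.wt_chi h)
  have h2 := hw (hk.transKer.op hr (C.blk C.wt_wide C.wt_chi h)) _ h1
  refine h2.mono ?_
  refine (mul_le_mul_of_nonneg_left (mul_le_mul_of_nonneg_left (hbl h) hsS) haw).trans (le_of_eq ?_)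
  ring

/-- Parametrices exist at every order. -/
theorem Cfg.exists_par (hB : BaseFacts G) (hnat : AlocNaturalStatement) (hspan : AntiSpanStatement)
    (hsym : SymbolStatement) (hloc : ParametrixStatement) (j : ℕ) :
    Nonempty (Par (fieldsE G) C.V (C.lift C.wt_chi) (C.proj C.wt_chi) (opL G hnat)
      (⋃ l, tsupport (C.chi l)) j) := by
  choose cR cK hpar using fun l => hloc (C.sys hsym l)
  obtain ⟨a0, ha0, hl2⟩ := C.conjT_l2 hB hspan
  obtain ⟨aj, haj, hcj⟩ := C.conjT_bd j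
  set K0 := |wMass * C.bigC cK 0|
  have hCK : ∀ m, 0 ≤ |C.bigC cK m| := fun m => abs_nonneg _
  obtain ⟨DK, hDK0, hDK⟩ := opBound_le_upto j hCK
  set rs := ∑ l, 4 / C.r l
  set den := 1 + rs + 2 * (a0 * K0) + 2 * (aj * DK)
  have hrs : ∀ l, 0 ≤ 4 / C.r l := fun l => div_nonneg (by norm_num) (C.r_pos l).le
  have hrs0 : 0 ≤ rs := Finset.sum_nonneg fun l _ => hrs l
  have hK0 : 0 ≤ a0 * K0 := mul_nonneg ha0 (abs_nonneg _)
  have hjK : 0 ≤ aj * DK := mul_nonneg haj hDK0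
  have hden : 1 ≤ den := by simp only [den]; linarith
  set δ := 1 / den with hδdef
  have hδ : 0 < δ := by positivity
  have hδ1 : δ ≤ 1 := (div_le_one (by positivity)).2 hden
  have hmul : δ * den = 1 := by rw [hδdef]; field_simp
  have hδr : ∀ l, δ ≤ C.r l / 4 := fun l => by
    have h := Finset.single_le_sum (fun i _ => hrs i) (Finset.mem_univ l)
    rw [div_le_iff₀ (C.r_pos l)] at h
    rw [le_div_iff₀ (by norm_num : (0 : ℝ) < 4)]
    have h5 : 4 ≤ den * C.r l := by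
      refine h.trans (mul_le_mul_of_nonneg_right ?_ (C.r_pos l).le)
      show rs ≤ den
      simp only [den]; linarith
    nlinarith [mul_le_mul_of_nonneg_left h5 hδ.le]
  choose kR kK kS cS hR hK hS hSs hSc hid using fun l => hpar l δ hδ hδ1
  have kRb := C.big_kernel hR
  have kKb := C.big_kernel hK
  have kSb := C.big_kernel hS
  obtain ⟨DR, hDR0, hDR⟩ := opBound_le_upto j kRb.nonneg
  obtain ⟨hb1, K, hKc, hb2⟩ := C.big_raw hSs hSc
  obtain ⟨cSj, hsm2⟩ := C.conjT_smoothing hB hspan kSb hδ.le hb1 hKc hb2 j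
  set cR2 := a0 * (wMass * C.bigC cR 0 * δ)
  set cS2 := a0 * (wMass * C.bigC cS 0 * δ)
  set cRj := aj * (δ * DR)
  set CC := |cR2| + |cS2| + |cRj| + |cSj|
  have hCC : ∀ t ∈ [cR2, cS2, cRj, cSj], t ≤ CC := by
    intro t ht
    have h1 := abs_nonneg cR2
    have h2 := abs_nonneg cS2
    have h3 := abs_nonneg cRj
    have h4 := abs_nonneg cSj
    simp only [List.mem_cons, List.not_mem_nil, or_false] at ht
    rcases ht with h | h | h | h <;>
      linarith [le_abs_self cR2, le_abs_self cS2, le_abs_self cRj, le_abs_self cSj]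
  refine ⟨{
    R := (C.proj C.wt_wide).comp ((kRb.op hδ.le).comp (C.wmul C.wt_chi))
    K := C.conj kKb hδ.le
    S := C.conj kSb hδ.le
    R' := C.conjT kRb hδ.le
    K' := C.conjT kKb hδ.le
    S' := C.conjT kSb hδ.le
    C := CC
    C_nonneg := by positivity
    ident := fun g => ?_
    adjR := fun g h => C.conj_adj hB kRb hδ.le g h
    adjK := C.conj_adj hB kKb hδ.le
    adjS := C.conj_adj hB kSb hδ.le
    K_l2 := fun h => ?_
    R_l2 := fun h => (hl2 kRb hδ.le h).trans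
      (mul_le_mul_of_nonneg_right (hCC cR2 (by simp)) (norm_nonneg _))
    S_l2 := fun h => (hl2 kSb hδ.le h).trans
      (mul_le_mul_of_nonneg_right (hCC cS2 (by simp)) (norm_nonneg _))
    K_cj := fun h b hb => ?_
    R_cj := fun h b hb => (hcj kRb hδ.le hDR0 hDR h b hb).mono
      (mul_le_mul_of_nonneg_right (hCC cRj (by simp)) hb.nonneg)
    S_cj := fun h => ?_
    supp := fun h x hx =>
      ⟨C.conjT_supp kKb hδ.le h hx, C.conjT_supp kRb hδ.le h hx, C.conjT_supp kSb hδ.le h hx⟩ }⟩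
  · simp only [Cfg.conj, Cfg.blk, LinearMap.comp_apply]
    rw [C.param_ident hnat hspan hsym hδ hδr hR hK hS hid g, map_add, map_add, C.proj_wide_chi]
  · refine (hl2 kKb hδ.le h).trans (mul_le_mul_of_nonneg_right ?_ (norm_nonneg _))
    calc a0 * (wMass * C.bigC cK 0 * δ) ≤ a0 * (K0 * δ) :=
          mul_le_mul_of_nonneg_left (mul_le_mul_of_nonneg_right (le_abs_self _) hδ.le) ha0
      _ ≤ 2⁻¹ := by
        have h1 : δ * (2 * (a0 * K0)) ≤ δ * den :=
          mul_le_mul_of_nonneg_left (by simp only [den]; linarith) hδ.le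
        nlinarith
  · refine (hcj kKb hδ.le hDK0 (fun m hm B b hB => ?_) h b hb).mono
      (mul_le_mul_of_nonneg_right ?_ hb.nonneg)
    · have e : C.bigC cK = fun i => |C.bigC cK i| :=
        funext fun i => (abs_of_nonneg (kKb.nonneg i)).symm
      rw [e]
      exact hDK m hm B b hB
    · have h1 : δ * (2 * (aj * DK)) ≤ δ * den :=
        mul_le_mul_of_nonneg_left (by simp only [den]; linarith) hδ.le
      nlinarith
  · exact (hsm2 h).mono (mul_le_mul_of_nonneg_right (hCC cSj (by simp)) (norm_nonneg _))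

/-- The abstract system of the operator. -/
theorem Cfg.exists_sys (hB : BaseFacts G) (hP : PointFacts G) (hnat : AlocNaturalStatement)
    (hspan : AntiSpanStatement) (hsym : SymbolStatement) (hloc : ParametrixStatement) :
    ∃ S : Sys (fieldsE G) C.V, S.Lift = C.lift C.wt_chi ∧ S.L = opL G hnat :=
  ⟨{ Lift := C.lift C.wt_chi
     Proj := C.proj C.wt_chi
     L := opL G hnat
     proj_lift := C.proj_lift_chi hspan
     proj_adj := C.blk_adj hB C.wt_chi C.wt_chi
     L_symm := fun u w => by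
       rw [← C.pair_lift hB hspan, ← C.pair_lift hB hspan]
       exact pair_opL_symm G hB hP hnat u w
     B := ⋃ l, tsupport (C.chi l)
     B_compact := isCompact_iUnion fun l => C.wt_chi.compact C l
     lift_supp := fun u y hy => Finset.sum_eq_zero fun l _ => by
       rw [Cfg.Cw, image_eq_zero_of_notMem_tsupport fun h => hy (mem_iUnion.2 ⟨l, h⟩)]
       simp
     par := C.exists_par hB hnat hspan hsym hloc }, rfl, rfl⟩

end Vale.Agent.P204.Full.Elliptic
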