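import Vale.Agent.P204.Full.Elliptic.Kernel

/-!
P204 elliptic module, part 2: test functions inside `L²`, extension of operators bounded on tests.
-/

open scoped ContDiff RealInnerProductSpace
open MeasureTheory Set

noncomputable section

namespace Vale.Agent.P204.Full.Elliptic

variable (V W : Type) [NormedAddCommGroup V] [InnerProductSpace ℝ V]
  [NormedAddCommGroup W] [InnerProductSpace ℝ W]

/-- Smooth compactly supported functions on `ℝ⁴`. -/
def Test : Submodule ℝ (R4 → V) where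
  carrier := {f | ContDiff ℝ ∞ f ∧ HasCompactSupport f}
  zero_mem' := ⟨contDiff_const, HasCompactSupport.zero⟩
  add_mem' ha hb := ⟨ha.1.add hb.1, ha.2.add hb.2⟩
  smul_mem' c _ ha := ⟨ha.1.const_smul c, ha.2.smul_left⟩

/-- Square integrable functions on `ℝ⁴`. -/
abbrev L2 : Type := Lp V 2 (volume : Measure R4)

variable {V W}

lemma Test.smooth (f : Test V) : ContDiff ℝ ∞ (f : R4 → V) := f.2.1

lemma Test.compact (f : Test V) : HasCompactSupport (f : R4 → V) := f.2.2

lemma Test.memLp (f : Test V) : MemLp (f : R4 → V) 2 (volume : Measure R4) :=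
  (Test.smooth f).continuous.memLp_of_hasCompactSupport (Test.compact f)

/-- Every derivative of a test function is bounded. -/
lemma Test.exists_bound (f : Test V) :
    ∃ B : ℕ → ℝ, ∀ i x, ‖iteratedFDeriv ℝ i (f : R4 → V) x‖ ≤ B i := by
  have h : ∀ i, ∃ b, ∀ x, ‖iteratedFDeriv ℝ i (f : R4 → V) x‖ ≤ b := fun i =>
    ((Test.compact f).iteratedFDeriv i).exists_bound_of_continuous
      ((Test.smooth f).continuous_iteratedFDeriv (by exact_mod_cast le_top))
  choose B hB using h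
  exact ⟨B, hB⟩

variable (V) in
/-- The inclusion of tests into `L²`. -/
def toL2 : Test V →ₗ[ℝ] L2 V where
  toFun f := (Test.memLp f).toLp
  map_add' f g := MemLp.toLp_add (Test.memLp f) (Test.memLp g)
  map_smul' c f := MemLp.toLp_const_smul c (Test.memLp f)

lemma toL2_coeFn (f : Test V) : toL2 V f =ᵐ[volume] (f : R4 → V) := (Test.memLp f).coeFn_toLp

lemma inner_toL2 (f g : Test V) :
    ⟪toL2 V f, toL2 V g⟫ = ∫ x, ⟪(f : R4 → V) x, (g : R4 → V) x⟫ := by
  rw [L2.inner_def]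
  refine integral_congr_ae ?_
  filter_upwards [toL2_coeFn f, toL2_coeFn g] with x h1 h2
  rw [h1, h2]

lemma inner_toL2_left (f : L2 V) (g : Test V) :
    ⟪f, toL2 V g⟫ = ∫ x, ⟪f x, (g : R4 → V) x⟫ := by
  rw [L2.inner_def]
  refine integral_congr_ae ?_
  filter_upwards [toL2_coeFn g] with x h2
  rw [h2]

lemma norm_toL2_sq (f : Test V) : ‖toL2 V f‖ ^ 2 = ∫ x, ‖(f : R4 → V) x‖ ^ 2 := by
  rw [← real_inner_self_eq_norm_sq, inner_toL2]
  exact integral_congr_ae (.of_forall fun x => real_inner_self_eq_norm_sq _)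

variable [FiniteDimensional ℝ V] [FiniteDimensional ℝ W]

lemma toL2_dense : DenseRange (toL2 V) := by
  refine (MeasureTheory.Lp.dense_hasCompactSupport_contDiff (F := V) (p := 2) (μ := (volume : Measure R4))
    ENNReal.ofNat_ne_top).mono ?_
  rintro F ⟨g, hg, hc, hs⟩
  refine ⟨⟨g, hs, hc⟩, Lp.ext ?_⟩
  exact (toL2_coeFn _).trans hg.symm

/-- An operator on tests bounded in `L²` extends to `L²`. -/
def extOp (A : Test V →ₗ[ℝ] Test W) : L2 V →L[ℝ] L2 W :=
  ((toL2 W).comp A).extendOfNorm (toL2 V)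

lemma extOp_apply {A : Test V →ₗ[ℝ] Test W} {c : ℝ}
    (h : ∀ f, ‖toL2 W (A f)‖ ≤ c * ‖toL2 V f‖) (f : Test V) :
    extOp A (toL2 V f) = toL2 W (A f) := by
  rw [extOp]
  exact LinearMap.extendOfNorm_eq (f := (toL2 W).comp A) (e := toL2 V) toL2_dense ⟨c, h⟩ f

lemma norm_extOp_le {A : Test V →ₗ[ℝ] Test W} {c : ℝ} (hc : 0 ≤ c)
    (h : ∀ f, ‖toL2 W (A f)‖ ≤ c * ‖toL2 V f‖) : ‖extOp A‖ ≤ c :=
  LinearMap.opNorm_extendOfNorm_le (f := (toL2 W).comp A) (e := toL2 V) toL2_dense hc h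

/-- A formal adjoint on tests gives the adjoint of the extension. -/
lemma adjoint_extOp {A : Test V →ₗ[ℝ] Test W} {A' : Test W →ₗ[ℝ] Test V} {c c' : ℝ}
    (h : ∀ f, ‖toL2 W (A f)‖ ≤ c * ‖toL2 V f‖) (h' : ∀ f, ‖toL2 V (A' f)‖ ≤ c' * ‖toL2 W f‖)
    (hadj : ∀ f g, ⟪toL2 W (A f), toL2 W g⟫ = ⟪toL2 V f, toL2 V (A' g)⟫) :
    ContinuousLinearMap.adjoint (extOp A) = extOp A' := by
  symm
  rw [ContinuousLinearMap.eq_adjoint_iff]
  intro x y
  refine DenseRange.induction_on (p := fun x => ⟪extOp A' x, y⟫ = ⟪x, extOp A y⟫) toL2_dense x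
    (isClosed_eq ((extOp A').continuous.inner continuous_const) (continuous_id.inner continuous_const))
    fun g => ?_
  refine DenseRange.induction_on
    (p := fun y => ⟪extOp A' (toL2 W g), y⟫ = ⟪toL2 W g, extOp A y⟫) toL2_dense y
    (isClosed_eq (continuous_const.inner continuous_id) (continuous_const.inner (extOp A).continuous))
    fun f => ?_
  rw [extOp_apply h', extOp_apply h]
  rw [real_inner_comm (toL2 V f), ← hadj, real_inner_comm]

end Vale.Agent.P204.Full.Elliptic
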